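/-
Row 258, block [S7b] (architect: helper243).  FILE Idx: API of the meshes / index sets and of admissible kernels.  Paper-free.
Leaves: P-SB-IDX (first section), P-SB-KER (second section).
All proofs are short: `sbDel τ = 2^(-τ)`, `I.len = 2^(-depth)`, `I.len = 2^(τ - depth).toNat * sbDel τ` for `depth ≤ τ`; `I.left = idx * len`.
Kernel: `Admissible.deriv` at `n = 0` (`norm_iteratedFDeriv_zero`) and `n = 1` (`norm_iteratedFDeriv_one`, `Convex.norm_image_sub_le_of_norm_fderiv_le` on `Set.univ`).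
The norm of `ℝ × ℝ` is the sup norm.
-/
import Claimed.Agent.R258.Pack009
import Claimed.Agent.R258.Pack006

set_option autoImplicit false
open MeasureTheory
open scoped ENNReal

namespace Claimed.Agent.R258

/-! ## Meshes and index sets -/

theorem sb_del_pos (τ : ℤ) : 0 < sbDel τ := by
  unfold sbDel; positivity

theorem sb_del_mul_zpow (τ : ℤ) : sbDel τ * (2 : ℝ) ^ τ = 1 := by
  unfold sbDel
  rw [← zpow_add₀ (by norm_num : (2:ℝ) ≠ 0)]
  simp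

theorem sb_del_add (τ : ℤ) (e : ℕ) : sbDel τ = 2 ^ e * sbDel (τ + e) := by
  unfold sbDel
  rw [← zpow_natCast, ← zpow_add₀ (by norm_num : (2:ℝ) ≠ 0)]
  congr 1
  ring

theorem sb_len_eq (τ : ℤ) (I : Cell) (h : I.depth ≤ τ) : I.len = 2 ^ (τ - I.depth).toNat * sbDel τ := by
  unfold sbDel Cell.len
  rw [← zpow_natCast, ← zpow_add₀ (by norm_num : (2:ℝ) ≠ 0)]
  congr 1
  rw [Int.toNat_of_nonneg (by omega)]
  ring

theorem sb_mem_idx_iff (τ : ℤ) (I : Cell) (h : I.depth ≤ τ) (n : ℤ) : n ∈ sbIdx τ I ↔ sbDel τ * n ∈ I.set := by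
  have hd := sb_del_pos τ
  unfold sbIdx Cell.set Cell.left Cell.right
  rw [Finset.mem_Ico, Set.mem_Ico, sb_len_eq τ I h]
  set a := (τ - I.depth).toNat
  constructor
  · rintro ⟨h1, h2⟩
    have h1' : ((I.idx * 2 ^ a : ℤ) : ℝ) ≤ n := by exact_mod_cast h1
    have h2' : (n : ℝ) < (((I.idx + 1) * 2 ^ a : ℤ) : ℝ) := by exact_mod_cast h2
    push_cast at h1' h2'
    constructor
    · nlinarith
    · nlinarith
  · rintro ⟨h1, h2⟩
    constructor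
    · have : ((I.idx * 2 ^ a : ℤ) : ℝ) ≤ n := by
        push_cast
        nlinarith
      exact_mod_cast this
    · have : (n : ℝ) < (((I.idx + 1) * 2 ^ a : ℤ) : ℝ) := by
        push_cast
        nlinarith
      exact_mod_cast this

/-- a point lies in `I` iff its fine index does. -/
theorem sb_floor_mem_idx_iff (τ : ℤ) (I : Cell) (h : I.depth ≤ τ) (y : ℝ) : ⌊y * (2 : ℝ) ^ τ⌋ ∈ sbIdx τ I ↔ y ∈ I.set := by
  have hd := sb_del_pos τ
  have h2 := sb_del_mul_zpow τ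
  have hz : (0:ℝ) < (2:ℝ) ^ τ := by positivity
  unfold sbIdx Cell.set Cell.left Cell.right
  rw [Finset.mem_Ico, Set.mem_Ico, sb_len_eq τ I h, Int.le_floor, Int.floor_lt]
  set a := (τ - I.depth).toNat
  push_cast
  have e : y = (y * (2:ℝ)^τ) * sbDel τ := by
    rw [mul_assoc, mul_comm ((2:ℝ)^τ), h2, mul_one]
  set Y := y * (2:ℝ)^τ
  rw [e]
  constructor
  · rintro ⟨h1, h2⟩
    constructor <;> nlinarith
  · rintro ⟨h1, h2⟩
    constructor <;> nlinarith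

theorem sb_inn_subset_idx (τ : ℤ) (I : Cell) : sbInn τ I ⊆ sbIdx τ I := by
  intro n hn
  unfold sbInn at hn
  unfold sbIdx
  rw [Finset.mem_Ico] at hn ⊢
  omega

theorem sb_idx_card (τ : ℤ) (I : Cell) (h : I.depth ≤ τ) : sbDel τ * ((sbIdx τ I).card : ℝ) = I.len := by
  rw [sb_len_eq τ I h]
  unfold sbIdx
  rw [Int.card_Ico]
  have : ((I.idx + 1) * 2 ^ (τ - I.depth).toNat - I.idx * 2 ^ (τ - I.depth).toNat).toNat = 2 ^ (τ - I.depth).toNat := by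
    have : (I.idx + 1) * 2 ^ (τ - I.depth).toNat - I.idx * 2 ^ (τ - I.depth).toNat = ((2 ^ (τ - I.depth).toNat : ℕ) : ℤ) := by
      push_cast; ring
    rw [this, Int.toNat_natCast]
  rw [this]
  push_cast
  ring

theorem sb_inn_card_le (τ : ℤ) (I : Cell) (h : I.depth ≤ τ) : sbDel τ / I.len * ((sbInn τ I).card : ℝ) ≤ 1 := by
  have h1 := sb_idx_card τ I h
  have h2 : ((sbInn τ I).card : ℝ) ≤ (sbIdx τ I).card := by
    exact_mod_cast Finset.card_le_card (sb_inn_subset_idx τ I)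
  have hl : 0 < I.len := cell_len_pos I
  have hd := sb_del_pos τ
  rw [div_mul_eq_mul_div, div_le_one hl, ← h1]
  exact mul_le_mul_of_nonneg_left h2 hd.le

/-- nested cells have nested index sets, cells which are not nested have disjoint index sets. -/
theorem sb_idx_subset (τ : ℤ) (I J : Cell) (hI : I.depth ≤ τ) (h : I ≤ J) : sbIdx τ I ⊆ sbIdx τ J := by
  intro n hn
  have hJ : J.depth ≤ τ := le_trans (cell_depth_le_of_le h) hI
  rw [sb_mem_idx_iff τ I hI] at hn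
  rw [sb_mem_idx_iff τ J hJ]
  exact cell_set_subset h hn

theorem sb_idx_disjoint (τ : ℤ) (I J : Cell) (hI : I.depth ≤ τ) (hJ : J.depth ≤ τ) (h1 : ¬ I ≤ J) (h2 : ¬ J ≤ I) :
    Disjoint (sbIdx τ I) (sbIdx τ J) := by
  rw [Finset.disjoint_left]
  intro n hn hn'
  rw [sb_mem_idx_iff τ I hI] at hn
  rw [sb_mem_idx_iff τ J hJ] at hn'
  exact (Set.disjoint_left.1 (cell_disjoint_iff.2 ⟨h1, h2⟩)) hn hn'

/-- refinement of the index: `k ∈ sbIdx (τ + e) I ↔ k / 2^e ∈ sbIdx τ I`. -/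
theorem sb_idx_refine (τ : ℤ) (e : ℕ) (I : Cell) (h : I.depth ≤ τ) (k : ℤ) : k ∈ sbIdx (τ + e) I ↔ k / 2 ^ e ∈ sbIdx τ I := by
  unfold sbIdx
  have e1 : (τ + e - I.depth).toNat = (τ - I.depth).toNat + e := by omega
  rw [e1, Finset.mem_Ico, Finset.mem_Ico, pow_add]
  set a : ℤ := 2 ^ (τ - I.depth).toNat
  have hp : (0 : ℤ) < 2 ^ e := by positivity
  rw [Int.le_ediv_iff_mul_le hp, Int.ediv_lt_iff_lt_mul hp, mul_assoc, mul_assoc]

theorem sb_floor_refine (τ : ℤ) (e : ℕ) (y : ℝ) : ⌊y * (2 : ℝ) ^ τ⌋ = ⌊y * (2 : ℝ) ^ (τ + e)⌋ / 2 ^ e := by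
  have hp : (0 : ℤ) < 2 ^ e := by positivity
  have e1 : y * (2 : ℝ) ^ (τ + e) = y * (2:ℝ) ^ τ * 2 ^ e := by
    rw [zpow_add₀ (by norm_num : (2:ℝ) ≠ 0), zpow_natCast, mul_assoc]
  rw [e1]
  set Y := y * (2:ℝ)^τ
  have hpr : (0 : ℝ) < 2 ^ e := by positivity
  apply le_antisymm
  · rw [Int.le_ediv_iff_mul_le hp, Int.le_floor]
    push_cast
    exact mul_le_mul_of_nonneg_right (Int.floor_le Y) hpr.le
  · rw [Int.le_floor]
    have h1 : ((⌊Y * 2 ^ e⌋ / 2 ^ e : ℤ) : ℝ) * 2 ^ e ≤ Y * 2 ^ e := by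
      have h2 : (⌊Y * 2 ^ e⌋ / 2 ^ e : ℤ) * 2 ^ e ≤ ⌊Y * 2 ^ e⌋ := Int.ediv_mul_le _ hp.ne'
      have h3 : (((⌊Y * 2 ^ e⌋ / 2 ^ e : ℤ) * 2 ^ e : ℤ) : ℝ) ≤ (⌊Y * 2 ^ e⌋ : ℝ) := by exact_mod_cast h2
      push_cast at h3
      exact h3.trans (Int.floor_le _)
    exact le_of_mul_le_mul_right h1 hpr

/-- the support margin in units of the slow mesh. -/
theorem sb_margin (c0 : ℝ) (b0 : ℕ) (hb0 : 4 ≤ c0 * 2 ^ b0) (I : Cell) (t : ℤ) (hI : I.depth < t) :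
    8 * sbDel (t + b0) ≤ c0 * I.len := by
  have hd := sb_del_pos (t + b0)
  have h1 : I.len = 2 ^ (t - I.depth).toNat * sbDel t := sb_len_eq t I hI.le
  have h2 : sbDel t = 2 ^ b0 * sbDel (t + b0) := sb_del_add t b0
  have h3 : (2 : ℝ) ≤ 2 ^ (t - I.depth).toNat := by
    have : 1 ≤ (t - I.depth).toNat := by omega
    calc (2:ℝ) = 2 ^ 1 := by norm_num
      _ ≤ _ := pow_le_pow_right₀ (by norm_num) this
  rw [h1, h2]
  have h4 : 0 ≤ c0 * 2 ^ b0 * sbDel (t + b0) := by nlinarith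
  calc 8 * sbDel (t + b0) = 2 * (4 * sbDel (t + b0)) := by ring
    _ ≤ 2 * (c0 * 2 ^ b0 * sbDel (t + b0)) := by nlinarith
    _ ≤ 2 ^ (t - I.depth).toNat * (c0 * 2 ^ b0 * sbDel (t + b0)) := mul_le_mul_of_nonneg_right h3 h4
    _ = _ := by ring

theorem sb_mem_inn (τ : ℤ) (I : Cell) (hτ : I.depth ≤ τ) (y : ℝ) (n : ℤ) (h1 : I.left + 8 * sbDel τ ≤ y)
    (h2 : y ≤ I.right - 8 * sbDel τ) (h : |y - sbDel τ * n| ≤ sbDel τ) : n ∈ sbInn τ I := by
  have hd := sb_del_pos τ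
  rw [abs_le] at h
  unfold Cell.left at h1
  unfold Cell.right at h2
  rw [sb_len_eq τ I hτ] at h1 h2
  unfold sbInn
  rw [Finset.mem_Ico]
  set a := (τ - I.depth).toNat
  constructor
  · have : ((I.idx * 2 ^ a + 6 : ℤ) : ℝ) ≤ n := by
      push_cast
      nlinarith
    exact_mod_cast this
  · have : (n : ℝ) < (((I.idx + 1) * 2 ^ a - 6 : ℤ) : ℝ) := by
      push_cast
      nlinarith
    exact_mod_cast this

/-- real form of the progression. -/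
theorem sb_ap_cast (n0 n1 : ℤ) (j : Fin 4) : ((sbAp n0 n1 j : ℤ) : ℝ) = (n0 : ℝ) + ((j : ℕ) : ℝ) * ((n1 : ℝ) - n0) := by
  unfold sbAp
  push_cast
  ring

/-! ## Admissible kernels -/

theorem sb_B0_one_le (C0 : ℝ) (hC0 : 1 ≤ C0) : 1 ≤ sbB0 C0 := by
  unfold sbB0
  apply Real.one_le_rpow
  · push_cast; nlinarith
  · push_cast; nlinarith

theorem sb_B1_one_le (C0 : ℝ) (hC0 : 1 ≤ C0) : 1 ≤ sbB1 C0 := by
  unfold sbB1
  apply Real.one_le_rpow
  · push_cast; nlinarith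
  · push_cast; nlinarith

theorem sb_ker_cont {c0 C0 : ℝ} {I : Cell} {w : ℝ × ℝ → ℂ} (hw : Admissible c0 C0 I w) : Continuous w :=
  hw.smooth.continuous

theorem sb_ker_bound {c0 C0 : ℝ} {I : Cell} {w : ℝ × ℝ → ℂ} (hw : Admissible c0 C0 I w) (p : ℝ × ℝ) : ‖w p‖ ≤ sbB0 C0 := by
  have := hw.deriv 0 p
  rw [norm_iteratedFDeriv_zero] at this
  simpa [sbB0] using this

theorem sb_ker_lip {c0 C0 : ℝ} {I : Cell} {w : ℝ × ℝ → ℂ} (hw : Admissible c0 C0 I w) (p p' : ℝ × ℝ) :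
    ‖w p - w p'‖ ≤ I.len⁻¹ * sbB1 C0 * ‖p - p'‖ := by
  have hd : Differentiable ℝ w := hw.smooth.differentiable (by simp)
  have hb : ∀ x ∈ (Set.univ : Set (ℝ × ℝ)), ‖fderiv ℝ w x‖ ≤ I.len⁻¹ * sbB1 C0 := by
    intro x _
    have := hw.deriv 1 x
    rw [norm_iteratedFDeriv_one] at this
    simpa [sbB1] using this
  exact Convex.norm_image_sub_le_of_norm_fderiv_le (fun x _ => hd x) hb convex_univ (Set.mem_univ _) (Set.mem_univ _)

/-- a point of the support: the four progression points are `8 δ`-deep inside `I`. -/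
theorem sb_ker_deep {c0 C0 : ℝ} {I : Cell} {w : ℝ × ℝ → ℂ} (hw : Admissible c0 C0 I w) (b0 : ℕ) (hb0 : 4 ≤ c0 * 2 ^ b0) (t : ℤ)
    (hI : I.depth < t) (p : ℝ × ℝ) (hp : w p ≠ 0) (j : Fin 4) :
    I.left + 8 * sbDel (t + b0) ≤ p.1 + ((j : ℕ) : ℝ) * p.2 ∧ p.1 + ((j : ℕ) : ℝ) * p.2 ≤ I.right - 8 * sbDel (t + b0) := by
  have h1 := hw.supp p hp j
  have h2 := sb_margin c0 b0 hb0 I t hI
  constructor
  · linarith [h1.1]
  · linarith [h1.2]

/-- a lattice point of the support: the four indices are interior. -/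
theorem sb_ker_inn {c0 C0 : ℝ} {I : Cell} {w : ℝ × ℝ → ℂ} (hw : Admissible c0 C0 I w) (b0 : ℕ) (hb0 : 4 ≤ c0 * 2 ^ b0) (t : ℤ)
    (hI : I.depth < t) (n0 n1 : ℤ) (h : w (sbDel (t + b0) * n0, sbDel (t + b0) * (n1 - n0)) ≠ 0) (j : Fin 4) :
    sbAp n0 n1 j ∈ sbInn (t + b0) I := by
  have h1 := sb_ker_deep hw b0 hb0 t hI _ h j
  simp only at h1
  refine sb_mem_inn (t + b0) I (by omega) _ _ h1.1 h1.2 ?_
  rw [sb_ap_cast]
  have : sbDel (t + ↑b0) * ↑n0 + ((j : ℕ) : ℝ) * (sbDel (t + ↑b0) * (↑n1 - ↑n0)) - sbDel (t + ↑b0) * (↑n0 + ((j : ℕ) : ℝ) * (↑n1 - ↑n0)) = 0 := by ring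
  rw [this, abs_zero]
  exact (sb_del_pos _).le

end Claimed.Agent.R258
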