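/-
Row 258, block [S7b] (architect: helper243).  FILE Abs: the continuous `(2,2,2,2)` progression estimate, integrability, step functions.  Paper-free.
Leaves: P-SB-ABS1 (`sb_abs_L2`), P-SB-ABS2 (`sb_int_le`, `sb_int_integrable`), P-SB-STEP (the section on step functions), P-SB-FORMLIM (`sb_form_tendsto`).

PROOFS.
* `sb_abs_L2`: Cauchy-Schwarz (`ENNReal.lintegral_mul_le_Lp_mul_Lq`, `p = q = 2`) for `(h0 h1)(h2 h3)`; the maps `(x,t) ↦ (x, x+t)` (`measurePreserving_prod_add`) and `(x,t) ↦ (x+2t, x+3t)`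
  (composition of `(x,t) ↦ (x+2t,t)` [Tonelli + translation invariance] with the previous one) preserve `volume` on `ℝ × ℝ`; Tonelli: `∫⁻ h0(y0)² h1(y1)² = ∫⁻ h0² ∫⁻ h1²`.
* `sb_int_le`: `norm_integral_le_lintegral_norm`, `lintegral_mono` (NO measurability of `k` is needed): `‖k p ∏ z_j‖ₑ ≤ ofReal B ∏_j (I.set.indicator ‖z_j‖ₑ)(y_j)`, `sb_abs_L2`, conversion to real integrals
  (`ofReal_integral_eq_lintegral_ofReal`).
* `sb_form_tendsto`: telescoping `∏ z'_j - ∏ z_j = ∑_i (∏_{j<i} z_j)(z'_i - z_i)(∏_{j>i} z'_j)` (four explicit terms), each term is bounded through `sb_abs_L2` by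
  `sbB0 C0 * ‖z'_i - z_i‖₂ ∏_{j ≠ i} (‖z_j‖₂ or ‖z'_j‖₂)`; the norms `‖z'_j‖₂` are bounded since they converge.  All integrands are integrable (finite `lintegral` by `sb_abs_L2`, `w` continuous).
-/
import Claimed.Agent.R258.S7b.Idx

set_option autoImplicit false
open MeasureTheory Filter Topology
open scoped ENNReal

namespace Claimed.Agent.R258

/-- Tonelli + translation invariance for a pair of consecutive progression points. -/
theorem sb_abs_pair (a b : ℝ → ℝ≥0∞) (ha : Measurable a) (hb : Measurable b) (c : ℝ) :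
    ∫⁻ p : ℝ × ℝ, a (p.1 + c * p.2) * b (p.1 + (c + 1) * p.2) = (∫⁻ y, a y) * ∫⁻ y, b y := by
  have hm : Measurable fun p : ℝ × ℝ => a (p.1 + c * p.2) * b (p.1 + (c + 1) * p.2) :=
    (ha.comp (measurable_fst.add (measurable_snd.const_mul c))).mul
      (hb.comp (measurable_fst.add (measurable_snd.const_mul (c + 1))))
  have hm2 : Measurable fun p : ℝ × ℝ => a p.1 * b (p.1 + p.2) :=
    (ha.comp measurable_fst).mul (hb.comp (measurable_fst.add measurable_snd))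
  rw [Measure.volume_eq_prod, lintegral_prod_symm _ hm.aemeasurable]
  have h1 : ∀ t : ℝ, ∫⁻ x : ℝ, a (x + c * t) * b (x + (c + 1) * t) = ∫⁻ x : ℝ, a x * b (x + t) := by
    intro t
    rw [← lintegral_add_right_eq_self (fun x : ℝ => a x * b (x + t)) (c * t)]
    refine lintegral_congr fun x => ?_
    congr 2
    ring
  simp only [h1]
  rw [lintegral_lintegral_swap (f := fun t x => a x * b (x + t))
    (hm2.comp measurable_swap).aemeasurable]
  have h2 : ∀ x : ℝ, ∫⁻ t : ℝ, a x * b (x + t) = a x * ∫⁻ y, b y := by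
    intro x
    have hbx : Measurable fun t : ℝ => b (x + t) := hb.comp (measurable_const.add measurable_id)
    rw [lintegral_const_mul _ hbx, lintegral_add_left_eq_self (fun y => b y) x]
  simp only [h2]
  rw [lintegral_mul_const _ ha]

/-- the absolute `L²` progression estimate. -/
theorem sb_abs_L2 (h : Fin 4 → ℝ → ℝ≥0∞) (hm : ∀ j, Measurable (h j)) :
    ∫⁻ p : ℝ × ℝ, ∏ j : Fin 4, h j (p.1 + ((j : ℕ) : ℝ) * p.2) ≤ ∏ j : Fin 4, (∫⁻ y, h j y ^ (2 : ℝ)) ^ (1 / 2 : ℝ) := by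
  have hl : ∀ c : ℝ, Measurable fun p : ℝ × ℝ => p.1 + c * p.2 := fun c =>
    measurable_fst.add (measurable_snd.const_mul c)
  have hsq : ∀ j, Measurable fun y => h j y ^ (2 : ℝ) := fun j => (hm j).pow_const _
  have hCS := ENNReal.lintegral_mul_le_Lp_mul_Lq (volume : Measure (ℝ × ℝ))
    (Real.HolderConjugate.two_two)
    (f := fun p => h 0 (p.1 + (0 : ℝ) * p.2) * h 1 (p.1 + ((0 : ℝ) + 1) * p.2))
    (g := fun p => h 2 (p.1 + (2 : ℝ) * p.2) * h 3 (p.1 + ((2 : ℝ) + 1) * p.2))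
    (((hm 0).comp (hl _)).mul ((hm 1).comp (hl _))).aemeasurable
    (((hm 2).comp (hl _)).mul ((hm 3).comp (hl _))).aemeasurable
  have e1 := sb_abs_pair _ _ (hsq 0) (hsq 1) 0
  have e2 := sb_abs_pair _ _ (hsq 2) (hsq 3) 2
  simp only [ENNReal.mul_rpow_of_nonneg _ _ (by norm_num : (0 : ℝ) ≤ 2)] at hCS
  rw [e1, e2, ENNReal.mul_rpow_of_nonneg _ _ (by norm_num : (0 : ℝ) ≤ 1 / 2),
    ENNReal.mul_rpow_of_nonneg _ _ (by norm_num : (0 : ℝ) ≤ 1 / 2)] at hCS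
  rw [Fin.prod_univ_four]
  refine le_trans (le_of_eq ?_) (hCS.trans (le_of_eq (by ring)))
  refine lintegral_congr fun p => ?_
  rw [Fin.prod_univ_four]
  simp only [Pi.mul_apply]
  norm_num
  ring_nf

/-- the basic bound in `ℝ≥0∞`, with majorants `H j` of the inputs on the support of the kernel. -/
theorem sb_lint_le (k : ℝ × ℝ → ℂ) (B : ℝ) (hk : ∀ p, ‖k p‖ ≤ B) (z : Fin 4 → ℝ → ℂ)
    (H : Fin 4 → ℝ → ℝ≥0∞) (hH : ∀ j, Measurable (H j))
    (hzH : ∀ p, k p ≠ 0 → ∀ j : Fin 4,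
      ‖z j (p.1 + ((j : ℕ) : ℝ) * p.2)‖ₑ ≤ H j (p.1 + ((j : ℕ) : ℝ) * p.2)) :
    ∫⁻ p : ℝ × ℝ, ‖k p * ∏ j : Fin 4, z j (p.1 + ((j : ℕ) : ℝ) * p.2)‖ₑ
      ≤ ENNReal.ofReal B * ∏ j : Fin 4, (∫⁻ y, H j y ^ (2 : ℝ)) ^ (1 / 2 : ℝ) := by
  calc ∫⁻ p : ℝ × ℝ, ‖k p * ∏ j : Fin 4, z j (p.1 + ((j : ℕ) : ℝ) * p.2)‖ₑ
      ≤ ∫⁻ p : ℝ × ℝ, ENNReal.ofReal B * ∏ j : Fin 4, H j (p.1 + ((j : ℕ) : ℝ) * p.2) := by
        refine lintegral_mono fun p => ?_
        by_cases hp : k p = 0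
        · rw [hp, zero_mul, enorm_zero]
          exact zero_le
        · have e : ‖∏ j : Fin 4, z j (p.1 + ((j : ℕ) : ℝ) * p.2)‖ₑ
              = ∏ j : Fin 4, ‖z j (p.1 + ((j : ℕ) : ℝ) * p.2)‖ₑ := by
            rw [← ofReal_norm, norm_prod, ENNReal.ofReal_prod_of_nonneg fun j _ => norm_nonneg _]
            exact Finset.prod_congr rfl fun j _ => ofReal_norm _
          rw [enorm_mul, e]
          refine mul_le_mul' ?_ (Finset.prod_le_prod' fun j _ => hzH p hp j)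
          rw [← ofReal_norm]
          exact ENNReal.ofReal_le_ofReal (hk p)
    _ = ENNReal.ofReal B * ∫⁻ p : ℝ × ℝ, ∏ j : Fin 4, H j (p.1 + ((j : ℕ) : ℝ) * p.2) :=
        lintegral_const_mul' _ _ ENNReal.ofReal_ne_top
    _ ≤ _ := mul_le_mul' le_rfl (sb_abs_L2 H hH)

theorem sb_cell_sq (I : Cell) (z : ℝ → ℂ) (hz2 : IntegrableOn (fun y => ‖z y‖ ^ 2) I.set) :
    (∫⁻ y, (I.set.indicator (fun y => ‖z y‖ₑ) y) ^ (2 : ℝ)) ^ (1 / 2 : ℝ)
      = ENNReal.ofReal (Real.sqrt (∫ y in I.set, ‖z y‖ ^ 2)) := by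
  have hI : MeasurableSet I.set := measurableSet_Ico
  have e1 : ∀ y, (I.set.indicator (fun y => ‖z y‖ₑ) y) ^ (2 : ℝ)
      = I.set.indicator (fun y => ENNReal.ofReal (‖z y‖ ^ 2)) y := by
    intro y
    by_cases hy : y ∈ I.set
    · rw [Set.indicator_of_mem hy, Set.indicator_of_mem hy, ENNReal.ofReal_pow (norm_nonneg _),
        ofReal_norm, ENNReal.rpow_ofNat]
    · rw [Set.indicator_of_notMem hy, Set.indicator_of_notMem hy,
        ENNReal.zero_rpow_of_pos (by norm_num)]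
  simp only [e1]
  rw [lintegral_indicator hI, ← ofReal_integral_eq_lintegral_ofReal hz2
    (Filter.Eventually.of_forall fun y => by positivity), Real.sqrt_eq_rpow,
    ENNReal.ofReal_rpow_of_nonneg (integral_nonneg fun y => by positivity) (by norm_num)]

theorem sb_cell_lint_le (I : Cell) (k : ℝ × ℝ → ℂ) (B : ℝ) (hk : ∀ p, ‖k p‖ ≤ B)
    (hks : ∀ p, k p ≠ 0 → ∀ j : Fin 4, p.1 + ((j : ℕ) : ℝ) * p.2 ∈ I.set)
    (z : Fin 4 → ℝ → ℂ) (hz : ∀ j, Measurable (z j)) (hz2 : ∀ j, IntegrableOn (fun y => ‖z j y‖ ^ 2) I.set) :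
    ∫⁻ p : ℝ × ℝ, ‖k p * ∏ j : Fin 4, z j (p.1 + ((j : ℕ) : ℝ) * p.2)‖ₑ
      ≤ ENNReal.ofReal (B * ∏ j : Fin 4, Real.sqrt (∫ y in I.set, ‖z j y‖ ^ 2)) := by
  have hB : 0 ≤ B := (norm_nonneg _).trans (hk 0)
  have h := sb_lint_le k B hk z (fun j => I.set.indicator fun y => ‖z j y‖ₑ)
    (fun j => (hz j).enorm.indicator measurableSet_Ico)
    (fun p hp j => by rw [Set.indicator_of_mem (hks p hp j)])
  simp only [sb_cell_sq I _ (hz2 _)] at h
  rwa [← ENNReal.ofReal_prod_of_nonneg (fun j _ => Real.sqrt_nonneg _), ← ENNReal.ofReal_mul hB] at h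

/-- a bounded kernel living on the progressions inside `I`. -/
theorem sb_int_le (I : Cell) (k : ℝ × ℝ → ℂ) (B : ℝ) (hB : 0 ≤ B) (hk : ∀ p, ‖k p‖ ≤ B)
    (hks : ∀ p, k p ≠ 0 → ∀ j : Fin 4, p.1 + ((j : ℕ) : ℝ) * p.2 ∈ I.set)
    (z : Fin 4 → ℝ → ℂ) (hz : ∀ j, Measurable (z j)) (hz2 : ∀ j, IntegrableOn (fun y => ‖z j y‖ ^ 2) I.set) :
    ‖∫ p : ℝ × ℝ, k p * ∏ j : Fin 4, z j (p.1 + ((j : ℕ) : ℝ) * p.2)‖
      ≤ B * ∏ j : Fin 4, Real.sqrt (∫ y in I.set, ‖z j y‖ ^ 2) := by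
  have h := (enorm_integral_le_lintegral_enorm _).trans (sb_cell_lint_le I k B hk hks z hz hz2)
  rw [← ofReal_norm] at h
  exact (ENNReal.ofReal_le_ofReal_iff
    (mul_nonneg hB (Finset.prod_nonneg fun j _ => Real.sqrt_nonneg _))).1 h

theorem sb_prog_measurable (z : Fin 4 → ℝ → ℂ) (hz : ∀ j, Measurable (z j)) :
    Measurable fun p : ℝ × ℝ => ∏ j : Fin 4, z j (p.1 + ((j : ℕ) : ℝ) * p.2) :=
  Finset.measurable_fun_prod _ fun j _ =>
    (hz j).comp (measurable_fst.add (measurable_snd.const_mul _))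

theorem sb_int_integrable (I : Cell) (k : ℝ × ℝ → ℂ) (hkm : Measurable k) (B : ℝ) (hk : ∀ p, ‖k p‖ ≤ B)
    (hks : ∀ p, k p ≠ 0 → ∀ j : Fin 4, p.1 + ((j : ℕ) : ℝ) * p.2 ∈ I.set)
    (z : Fin 4 → ℝ → ℂ) (hz : ∀ j, Measurable (z j)) (hz2 : ∀ j, IntegrableOn (fun y => ‖z j y‖ ^ 2) I.set) :
    Integrable (fun p : ℝ × ℝ => k p * ∏ j : Fin 4, z j (p.1 + ((j : ℕ) : ℝ) * p.2)) :=
  ⟨(hkm.mul (sb_prog_measurable z hz)).aestronglyMeasurable,
    (sb_cell_lint_le I k B hk hks z hz hz2).trans_lt ENNReal.ofReal_lt_top⟩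

/-! ## Step functions -/

theorem sb_step_measurable (ℓ : ℤ) (Z : ℤ → ℂ) : Measurable (sbStep ℓ Z) :=
  (measurable_from_top (f := Z)).comp (Int.measurable_floor.comp (measurable_id.mul_const _))

theorem sb_step_sq_integrableOn (ℓ : ℤ) (Z : ℤ → ℂ) (I : Cell) : IntegrableOn (fun y => ‖sbStep ℓ Z y‖ ^ 2) I.set := by
  have hpos : (0 : ℝ) < 2 ^ ℓ := by positivity
  refine Measure.integrableOn_of_bounded (M := ∑ k ∈ Finset.Icc ⌊I.left * (2 : ℝ) ^ ℓ⌋ ⌊I.right * (2 : ℝ) ^ ℓ⌋, ‖Z k‖ ^ 2)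
    ?_ ((sb_step_measurable ℓ Z).norm.pow_const 2).aestronglyMeasurable ?_
  · show volume (Set.Ico I.left I.right) ≠ ⊤
    rw [Real.volume_Ico]
    exact ENNReal.ofReal_ne_top
  · refine (ae_restrict_iff' (measurableSet_Ico : MeasurableSet I.set)).2 (Filter.Eventually.of_forall fun y hy => ?_)
    rw [Real.norm_of_nonneg (by positivity)]
    have hmem : ⌊y * (2 : ℝ) ^ ℓ⌋ ∈ Finset.Icc ⌊I.left * (2 : ℝ) ^ ℓ⌋ ⌊I.right * (2 : ℝ) ^ ℓ⌋ :=
      Finset.mem_Icc.2 ⟨Int.floor_le_floor (mul_le_mul_of_nonneg_right hy.1 hpos.le),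
        Int.floor_le_floor (mul_le_mul_of_nonneg_right hy.2.le hpos.le)⟩
    exact Finset.single_le_sum (f := fun k => ‖Z k‖ ^ 2) (fun k _ => by positivity) hmem

theorem sb_floor_eq_iff (ℓ : ℤ) (y : ℝ) (k : ℤ) :
    ⌊y * (2 : ℝ) ^ ℓ⌋ = k ↔ y ∈ Set.Ico (sbDel ℓ * k) (sbDel ℓ * (k + 1)) := by
  have hpos : (0 : ℝ) < 2 ^ ℓ := by positivity
  have hd : sbDel ℓ = ((2 : ℝ) ^ ℓ)⁻¹ := by unfold sbDel; rw [zpow_neg]
  rw [Int.floor_eq_iff, Set.mem_Ico, hd, inv_mul_le_iff₀ hpos, lt_inv_mul_iff₀ hpos, mul_comm y]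

theorem sb_step_sq_integral (ℓ : ℤ) (Z : ℤ → ℂ) (I : Cell) (h : I.depth ≤ ℓ) :
    ∫ y in I.set, ‖sbStep ℓ Z y‖ ^ 2 = sbDel ℓ * ∑ k ∈ sbIdx ℓ I, ‖Z k‖ ^ 2 := by
  have hI : MeasurableSet I.set := measurableSet_Ico
  have e : I.set.indicator (fun y => ‖sbStep ℓ Z y‖ ^ 2)
      = fun y => ∑ k ∈ sbIdx ℓ I, (Set.Ico (sbDel ℓ * k) (sbDel ℓ * (k + 1))).indicator (fun _ => ‖Z k‖ ^ 2) y := by
    funext y
    by_cases hy : y ∈ I.set
    · rw [Set.indicator_of_mem hy]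
      have hk := (sb_floor_mem_idx_iff ℓ I h y).2 hy
      rw [Finset.sum_eq_single_of_mem _ hk, Set.indicator_of_mem ((sb_floor_eq_iff ℓ y _).1 rfl)]
      · rfl
      · intro k _ hne
        exact Set.indicator_of_notMem (fun hmem => hne ((sb_floor_eq_iff ℓ y k).2 hmem).symm) _
    · rw [Set.indicator_of_notMem hy]
      refine (Finset.sum_eq_zero fun k hk => ?_).symm
      refine Set.indicator_of_notMem (fun hmem => hy ?_) _
      rw [← sb_floor_mem_idx_iff ℓ I h y, (sb_floor_eq_iff ℓ y k).2 hmem]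
      exact hk
  rw [← integral_indicator hI, e, integral_finsetSum]
  · rw [Finset.mul_sum]
    refine Finset.sum_congr rfl fun k _ => ?_
    rw [integral_indicator_const _ measurableSet_Ico, Measure.real, Real.volume_Ico,
      ENNReal.toReal_ofReal, smul_eq_mul]
    · ring
    · have := sb_del_pos ℓ
      nlinarith
  · intro k _
    refine (integrable_indicator_iff measurableSet_Ico).2 (integrableOn_const ?_)
    rw [Real.volume_Ico]
    exact ENNReal.ofReal_ne_top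

/-- the sampled kernel is measurable. -/
theorem sb_sker_measurable (τ : ℤ) (w : ℝ × ℝ → ℂ) (hw : Continuous w) : Measurable (sbKer τ w) := by
  have hc : Measurable fun n : ℤ => (n : ℝ) := measurable_from_top
  have h1 : Measurable fun p : ℝ × ℝ => ((⌊p.1 * (2 : ℝ) ^ τ⌋ : ℤ) : ℝ) :=
    hc.comp (Int.measurable_floor.comp (measurable_fst.mul_const _))
  have h2 : Measurable fun p : ℝ × ℝ => ((⌊(p.1 + p.2) * (2 : ℝ) ^ τ⌋ : ℤ) : ℝ) :=
    hc.comp (Int.measurable_floor.comp ((measurable_fst.add measurable_snd).mul_const _))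
  exact hw.measurable.comp ((h1.const_mul _).prodMk ((h2.sub h1).const_mul _))

/-- integrability of the integrand of a form with step inputs. -/
theorem sb_step_integrable {c0 C0 : ℝ} (hc0 : 0 < c0) {I : Cell} {w : ℝ × ℝ → ℂ} (hw : Admissible c0 C0 I w) (ℓ : ℤ) (Z : Fin 4 → ℤ → ℂ) :
    Integrable (fun p : ℝ × ℝ => w p * ∏ j : Fin 4, sbStep ℓ (Z j) (p.1 + ((j : ℕ) : ℝ) * p.2)) := by
  have hlen : 0 < I.len := by unfold Cell.len; positivity
  refine sb_int_integrable I w (sb_ker_cont hw).measurable (sbB0 C0) (sb_ker_bound hw) (fun p hp j => ?_)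
    (fun j => sbStep ℓ (Z j)) (fun j => sb_step_measurable ℓ (Z j)) (fun j => sb_step_sq_integrableOn ℓ (Z j) I)
  have h := hw.supp p hp j
  have h3 : 0 < c0 * I.len := mul_pos hc0 hlen
  exact ⟨by linarith [h.1], by linarith [h.2]⟩

/-! ## Continuity of the form in `L²` -/

/-- the global `L²` bound. -/
theorem sb_glob_lint_le (k : ℝ × ℝ → ℂ) (B : ℝ) (hk : ∀ p, ‖k p‖ ≤ B) (z : Fin 4 → ℝ → ℂ)
    (hz : ∀ j, Measurable (z j)) :
    ∫⁻ p : ℝ × ℝ, ‖k p * ∏ j : Fin 4, z j (p.1 + ((j : ℕ) : ℝ) * p.2)‖ₑ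
      ≤ ENNReal.ofReal B * ∏ j : Fin 4, eLpNorm (z j) 2 volume := by
  have h := sb_lint_le k B hk z (fun j y => ‖z j y‖ₑ) (fun j => (hz j).enorm) (fun p _ j => le_rfl)
  have e : ∀ j, eLpNorm (z j) 2 volume = (∫⁻ y, ‖z j y‖ₑ ^ (2 : ℝ)) ^ (1 / 2 : ℝ) := fun j => by
    rw [eLpNorm_eq_lintegral_rpow_enorm_toReal (by norm_num) (by norm_num)]
    norm_num
  simp only [e]
  exact h

theorem sb_glob_integrable (k : ℝ × ℝ → ℂ) (hkm : Measurable k) (B : ℝ) (hk : ∀ p, ‖k p‖ ≤ B)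
    (z : Fin 4 → ℝ → ℂ) (hz : ∀ j, Measurable (z j)) (hz2 : ∀ j, MemLp (z j) 2 volume) :
    Integrable (fun p : ℝ × ℝ => k p * ∏ j : Fin 4, z j (p.1 + ((j : ℕ) : ℝ) * p.2)) :=
  ⟨(hkm.mul (sb_prog_measurable z hz)).aestronglyMeasurable,
    (sb_glob_lint_le k B hk z hz).trans_lt (ENNReal.mul_lt_top ENNReal.ofReal_lt_top
      (ENNReal.prod_lt_top fun j _ => (hz2 j).2))⟩

theorem sb_glob_int_le (k : ℝ × ℝ → ℂ) (B : ℝ) (hk : ∀ p, ‖k p‖ ≤ B)
    (z : Fin 4 → ℝ → ℂ) (hz : ∀ j, Measurable (z j)) (hz2 : ∀ j, MemLp (z j) 2 volume) :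
    ‖∫ p : ℝ × ℝ, k p * ∏ j : Fin 4, z j (p.1 + ((j : ℕ) : ℝ) * p.2)‖
      ≤ B * ∏ j : Fin 4, (eLpNorm (z j) 2 volume).toReal := by
  have hB : 0 ≤ B := (norm_nonneg _).trans (hk 0)
  have h := (enorm_integral_le_lintegral_enorm _).trans (sb_glob_lint_le k B hk z hz)
  have e : ∀ j, eLpNorm (z j) 2 volume = ENNReal.ofReal (eLpNorm (z j) 2 volume).toReal := fun j =>
    (ENNReal.ofReal_toReal (hz2 j).2.ne).symm
  rw [← ofReal_norm, Finset.prod_congr rfl fun j _ => e j,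
    ← ENNReal.ofReal_prod_of_nonneg (fun j _ => ENNReal.toReal_nonneg), ← ENNReal.ofReal_mul hB] at h
  exact (ENNReal.ofReal_le_ofReal_iff
    (mul_nonneg hB (Finset.prod_nonneg fun j _ => ENNReal.toReal_nonneg))).1 h

/-- the hybrid tuples of the telescoping sum. -/
noncomputable def sbHyb (z z' : Fin 4 → ℝ → ℂ) (i j : Fin 4) : ℝ → ℂ :=
  if j < i then z j else if j = i then z' j - z j else z' j

theorem sb_hyb_sum (z z' : Fin 4 → ℝ → ℂ) (y : Fin 4 → ℝ) :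
    ∑ i : Fin 4, ∏ j : Fin 4, sbHyb z z' i j (y j) = ∏ j : Fin 4, z' j (y j) - ∏ j : Fin 4, z j (y j) := by
  simp only [Fin.sum_univ_four, Fin.prod_univ_four, sbHyb]
  simp
  ring

theorem sb_form_tendsto {c0 C0 : ℝ} {I : Cell} {w : ℝ × ℝ → ℂ} (hw : Admissible c0 C0 I w) (z : Fin 4 → ℝ → ℂ) (zz : ℕ → Fin 4 → ℝ → ℂ)
    (hzm : ∀ j, Measurable (z j)) (hzzm : ∀ n j, Measurable (zz n j))
    (hz : ∀ j, MemLp (z j) 2 volume) (hzz : ∀ n j, MemLp (zz n j) 2 volume)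
    (h : ∀ j, Tendsto (fun n => eLpNorm (zz n j - z j) 2 volume) atTop (𝓝 0)) :
    Tendsto (fun n => form I w (zz n)) atTop (𝓝 (form I w z)) := by
  have hk := sb_ker_bound hw
  have hkm := (sb_ker_cont hw).measurable
  have hB : 0 ≤ sbB0 C0 := (norm_nonneg _).trans (hk 0)
  set D : ℕ → Fin 4 → ℝ := fun n j => (eLpNorm (zz n j - z j) 2 volume).toReal with hD
  set S : ℕ → ℝ := fun n => ∑ j, D n j with hS
  set K : ℝ := ∑ j, (eLpNorm (z j) 2 volume).toReal with hK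
  have hD0 : ∀ n j, 0 ≤ D n j := fun n j => ENNReal.toReal_nonneg
  have hS0 : ∀ n, 0 ≤ S n := fun n => Finset.sum_nonneg fun j _ => hD0 n j
  have hK0 : 0 ≤ K := Finset.sum_nonneg fun j _ => ENNReal.toReal_nonneg
  have hDS : ∀ n j, D n j ≤ S n := fun n j =>
    Finset.single_le_sum (f := fun j => D n j) (fun j _ => hD0 n j) (Finset.mem_univ j)
  have hCK : ∀ j, (eLpNorm (z j) 2 volume).toReal ≤ K := fun j =>
    Finset.single_le_sum (f := fun j => (eLpNorm (z j) 2 volume).toReal)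
      (fun j _ => ENNReal.toReal_nonneg) (Finset.mem_univ j)
  have hSt : Tendsto S atTop (𝓝 0) := by
    have h1 : ∀ j, Tendsto (fun n => D n j) atTop (𝓝 0) := fun j => by
      have := (ENNReal.tendsto_toReal ENNReal.zero_ne_top).comp (h j)
      rw [ENNReal.toReal_zero] at this
      exact this
    have h2 := tendsto_finsetSum (Finset.univ : Finset (Fin 4)) fun j _ => h1 j
    simpa using h2
  -- the hybrid tuples
  have hHm : ∀ n i j, Measurable (sbHyb z (zz n) i j) := by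
    intro n i j
    unfold sbHyb
    split_ifs
    · exact hzm j
    · exact (hzzm n j).sub (hzm j)
    · exact hzzm n j
  have hHL : ∀ n i j, MemLp (sbHyb z (zz n) i j) 2 volume := by
    intro n i j
    unfold sbHyb
    split_ifs
    · exact hz j
    · exact (hzz n j).sub (hz j)
    · exact hzz n j
  have hHle : ∀ n i j, (eLpNorm (sbHyb z (zz n) i j) 2 volume).toReal ≤ S n + K := by
    intro n i j
    unfold sbHyb
    split_ifs
    · linarith [hCK j, hS0 n]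
    · linarith [hDS n j, hK0]
    · have e : zz n j = (zz n j - z j) + z j := by rw [sub_add_cancel]
      have h1 : eLpNorm (zz n j) 2 volume ≤ eLpNorm (zz n j - z j) 2 volume + eLpNorm (z j) 2 volume := by
        conv_lhs => rw [e]
        exact eLpNorm_add_le ((hzzm n j).sub (hzm j)).aestronglyMeasurable (hzm j).aestronglyMeasurable
          (by norm_num)
      have h2 := ENNReal.toReal_mono (ENNReal.add_ne_top.2 ⟨((hzz n j).sub (hz j)).2.ne, (hz j).2.ne⟩) h1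
      rw [ENNReal.toReal_add ((hzz n j).sub (hz j)).2.ne (hz j).2.ne] at h2
      linarith [hDS n j, hCK j]
  have hHii : ∀ n i, (eLpNorm (sbHyb z (zz n) i i) 2 volume).toReal ≤ S n := by
    intro n i
    unfold sbHyb
    rw [if_neg (lt_irrefl i), if_pos rfl]
    exact hDS n i
  have hprod : ∀ n i, ∏ j : Fin 4, (eLpNorm (sbHyb z (zz n) i j) 2 volume).toReal ≤ S n * (S n + K) ^ 3 := by
    intro n i
    rw [← Finset.mul_prod_erase Finset.univ _ (Finset.mem_univ i)]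
    refine mul_le_mul (hHii n i) ?_ (Finset.prod_nonneg fun j _ => ENNReal.toReal_nonneg) (hS0 n)
    have h3 : ((Finset.univ : Finset (Fin 4)).erase i).card = 3 := by
      rw [Finset.card_erase_of_mem (Finset.mem_univ i)]
      rfl
    rw [← h3, ← Finset.prod_const]
    exact Finset.prod_le_prod (fun j _ => ENNReal.toReal_nonneg) fun j _ => hHle n i j
  have hint : ∀ a : Fin 4 → ℝ → ℂ, (∀ j, Measurable (a j)) → (∀ j, MemLp (a j) 2 volume) →
      Integrable (fun p : ℝ × ℝ => w p * ∏ j : Fin 4, a j (p.1 + ((j : ℕ) : ℝ) * p.2)) := fun a ha ha2 =>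
    sb_glob_integrable w hkm _ hk a ha ha2
  have hdiff : ∀ n, form I w (zz n) - form I w z = (((I.len ^ 2)⁻¹ : ℝ) : ℂ) *
      ∑ i : Fin 4, ∫ p : ℝ × ℝ, w p * ∏ j : Fin 4, sbHyb z (zz n) i j (p.1 + ((j : ℕ) : ℝ) * p.2) := by
    intro n
    unfold form
    rw [← mul_sub, ← integral_sub (hint _ (hzzm n) (hzz n)) (hint _ hzm hz),
      ← integral_finsetSum _ fun i _ => hint _ (hHm n i) (hHL n i)]
    congr 1
    refine integral_congr_ae (Filter.Eventually.of_forall fun p => ?_)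
    show w p * _ - w p * _ = ∑ i : Fin 4, w p * _
    rw [← mul_sub, ← Finset.mul_sum, sb_hyb_sum z (zz n) fun j => p.1 + ((j : ℕ) : ℝ) * p.2]
  have hbound : ∀ n, ‖form I w (zz n) - form I w z‖
      ≤ (I.len ^ 2)⁻¹ * (4 * (sbB0 C0 * (S n * (S n + K) ^ 3))) := by
    intro n
    rw [hdiff, norm_mul, Complex.norm_real, Real.norm_of_nonneg (by positivity)]
    refine mul_le_mul_of_nonneg_left ?_ (by positivity)
    refine (norm_sum_le _ _).trans ?_
    have h4 : ∀ i ∈ (Finset.univ : Finset (Fin 4)),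
        ‖∫ p : ℝ × ℝ, w p * ∏ j : Fin 4, sbHyb z (zz n) i j (p.1 + ((j : ℕ) : ℝ) * p.2)‖
          ≤ sbB0 C0 * (S n * (S n + K) ^ 3) := fun i _ =>
      (sb_glob_int_le w _ hk _ (hHm n i) (hHL n i)).trans (mul_le_mul_of_nonneg_left (hprod n i) hB)
    refine (Finset.sum_le_sum h4).trans (le_of_eq ?_)
    rw [Finset.sum_const, Finset.card_univ, Fintype.card_fin, nsmul_eq_mul]
    norm_num
  rw [tendsto_iff_norm_sub_tendsto_zero]
  refine squeeze_zero (fun n => norm_nonneg _) hbound ?_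
  have hc : Continuous fun s : ℝ => (I.len ^ 2)⁻¹ * (4 * (sbB0 C0 * (s * (s + K) ^ 3))) := by fun_prop
  have := (hc.tendsto' 0 0 (by simp)).comp hSt
  exact this

end Claimed.Agent.R258
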