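/-
Row 258, block [S7b] (architect: helper243).  FILE Burst: RETURN TO THE CONTINUOUS FORM BY BURSTS (sides.tex l.385-420).  Self-contained (no need to read the paper).
Leaves: P-SB-BU1 (`sb_burst_apply`, `sb_burst_zero`, `sb_burst_measurable`, `sb_burst_bddCS`), P-SB-BU2 (`sb_burst_prod`), P-SB-BU3 (`sb_pol_measurable`, `sb_pol_volume`, `sb_ar_bounds`),
P-SB-BU4 (`sb_pol_near`, `sb_pol_zero`, `sb_pol_int`), P-SB-BU5 (`sb_burst_form`).

`δ = sbDel τ`.  The burst function is `g(y) = ∑_{n ∈ Nall} c(n) 1[|y - δ n| < δ/32]`; the bursts are pairwise disjoint.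
* `sb_burst_prod`: if the four points `y_j = p.1 + j p.2` lie in the bursts of `n_0,..,n_3` then `|δ (n_2 - 2 n_1 + n_0)| < 4 δ/32` and `|δ (n_3 - 3 n_1 + 2 n_0)| < 6 δ/32`, so `n_j = sbAp n0 n1 j`, i.e. `p ∈ sbPol τ n0 n1`;
  the polygons are pairwise disjoint.  Case 1: `p ∈ sbPol τ n0 n1`: LHS `= ∏ c_j(sbAp n0 n1 j)` (`sb_burst_apply`; if an index is not in `Nall` use `hc`), RHS: only this term (zero by `hc` if `n0` or `n1 ∉ Nall`).
  Case 2: `p` in no polygon: some factor of the LHS vanishes.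
* `sb_pol_volume`: `sbPol τ n0 n1` is the translate of `sbPol τ 0 0` by `(δ n0, δ (n1 - n0))`.   * `sb_ar_bounds`: `{|x| < δ/128, |t| < δ/128} ⊆ sbPol τ 0 0 ⊆ {|x| < δ/32, |x + t| < δ/32}`
  (the second set has volume `(δ/16)²`: shear `measurePreserving_prod_add`, or `⊆ {|x| < δ/32} × {|t| < δ/16}` which gives only `1/128`: then adjust NOTHING, prove `≤ 1/256` by the shear).
* `sb_pol_int`: `‖w p - w(centre)‖ ≤ |I|⁻¹ B1 δ/16` on the polygon (`sb_ker_lip`, `sb_pol_near`), `norm_setIntegral_le_of_norm_le_const`.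
* `sb_pol_zero`: if `w p ≠ 0`, `p` in the polygon, then `y_j` is `8 δ`-deep in `I` (`sb_ker_deep`) and `|y_j - δ n_j| < δ/32`: `sb_mem_inn`.
* `sb_burst_form`: `form = |I|⁻² ∑_{n0,n1 ∈ Nall} ∏ c_j(n_j) ∫_{sbPol} w` (`sb_burst_prod`, `integral_finset_sum`, `integral_indicator`; `w` is continuous and bounded, the polygons have finite volume).
  Terms with some `n_j ∉ sbInn τ I` vanish on both sides (`sb_pol_zero`, `sb_ker_inn`); terms of `sbSamp` with `n0` or `n1 ∉ Nall` vanish by `hc`.  For the others use `sb_pol_int`, `sbAr τ ≤ 1/256`.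
-/
import Claimed.Agent.R258.S7b.Abs

set_option autoImplicit false
open MeasureTheory
open scoped ENNReal

namespace Claimed.Agent.R258

/-- the bursts are pairwise disjoint -/
theorem sb_burst_unique (τ : ℤ) {y : ℝ} {n m : ℤ} (hn : |y - sbDel τ * n| < sbDel τ / 32)
    (hm : |y - sbDel τ * m| < sbDel τ / 32) : n = m := by
  have hδ := sb_del_pos τ
  rw [abs_lt] at hn hm
  have h1 : sbDel τ * ((n : ℝ) - m) < sbDel τ * 1 := by nlinarith [hn.1, hn.2, hm.1, hm.2]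
  have h2 : sbDel τ * (-1) < sbDel τ * ((n : ℝ) - m) := by nlinarith [hn.1, hn.2, hm.1, hm.2]
  have h3 : ((n : ℝ) - m) < 1 := lt_of_mul_lt_mul_left h1 hδ.le
  have h4 : (-1 : ℝ) < ((n : ℝ) - m) := lt_of_mul_lt_mul_left h2 hδ.le
  have h5 : n - m < 1 := by exact_mod_cast h3
  have h6 : -1 < n - m := by exact_mod_cast h4
  omega

theorem sb_burst_apply (τ : ℤ) (Nall : Finset ℤ) (c : ℤ → ℂ) (y : ℝ) (n : ℤ) (hn : n ∈ Nall) (hy : |y - sbDel τ * n| < sbDel τ / 32) :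
    sbBurst τ Nall c y = c n := by
  unfold sbBurst
  rw [Finset.sum_eq_single n, if_pos hy]
  · intro m _ hmn
    rw [if_neg]
    intro hm
    exact hmn (sb_burst_unique τ hm hy)
  · intro h
    exact absurd hn h

theorem sb_burst_zero (τ : ℤ) (Nall : Finset ℤ) (c : ℤ → ℂ) (y : ℝ) (hy : ∀ n ∈ Nall, ¬ |y - sbDel τ * n| < sbDel τ / 32) :
    sbBurst τ Nall c y = 0 := by
  unfold sbBurst
  exact Finset.sum_eq_zero fun n hn => if_neg (hy n hn)

/-- version for sequences which vanish off `Nall` -/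
theorem sb_burst_apply' (τ : ℤ) (Nall : Finset ℤ) (c : ℤ → ℂ) (hc : ∀ n, n ∉ Nall → c n = 0) (y : ℝ)
    (n : ℤ) (hy : |y - sbDel τ * n| < sbDel τ / 32) : sbBurst τ Nall c y = c n := by
  by_cases hn : n ∈ Nall
  · exact sb_burst_apply τ Nall c y n hn hy
  · rw [hc n hn]
    refine sb_burst_zero τ Nall c y fun m hm hym => ?_
    exact hn (sb_burst_unique τ hy hym ▸ hm)

theorem sb_burst_measurable (τ : ℤ) (Nall : Finset ℤ) (c : ℤ → ℂ) : Measurable (sbBurst τ Nall c) := by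
  unfold sbBurst
  refine Finset.measurable_fun_sum _ fun n _ => ?_
  refine Measurable.ite (measurableSet_lt ?_ measurable_const) measurable_const measurable_const
  exact (by fun_prop : Continuous fun y : ℝ => |y - sbDel τ * n|).measurable

theorem sb_burst_bddCS (τ : ℤ) (Nall : Finset ℤ) (c : ℤ → ℂ) : BddCS (sbBurst τ Nall c) := by
  have hδ := sb_del_pos τ
  refine ⟨sb_burst_measurable τ Nall c, ⟨∑ n ∈ Nall, ‖c n‖, fun x => ?_⟩,
    ⟨∑ n ∈ Nall, (|sbDel τ * n| + sbDel τ), fun x hx => ?_⟩⟩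
  · unfold sbBurst
    refine (norm_sum_le _ _).trans (Finset.sum_le_sum fun n _ => ?_)
    split_ifs
    · exact le_rfl
    · simp
  · refine sb_burst_zero τ Nall c x fun n hn hxn => ?_
    have h1 : |sbDel τ * n| + sbDel τ ≤ ∑ n ∈ Nall, (|sbDel τ * (n : ℝ)| + sbDel τ) :=
      Finset.single_le_sum (f := fun n : ℤ => |sbDel τ * (n : ℝ)| + sbDel τ)
        (fun m _ => by positivity) hn
    have h2 : |x| ≤ |x - sbDel τ * n| + |sbDel τ * n| := by
      have := abs_add_le (x - sbDel τ * n) (sbDel τ * n)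
      simpa using this
    linarith

theorem sb_ap_zero (n0 n1 : ℤ) : sbAp n0 n1 0 = n0 := by
  simp [sbAp]

theorem sb_ap_one (n0 n1 : ℤ) : sbAp n0 n1 1 = n1 := by
  simp [sbAp]

theorem sb_ap_two (n0 n1 : ℤ) : sbAp n0 n1 2 = 2 * n1 - n0 := by
  simp only [sbAp, Fin.val_two]
  push_cast
  ring

theorem sb_ap_three (n0 n1 : ℤ) : sbAp n0 n1 3 = 3 * n1 - 2 * n0 := by
  have : ((3 : Fin 4) : ℕ) = 3 := rfl
  simp only [sbAp, this]
  push_cast
  ring

theorem sb_mem_pol_iff (τ n0 n1 : ℤ) (p : ℝ × ℝ) : p ∈ sbPol τ n0 n1 ↔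
    ∀ j : Fin 4, |p.1 + ((j : ℕ) : ℝ) * p.2 - sbDel τ * (sbAp n0 n1 j : ℤ)| < sbDel τ / 32 := Iff.rfl

/-- the polygons are pairwise disjoint -/
theorem sb_pol_unique (τ : ℤ) {n0 n1 m0 m1 : ℤ} {p : ℝ × ℝ} (h : p ∈ sbPol τ n0 n1)
    (h' : p ∈ sbPol τ m0 m1) : n0 = m0 ∧ n1 = m1 := by
  rw [sb_mem_pol_iff] at h h'
  have a0 := sb_burst_unique τ (h 0) (h' 0)
  have a1 := sb_burst_unique τ (h 1) (h' 1)
  rw [sb_ap_zero, sb_ap_zero] at a0
  rw [sb_ap_one, sb_ap_one] at a1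
  exact ⟨a0, a1⟩

/-- integers: `|δ k| < δ` implies `k = 0` -/
theorem sb_int_eq_zero (τ : ℤ) {k : ℤ} (h : |sbDel τ * (k : ℝ)| < sbDel τ) : k = 0 := by
  have hδ := sb_del_pos τ
  rw [abs_mul, abs_of_pos hδ] at h
  have h1 : |(k : ℝ)| < 1 := by
    have : sbDel τ * |(k : ℝ)| < sbDel τ * 1 := by rwa [mul_one]
    exact lt_of_mul_lt_mul_left this hδ.le
  have h2 : |k| < 1 := by exact_mod_cast h1
  exact Int.abs_lt_one_iff.mp h2

/-- four bursts met by a progression -/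
theorem sb_pol_of_bursts (τ : ℤ) (p : ℝ × ℝ) (n : Fin 4 → ℤ)
    (h : ∀ j : Fin 4, |p.1 + ((j : ℕ) : ℝ) * p.2 - sbDel τ * (n j : ℝ)| < sbDel τ / 32) :
    p ∈ sbPol τ (n 0) (n 1) := by
  have hδ := sb_del_pos τ
  have h0 := h 0
  have h1 := h 1
  have h2 := h 2
  have h3 := h 3
  have e3 : ((3 : Fin 4) : ℕ) = 3 := rfl
  simp only [Fin.val_zero, Fin.val_one, Fin.val_two, e3, Nat.cast_zero, Nat.cast_one, Nat.cast_ofNat,
    zero_mul, one_mul, add_zero] at h0 h1 h2 h3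
  rw [abs_lt] at h0 h1 h2 h3
  have k2 : n 2 - 2 * n 1 + n 0 = 0 := by
    refine sb_int_eq_zero τ ?_
    push_cast
    rw [abs_lt]
    constructor <;> nlinarith [h0.1, h0.2, h1.1, h1.2, h2.1, h2.2]
  have k3 : n 3 - 3 * n 1 + 2 * n 0 = 0 := by
    refine sb_int_eq_zero τ ?_
    push_cast
    rw [abs_lt]
    constructor <;> nlinarith [h0.1, h0.2, h1.1, h1.2, h3.1, h3.2]
  rw [sb_mem_pol_iff]
  intro j
  have : sbAp (n 0) (n 1) j = n j := by
    fin_cases j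
    · exact sb_ap_zero _ _
    · exact sb_ap_one _ _
    · show sbAp (n 0) (n 1) 2 = n 2
      rw [sb_ap_two]
      omega
    · show sbAp (n 0) (n 1) 3 = n 3
      rw [sb_ap_three]
      omega
  rw [this]
  exact h j

/-- a real progression which meets four bursts: the centres form a progression. -/
theorem sb_burst_prod (τ : ℤ) (Nall : Finset ℤ) (c : Fin 4 → ℤ → ℂ) (hc : ∀ j n, n ∉ Nall → c j n = 0) (p : ℝ × ℝ) :
    ∏ j : Fin 4, sbBurst τ Nall (c j) (p.1 + ((j : ℕ) : ℝ) * p.2)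
      = ∑ n0 ∈ Nall, ∑ n1 ∈ Nall, (sbPol τ n0 n1).indicator (fun _ => ∏ j : Fin 4, c j (sbAp n0 n1 j)) p := by
  by_cases hex : ∃ n0 n1 : ℤ, p ∈ sbPol τ n0 n1
  · obtain ⟨n0, n1, hp⟩ := hex
    have hL : ∏ j : Fin 4, sbBurst τ Nall (c j) (p.1 + ((j : ℕ) : ℝ) * p.2)
        = ∏ j : Fin 4, c j (sbAp n0 n1 j) :=
      Finset.prod_congr rfl fun j _ =>
        sb_burst_apply' τ Nall (c j) (hc j) _ _ ((sb_mem_pol_iff τ n0 n1 p).mp hp j)
    have hterm : ∀ m0 m1 : ℤ, ¬ (m0 = n0 ∧ m1 = n1) →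
        (sbPol τ m0 m1).indicator (fun _ => ∏ j : Fin 4, c j (sbAp m0 m1 j)) p = 0 := by
      intro m0 m1 hne
      refine Set.indicator_of_notMem (fun hm => hne ?_) _
      exact sb_pol_unique τ hm hp
    rw [hL]
    by_cases h0 : n0 ∈ Nall
    · by_cases h1 : n1 ∈ Nall
      · rw [Finset.sum_eq_single n0, Finset.sum_eq_single n1, Set.indicator_of_mem hp]
        · intro m1 _ hm
          exact hterm n0 m1 fun h => hm h.2
        · intro h
          exact absurd h1 h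
        · intro m0 _ hm
          exact Finset.sum_eq_zero fun m1 _ => hterm m0 m1 fun h => hm h.1
        · intro h
          exact absurd h0 h
      · rw [Finset.sum_eq_zero fun m0 _ => Finset.sum_eq_zero fun m1 hm1 =>
          hterm m0 m1 fun h => h1 (h.2 ▸ hm1)]
        refine Finset.prod_eq_zero (Finset.mem_univ (1 : Fin 4)) ?_
        rw [sb_ap_one]
        exact hc 1 n1 h1
    · rw [Finset.sum_eq_zero fun m0 hm0 => Finset.sum_eq_zero fun m1 _ =>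
        hterm m0 m1 fun h => h0 (h.1 ▸ hm0)]
      refine Finset.prod_eq_zero (Finset.mem_univ (0 : Fin 4)) ?_
      rw [sb_ap_zero]
      exact hc 0 n0 h0
  · push Not at hex
    rw [Finset.sum_eq_zero fun m0 _ => Finset.sum_eq_zero fun m1 _ =>
      Set.indicator_of_notMem (hex m0 m1) _]
    by_contra hne
    rw [Finset.prod_eq_zero_iff] at hne
    push Not at hne
    have hn : ∀ j : Fin 4, ∃ n : ℤ, |p.1 + ((j : ℕ) : ℝ) * p.2 - sbDel τ * (n : ℝ)| < sbDel τ / 32 := by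
      intro j
      by_contra hcon
      push Not at hcon
      exact hne j (Finset.mem_univ j) (sb_burst_zero τ Nall (c j) _ fun n _ => not_lt.mpr (hcon n))
    choose n hn using hn
    exact hex _ _ (sb_pol_of_bursts τ p n hn)

theorem sb_pol_measurable (τ n0 n1 : ℤ) : MeasurableSet (sbPol τ n0 n1) := by
  unfold sbPol
  rw [Set.ofPred_forall]
  refine MeasurableSet.iInter fun j => measurableSet_lt ?_ measurable_const
  exact (by fun_prop : Continuous fun p : ℝ × ℝ =>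
    |p.1 + ((j : ℕ) : ℝ) * p.2 - sbDel τ * (sbAp n0 n1 j : ℤ)|).measurable

theorem sb_pol_translate (τ n0 n1 : ℤ) :
    sbPol τ n0 n1 = (fun p : ℝ × ℝ => p + (-(sbDel τ * (n0 : ℝ)), -(sbDel τ * ((n1 : ℝ) - n0)))) ⁻¹'
      sbPol τ 0 0 := by
  ext p
  rw [Set.mem_preimage, sb_mem_pol_iff, sb_mem_pol_iff]
  refine forall_congr' fun j => ?_
  have e : (p + (-(sbDel τ * (n0 : ℝ)), -(sbDel τ * ((n1 : ℝ) - n0)))).1 + ((j : ℕ) : ℝ) *
      (p + (-(sbDel τ * (n0 : ℝ)), -(sbDel τ * ((n1 : ℝ) - n0)))).2 - sbDel τ * ((sbAp (0 : ℤ) 0 j : ℤ) : ℝ)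
      = p.1 + ((j : ℕ) : ℝ) * p.2 - sbDel τ * ((sbAp n0 n1 j : ℤ) : ℝ) := by
    simp only [Prod.fst_add, Prod.snd_add, sbAp]
    push_cast
    ring
  rw [e]

theorem sb_pol_volume_eq (τ n0 n1 : ℤ) : volume (sbPol τ n0 n1) = volume (sbPol τ 0 0) := by
  rw [sb_pol_translate τ n0 n1]
  exact measure_preimage_add_right volume _ _

theorem sb_pol_lower (τ : ℤ) :
    ENNReal.ofReal (sbDel τ ^ 2 / 4096) ≤ volume (sbPol τ 0 0) := by
  have hδ := sb_del_pos τ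
  have hsub : Set.Ioo (-(sbDel τ / 128)) (sbDel τ / 128) ×ˢ Set.Ioo (-(sbDel τ / 128)) (sbDel τ / 128)
      ⊆ sbPol τ 0 0 := by
    rintro ⟨x, t⟩ ⟨hx, ht⟩
    rw [sb_mem_pol_iff]
    intro j
    have hj : ((j : ℕ) : ℝ) ≤ 3 := by
      have : (j : ℕ) ≤ 3 := by omega
      exact_mod_cast this
    have hj0 : (0 : ℝ) ≤ ((j : ℕ) : ℝ) := Nat.cast_nonneg _
    simp only [sbAp, sub_self, mul_zero, add_zero, Int.cast_zero, sub_zero]
    simp only [Set.mem_Ioo] at hx ht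
    rw [abs_lt]
    constructor <;> nlinarith [hx.1, hx.2, ht.1, ht.2]
  refine le_trans (le_of_eq ?_) (measure_mono hsub)
  rw [Measure.volume_eq_prod, Measure.prod_prod, Real.volume_Ioo, ← ENNReal.ofReal_mul (by linarith)]
  congr 1
  ring

theorem sb_pol_upper (τ : ℤ) :
    volume (sbPol τ 0 0) ≤ ENNReal.ofReal (sbDel τ ^ 2 / 256) := by
  have hδ := sb_del_pos τ
  have hsub : sbPol τ 0 0 ⊆ (fun z : ℝ × ℝ => (z.1, z.1 + z.2)) ⁻¹'
      (Set.Ioo (-(sbDel τ / 32)) (sbDel τ / 32) ×ˢ Set.Ioo (-(sbDel τ / 32)) (sbDel τ / 32)) := by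
    rintro ⟨x, t⟩ hp
    rw [sb_mem_pol_iff] at hp
    have h0 := hp 0
    have h1 := hp 1
    simp only [sbAp, sub_self, mul_zero, add_zero, Int.cast_zero, sub_zero, Fin.val_zero, Fin.val_one,
      Nat.cast_zero, Nat.cast_one, zero_mul, one_mul] at h0 h1
    rw [abs_lt] at h0 h1
    exact ⟨⟨h0.1, h0.2⟩, ⟨h1.1, h1.2⟩⟩
  refine le_trans (measure_mono hsub) (le_of_eq ?_)
  have hmp := measurePreserving_prod_add (volume : Measure ℝ) (volume : Measure ℝ)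
  rw [Measure.volume_eq_prod, hmp.measure_preimage
    (measurableSet_Ioo.prod measurableSet_Ioo).nullMeasurableSet, Measure.prod_prod, Real.volume_Ioo,
    ← ENNReal.ofReal_mul (by linarith)]
  congr 1
  ring

theorem sb_pol_volume_ne_top (τ : ℤ) : volume (sbPol τ 0 0) ≠ ⊤ :=
  ne_top_of_le_ne_top ENNReal.ofReal_ne_top (sb_pol_upper τ)

theorem sb_ar_mul (τ : ℤ) : sbAr τ * sbDel τ ^ 2 = (volume (sbPol τ 0 0)).toReal := by
  have hδ := sb_del_pos τ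
  unfold sbAr
  field_simp

theorem sb_pol_volume (τ n0 n1 : ℤ) : volume (sbPol τ n0 n1) = ENNReal.ofReal (sbAr τ * sbDel τ ^ 2) := by
  rw [sb_pol_volume_eq, sb_ar_mul, ENNReal.ofReal_toReal (sb_pol_volume_ne_top τ)]

theorem sb_ar_bounds (τ : ℤ) : 1 / 4096 ≤ sbAr τ ∧ sbAr τ ≤ 1 / 256 := by
  have hδ := sb_del_pos τ
  have hδ2 : 0 < sbDel τ ^ 2 := by positivity
  unfold sbAr
  constructor
  · rw [le_div_iff₀ hδ2]
    have := ENNReal.toReal_mono (sb_pol_volume_ne_top τ) (sb_pol_lower τ)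
    rw [ENNReal.toReal_ofReal (by positivity)] at this
    linarith
  · rw [div_le_iff₀ hδ2]
    have := ENNReal.toReal_mono ENNReal.ofReal_ne_top (sb_pol_upper τ)
    rw [ENNReal.toReal_ofReal (by positivity)] at this
    linarith

theorem sb_pol_real (τ n0 n1 : ℤ) : volume.real (sbPol τ n0 n1) = sbAr τ * sbDel τ ^ 2 := by
  have := (sb_ar_bounds τ).1
  rw [Measure.real, sb_pol_volume, ENNReal.toReal_ofReal]
  have hδ := sb_del_pos τ
  positivity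

theorem sb_pol_near (τ n0 n1 : ℤ) (p : ℝ × ℝ) (hp : p ∈ sbPol τ n0 n1) :
    ‖p - (sbDel τ * (n0 : ℝ), sbDel τ * ((n1 : ℝ) - n0))‖ ≤ sbDel τ / 16 := by
  have hδ := sb_del_pos τ
  rw [sb_mem_pol_iff] at hp
  have h0 := hp 0
  have h1 := hp 1
  rw [sb_ap_zero] at h0
  rw [sb_ap_one] at h1
  simp only [Fin.val_zero, Fin.val_one, Nat.cast_zero, Nat.cast_one, zero_mul, one_mul, add_zero] at h0 h1
  rw [abs_lt] at h0 h1
  rw [Prod.norm_def, max_le_iff]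
  simp only [Prod.fst_sub, Prod.snd_sub, Real.norm_eq_abs]
  constructor
  · rw [abs_le]
    constructor <;> linarith [h0.1, h0.2]
  · rw [abs_le]
    constructor <;> linarith [h0.1, h0.2, h1.1, h1.2]

theorem sb_pol_zero {c0 C0 : ℝ} {I : Cell} {w : ℝ × ℝ → ℂ} (hw : Admissible c0 C0 I w) (b0 : ℕ) (hb0 : 4 ≤ c0 * 2 ^ b0) (t : ℤ) (hI : I.depth < t)
    (n0 n1 : ℤ) (h : ¬ ∀ j : Fin 4, sbAp n0 n1 j ∈ sbInn (t + b0) I) (p : ℝ × ℝ) (hp : p ∈ sbPol (t + b0) n0 n1) : w p = 0 := by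
  by_contra hne
  apply h
  intro j
  have hδ := sb_del_pos (t + b0)
  have hd := sb_ker_deep hw b0 hb0 t hI p hne j
  have hτ : I.depth ≤ t + b0 := by
    have : (0 : ℤ) ≤ b0 := Int.natCast_nonneg b0
    omega
  refine sb_mem_inn (t + b0) I hτ _ _ hd.1 hd.2 ?_
  have := (sb_mem_pol_iff _ n0 n1 p).mp hp j
  linarith

theorem sb_ker_integrableOn_pol {c0 C0 : ℝ} {I : Cell} {w : ℝ × ℝ → ℂ} (hw : Admissible c0 C0 I w)
    (τ n0 n1 : ℤ) : IntegrableOn w (sbPol τ n0 n1) := by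
  refine Measure.integrableOn_of_bounded (M := sbB0 C0) ?_ (sb_ker_cont hw).aestronglyMeasurable
    (Filter.Eventually.of_forall fun p => sb_ker_bound hw p)
  rw [sb_pol_volume]
  exact ENNReal.ofReal_ne_top

theorem sb_pol_int {c0 C0 : ℝ} {I : Cell} {w : ℝ × ℝ → ℂ} (hw : Admissible c0 C0 I w) (τ n0 n1 : ℤ) :
    ‖(∫ p in sbPol τ n0 n1, w p) - ((sbAr τ * sbDel τ ^ 2 : ℝ) : ℂ) * w (sbDel τ * n0, sbDel τ * (n1 - n0))‖
      ≤ I.len⁻¹ * sbB1 C0 * (sbDel τ / 16) * (sbAr τ * sbDel τ ^ 2) := by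
  have hfin : volume (sbPol τ n0 n1) < ⊤ := by
    rw [sb_pol_volume]
    exact ENNReal.ofReal_lt_top
  have e : ((sbAr τ * sbDel τ ^ 2 : ℝ) : ℂ) * w (sbDel τ * n0, sbDel τ * (n1 - n0))
      = ∫ _p in sbPol τ n0 n1, w (sbDel τ * n0, sbDel τ * (n1 - n0)) := by
    rw [setIntegral_const, sb_pol_real, Complex.real_smul]
  rw [e, ← integral_sub (sb_ker_integrableOn_pol hw τ n0 n1) (integrableOn_const hfin.ne),
    ← sb_pol_real τ n0 n1]
  refine norm_setIntegral_le_of_norm_le_const hfin fun p hp => ?_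
  refine (sb_ker_lip hw p _).trans ?_
  have h1 : 0 ≤ I.len⁻¹ * sbB1 C0 := by
    have h2 : 0 ≤ I.len⁻¹ := by
      unfold Cell.len
      positivity
    have h3 : 0 ≤ sbB1 C0 := by
      by_contra hneg
      push Not at hneg
      have hl := sb_ker_lip hw (0, 0) (1, 0)
      have hpos : 0 < I.len⁻¹ := by
        unfold Cell.len
        positivity
      have hn : (0 : ℝ) < ‖((0 : ℝ), (0 : ℝ)) - (1, 0)‖ := by
        rw [norm_pos_iff]
        simp
      have : I.len⁻¹ * sbB1 C0 * ‖((0 : ℝ), (0 : ℝ)) - (1, 0)‖ < 0 :=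
        mul_neg_of_neg_of_pos (mul_neg_of_pos_of_neg hpos hneg) hn
      linarith [norm_nonneg (w (0, 0) - w (1, 0))]
    exact mul_nonneg h2 h3
  exact mul_le_mul_of_nonneg_left (sb_pol_near τ n0 n1 p hp) h1

theorem sb_burst_form_int {c0 C0 : ℝ} {I : Cell} {w : ℝ × ℝ → ℂ} (hw : Admissible c0 C0 I w) (τ : ℤ)
    (Nall : Finset ℤ) (c : Fin 4 → ℤ → ℂ) (hc : ∀ j n, n ∉ Nall → c j n = 0) :
    ∫ p : ℝ × ℝ, w p * ∏ j : Fin 4, sbBurst τ Nall (c j) (p.1 + ((j : ℕ) : ℝ) * p.2)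
      = ∑ n0 ∈ Nall, ∑ n1 ∈ Nall, (∏ j : Fin 4, c j (sbAp n0 n1 j)) * ∫ p in sbPol τ n0 n1, w p := by
  have h1 : ∀ p : ℝ × ℝ, w p * ∏ j : Fin 4, sbBurst τ Nall (c j) (p.1 + ((j : ℕ) : ℝ) * p.2)
      = ∑ n0 ∈ Nall, ∑ n1 ∈ Nall,
        (sbPol τ n0 n1).indicator (fun p => (∏ j : Fin 4, c j (sbAp n0 n1 j)) * w p) p := by
    intro p
    rw [sb_burst_prod τ Nall c hc p, Finset.mul_sum]
    refine Finset.sum_congr rfl fun n0 _ => ?_
    rw [Finset.mul_sum]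
    refine Finset.sum_congr rfl fun n1 _ => ?_
    by_cases hp : p ∈ sbPol τ n0 n1
    · rw [Set.indicator_of_mem hp, Set.indicator_of_mem hp, mul_comm]
    · rw [Set.indicator_of_notMem hp, Set.indicator_of_notMem hp, mul_zero]
  have hint : ∀ n0 n1 : ℤ, Integrable
      ((sbPol τ n0 n1).indicator (fun p => (∏ j : Fin 4, c j (sbAp n0 n1 j)) * w p)) := by
    intro n0 n1
    rw [integrable_indicator_iff (sb_pol_measurable τ n0 n1)]
    exact (sb_ker_integrableOn_pol hw τ n0 n1).const_mul _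
  simp_rw [h1]
  rw [integral_finsetSum _ fun n0 _ => integrable_finsetSum _ fun n1 _ => hint n0 n1]
  refine Finset.sum_congr rfl fun n0 _ => ?_
  rw [integral_finsetSum _ fun n1 _ => hint n0 n1]
  refine Finset.sum_congr rfl fun n1 _ => ?_
  rw [integral_indicator (sb_pol_measurable τ n0 n1), integral_const_mul]

theorem sb_sum_supp {A B : Finset ℤ} (F : ℤ → ℤ → ℂ) (hA : ∀ n0 n1, (n0 ∉ A ∨ n1 ∉ A) → F n0 n1 = 0)
    (hB : ∀ n0 n1, (n0 ∉ B ∨ n1 ∉ B) → F n0 n1 = 0) :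
    ∑ n0 ∈ A, ∑ n1 ∈ A, F n0 n1 = ∑ n0 ∈ B, ∑ n1 ∈ B, F n0 n1 := by
  rw [← Finset.sum_product', ← Finset.sum_product']
  refine Finset.sum_congr_of_eq_on_inter ?_ ?_ ?_
  · intro x _ hx
    apply hB
    rw [Finset.mem_product] at hx
    tauto
  · intro x _ hx
    apply hA
    rw [Finset.mem_product] at hx
    tauto
  · intro x _ _
    rfl

/-- the form of four bursts is the sampled form, up to the second sampling error. -/
theorem sb_burst_form {c0 C0 : ℝ} {I : Cell} {w : ℝ × ℝ → ℂ} (hw : Admissible c0 C0 I w) (hC0 : 1 ≤ C0) (b0 : ℕ) (hb0 : 4 ≤ c0 * 2 ^ b0) (t : ℤ)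
    (hI : I.depth < t) (Nall : Finset ℤ) (c : Fin 4 → ℤ → ℂ) (hc : ∀ j n, n ∉ Nall → c j n = 0) :
    ‖form I w (fun j => sbBurst (t + b0) Nall (c j)) - (sbAr (t + b0) : ℂ) * sbSamp (t + b0) I w c‖
      ≤ sbB1 C0 * (sbDel (t + b0) / I.len) * sbAbs (t + b0) I (fun j n => ‖c j n‖) := by
  set τ : ℤ := t + b0 with hτ
  have hδ := sb_del_pos τ
  have hlen : 0 < I.len := by
    unfold Cell.len
    positivity
  have hB1 : 0 ≤ sbB1 C0 := le_trans zero_le_one (sb_B1_one_le C0 hC0)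
  have hAr := sb_ar_bounds τ
  -- not good => both vanish
  have hgood : ∀ n0 n1 : ℤ, (n0 ∉ sbInn τ I ∨ n1 ∉ sbInn τ I) → ¬ ∀ j : Fin 4, sbAp n0 n1 j ∈ sbInn τ I := by
    intro n0 n1 h hall
    rcases h with h | h
    · exact h (by simpa [sb_ap_zero] using hall 0)
    · exact h (by simpa [sb_ap_one] using hall 1)
  have hz1 : ∀ n0 n1 : ℤ, (¬ ∀ j : Fin 4, sbAp n0 n1 j ∈ sbInn τ I) → ∫ p in sbPol τ n0 n1, w p = 0 := by
    intro n0 n1 h
    exact setIntegral_eq_zero_of_forall_eq_zero fun p hp => sb_pol_zero hw b0 hb0 t hI n0 n1 h p hp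
  have hz2 : ∀ n0 n1 : ℤ, (¬ ∀ j : Fin 4, sbAp n0 n1 j ∈ sbInn τ I) →
      w (sbDel τ * n0, sbDel τ * (n1 - n0)) = 0 := by
    intro n0 n1 h
    by_contra hne
    exact h fun j => sb_ker_inn hw b0 hb0 t hI n0 n1 hne j
  have hQ : ∀ n0 n1 : ℤ, (n0 ∉ Nall ∨ n1 ∉ Nall) → ∏ j : Fin 4, c j (sbAp n0 n1 j) = 0 := by
    intro n0 n1 h
    rcases h with h | h
    · refine Finset.prod_eq_zero (Finset.mem_univ 0) ?_
      rw [sb_ap_zero]
      exact hc 0 n0 h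
    · refine Finset.prod_eq_zero (Finset.mem_univ 1) ?_
      rw [sb_ap_one]
      exact hc 1 n1 h
  have e1 : form I w (fun j => sbBurst τ Nall (c j)) = (((I.len ^ 2)⁻¹ : ℝ) : ℂ) *
      ∑ n0 ∈ sbInn τ I, ∑ n1 ∈ sbInn τ I, (∏ j : Fin 4, c j (sbAp n0 n1 j)) * ∫ p in sbPol τ n0 n1, w p := by
    unfold form
    rw [sb_burst_form_int hw τ Nall c hc]
    congr 1
    refine sb_sum_supp (fun n0 n1 => (∏ j : Fin 4, c j (sbAp n0 n1 j)) * ∫ p in sbPol τ n0 n1, w p) ?_ ?_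
    · intro n0 n1 h
      rw [hQ n0 n1 h, zero_mul]
    · intro n0 n1 h
      rw [hz1 n0 n1 (hgood n0 n1 h), mul_zero]
  have e2 : sbSamp τ I w c = (((sbDel τ / I.len) ^ 2 : ℝ) : ℂ) * ∑ n0 ∈ sbInn τ I, ∑ n1 ∈ sbInn τ I,
      w (sbDel τ * n0, sbDel τ * (n1 - n0)) * ∏ j : Fin 4, c j (sbAp n0 n1 j) := by
    unfold sbSamp
    congr 1
    refine sb_sum_supp (fun n0 n1 => w (sbDel τ * n0, sbDel τ * (n1 - n0)) * ∏ j : Fin 4, c j (sbAp n0 n1 j)) ?_ ?_
    · intro n0 n1 h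
      have h' : n0 ∉ sbInn τ I ∨ n1 ∉ sbInn τ I := by
        rcases h with h | h
        · exact Or.inl fun hh => h (sb_inn_subset_idx τ I hh)
        · exact Or.inr fun hh => h (sb_inn_subset_idx τ I hh)
      rw [hz2 n0 n1 (hgood n0 n1 h'), zero_mul]
    · intro n0 n1 h
      rw [hz2 n0 n1 (hgood n0 n1 h), zero_mul]
  have e3 : form I w (fun j => sbBurst τ Nall (c j)) - (sbAr τ : ℂ) * sbSamp τ I w c
      = (((I.len ^ 2)⁻¹ : ℝ) : ℂ) * ∑ n0 ∈ sbInn τ I, ∑ n1 ∈ sbInn τ I, (∏ j : Fin 4, c j (sbAp n0 n1 j)) *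
        ((∫ p in sbPol τ n0 n1, w p) - ((sbAr τ * sbDel τ ^ 2 : ℝ) : ℂ) * w (sbDel τ * n0, sbDel τ * (n1 - n0))) := by
    rw [e1, e2]
    have : (sbAr τ : ℂ) * ((((sbDel τ / I.len) ^ 2 : ℝ) : ℂ) * ∑ n0 ∈ sbInn τ I, ∑ n1 ∈ sbInn τ I,
        w (sbDel τ * n0, sbDel τ * (n1 - n0)) * ∏ j : Fin 4, c j (sbAp n0 n1 j))
        = (((I.len ^ 2)⁻¹ : ℝ) : ℂ) * ∑ n0 ∈ sbInn τ I, ∑ n1 ∈ sbInn τ I, (∏ j : Fin 4, c j (sbAp n0 n1 j)) *
          (((sbAr τ * sbDel τ ^ 2 : ℝ) : ℂ) * w (sbDel τ * n0, sbDel τ * (n1 - n0))) := by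
      have : (sbAr τ : ℂ) * (((sbDel τ / I.len) ^ 2 : ℝ) : ℂ)
          = (((I.len ^ 2)⁻¹ : ℝ) : ℂ) * ((sbAr τ * sbDel τ ^ 2 : ℝ) : ℂ) := by
        rw [← Complex.ofReal_mul, ← Complex.ofReal_mul]
        congr 1
        rw [div_pow]
        ring
      rw [← mul_assoc, this, mul_assoc, Finset.mul_sum]
      congr 1
      refine Finset.sum_congr rfl fun n0 _ => ?_
      rw [Finset.mul_sum]
      refine Finset.sum_congr rfl fun n1 _ => ?_
      ring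
    rw [this, ← mul_sub, ← Finset.sum_sub_distrib]
    congr 1
    refine Finset.sum_congr rfl fun n0 _ => ?_
    rw [← Finset.sum_sub_distrib]
    refine Finset.sum_congr rfl fun n1 _ => ?_
    ring
  rw [e3, norm_mul, Complex.norm_real, Real.norm_of_nonneg (by positivity)]
  set K : ℝ := I.len⁻¹ * sbB1 C0 * (sbDel τ / 16) * (sbAr τ * sbDel τ ^ 2) with hK
  have hK0 : 0 ≤ K := by
    have : 0 ≤ sbAr τ := by linarith [hAr.1]
    positivity
  set S : ℝ := ∑ n0 ∈ sbInn τ I, ∑ n1 ∈ sbInn τ I,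
    if ∀ j : Fin 4, sbAp n0 n1 j ∈ sbInn τ I then ∏ j : Fin 4, ‖c j (sbAp n0 n1 j)‖ else 0 with hS
  have hS0 : 0 ≤ S := by
    refine Finset.sum_nonneg fun n0 _ => Finset.sum_nonneg fun n1 _ => ?_
    split_ifs
    · exact Finset.prod_nonneg fun j _ => norm_nonneg _
    · exact le_rfl
  have hsum : ‖∑ n0 ∈ sbInn τ I, ∑ n1 ∈ sbInn τ I, (∏ j : Fin 4, c j (sbAp n0 n1 j)) *
        ((∫ p in sbPol τ n0 n1, w p) - ((sbAr τ * sbDel τ ^ 2 : ℝ) : ℂ) * w (sbDel τ * n0, sbDel τ * (n1 - n0)))‖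
      ≤ S * K := by
    rw [hS, Finset.sum_mul]
    refine (norm_sum_le _ _).trans (Finset.sum_le_sum fun n0 _ => ?_)
    rw [Finset.sum_mul]
    refine (norm_sum_le _ _).trans (Finset.sum_le_sum fun n1 _ => ?_)
    split_ifs with hg
    · rw [norm_mul, norm_prod]
      exact mul_le_mul_of_nonneg_left (sb_pol_int hw τ n0 n1) (Finset.prod_nonneg fun j _ => norm_nonneg _)
    · rw [hz1 n0 n1 hg, hz2 n0 n1 hg]
      simp
  have habs : sbAbs τ I (fun j n => ‖c j n‖) = (sbDel τ / I.len) ^ 2 * S := rfl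
  rw [habs]
  calc (I.len ^ 2)⁻¹ * _ ≤ (I.len ^ 2)⁻¹ * (S * K) := mul_le_mul_of_nonneg_left hsum (by positivity)
    _ = (sbB1 C0 * (sbDel τ / I.len) * ((sbDel τ / I.len) ^ 2 * S)) * (sbAr τ / 16) := by
        rw [hK]
        field_simp
    _ ≤ (sbB1 C0 * (sbDel τ / I.len) * ((sbDel τ / I.len) ^ 2 * S)) * 1 := by
        refine mul_le_mul_of_nonneg_left ?_ (by positivity)
        linarith [hAr.2]
    _ = _ := mul_one _

end Claimed.Agent.R258
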