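/-
Row 258, block [S7b] (architect: helper243).  FILE Main: THE MAIN TERM (sides.tex l.421-455): Hoelder chain, Lemma 7.1 with finite `X = Ω × ZMod M`, `W = ZMod M`, norms of the bursts.  Self-contained.
Leaves: P-SB-EXP (`sb_exp_*`), P-SB-MA1 (`sb_chain_pt`), P-SB-MA2 (`sb_chain`), P-SB-MA3 (`sb_mixed_fin`), P-SB-MA4 (`sb_burst_norm`), P-SB-MA5 (`sb_mix_reg`), P-SB-MA6 (`sb_mix_heavy`), P-SB-MA7 (`sb_slot`).
`sb_main` is assembled by the architect.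

Exponents: `p⋆ = sbP q = 2(q-1) ∈ (2,4)`, `p' = sbP' q = 2(q-1)/(q-2) > 4`; spatial `p_j = sbPj q a b j` (`p⋆` for `j = a, b`, `p'` otherwise), fast `h_j = sbHj q a j` (`p⋆` for `j = a`, `4` otherwise).
* `sb_chain_pt` (finite sums in `ℝ≥0∞`): (i) `sb_H1_enn`; (ii) power mean `(M⁻¹ ∑ Φ²)^{1/2} ≤ (M⁻¹ ∑ Φ^h)^{1/h}`, `h ≥ 2` (`ENNReal.rpow_arith_mean_le_arith_mean_rpow` with the weights `M⁻¹`, or `inner_le_Lp_mul_Lq`);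
  (iii) Hoelder with four factors in `ξ`: `∑ a ∏_j X_j ≤ ∏_j (∑ a X_j⁴)^{1/4}` (`ENNReal.inner_le_Lp_mul_Lq` three times, or `ENNReal.lintegral_prod_norm_pow_le` for the measure `∑ a ξ δ_ξ`).
* `sb_chain`: `lintegral_finset_sum` + `lintegral_const_mul` to move the sums inside, `lintegral_mono` with `sb_chain_pt`, then `ENNReal.lintegral_prod_norm_pow_le` with `f_j = Ψ_j^{p_j}`, weights `1/p_j`
  (`Ψ_j(y) = (∑_ξ ...)^{1/4}`, `(Ψ_j^{p_j})^{1/p_j} = Ψ_j`, `Ψ_j^{p_j} = (∑_ξ ...)^{p_j/4}`).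
* `sb_mixed_fin`: `mx_mixed_Mq` with `X`, `ZMod M` carrying `⊤` as σ-algebra, `μ = ∑_ξ a ξ • dirac ξ`, `ν = M⁻¹ • count`; `lintegral_fintype`-type formulas; joint measurability from measurability of each `f ξ x`
  (`measurable_from_prod_countable`-type lemmas).  `Mq q f y = mxMqE q (fun y' => ‖f y'‖ₑ) y` by definition.
* `sb_burst_norm`: pointwise in `y`: if `|y - δ n| < δ/32`, `n ∈ Nall`, all bursts take the value `c ξ x n` (`sb_burst_apply`), otherwise `0` (`sb_burst_zero`, `0^r = 0` for `r > 0`); so the integrand is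
  `∑_{n ∈ Nall} indicator (burst n) (const)`; each burst is an interval of length `δ/16`.
* `sb_mix_reg`: exponents `4`, `4/4 = 1`; convert to real numbers; `E_σ E_γ fp4(G0) ≤ E_σ 2 fp2(F)² ≤ 2 (Cm² ms)²` (`sb_G_of_ne`, `sb_G0_fp4_avg`, `sb_jensen24`, `mom`).
* `sb_mix_heavy`: `‖G_a‖ ≤ A` and `‖G_a‖^{p⋆} ≤ A^{p⋆-2} ‖G_a‖²`, so `M⁻¹ ∑_x ‖G_a‖^{p⋆} ≤ A^{p⋆-2} fp2(F_a)` (`sb_clip_norm_le'`, `sb_G_fp2_le`); `E_σ X^{4/p⋆} ≤ (E_σ X⁴)^{1/p⋆}` (Jensen: concavity of `x^{1/p⋆}`, `∑ pr = 1`), `mom`.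
* `sb_slot`: `sb_mixed_fin` (`p = p_j`, `s = 4`, `h = h_j`, all `> q`), `sb_burst_norm`, then `j = a`: `(sb_mix_heavy)^{p⋆/4} = A^{p⋆-2} Cm² ms a n`, `tot`;   `j ≠ a`: `(2 (Cm² ms)²)^{p/4} = 2^{p/4} Cm^p ms^{p/2} ≤ 2^{p/4} Cm^p (2^b0)^{p/2-1} ms`
  (`reg`, `p ≥ 2`), `tot`.   The constant: maximum over the three cases `(p,h) = (p⋆,p⋆), (p⋆,4), (p',4)` of `(mxC3 (p/q) (4/q) (h/q) 1 * K)^{1/p}`.
-/
import Claimed.Agent.R258.S7b.Clip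
import Claimed.Agent.R258.S7b.Burst

set_option autoImplicit false
open MeasureTheory
open scoped ENNReal

namespace Claimed.Agent.R258

/-! ## Exponents -/

theorem sb_exp_P (q : ℝ) (hq : 2 < q) (hq3 : q < 3) : q < sbP q ∧ 2 < sbP q ∧ sbP q < 4 := by
  unfold sbP
  refine ⟨by linarith, by linarith, by linarith⟩

theorem sb_exp_P' (q : ℝ) (hq : 2 < q) (hq3 : q < 3) : 4 < sbP' q := by
  unfold sbP'
  rw [lt_div_iff₀ (by linarith)]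
  linarith

theorem sb_exp_Pj (q : ℝ) (hq : 2 < q) (hq3 : q < 3) (a b j : Fin 4) : q < sbPj q a b j ∧ 2 < sbPj q a b j := by
  have h1 := sb_exp_P q hq hq3
  have h2 := sb_exp_P' q hq hq3
  unfold sbPj
  split_ifs
  · exact ⟨h1.1, h1.2.1⟩
  · exact ⟨by linarith, by linarith⟩

theorem sb_exp_Hj (q : ℝ) (hq : 2 < q) (hq3 : q < 3) (a j : Fin 4) : q < sbHj q a j ∧ 2 ≤ sbHj q a j := by
  have h1 := sb_exp_P q hq hq3
  unfold sbHj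
  split_ifs
  · exact ⟨h1.1, h1.2.1.le⟩
  · exact ⟨by linarith, by norm_num⟩

theorem sb_exp_sum (q : ℝ) (hq : 2 < q) (a b : Fin 4) (hab : a ≠ b) : ∑ j : Fin 4, 1 / sbPj q a b j = 1 := by
  have h1 : ∀ j : Fin 4, 1 / sbPj q a b j = 1 / sbP' q + (if j = a then (1 / sbP q - 1 / sbP' q) else 0)
      + (if j = b then (1 / sbP q - 1 / sbP' q) else 0) := by
    intro j
    unfold sbPj
    by_cases h1 : j = a
    · have h2 : j ≠ b := h1 ▸ hab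
      rw [if_pos (Or.inl h1), if_pos h1, if_neg h2]
      ring
    · by_cases h2 : j = b
      · rw [if_pos (Or.inr h2), if_neg h1, if_pos h2]
        ring
      · rw [if_neg (not_or.2 ⟨h1, h2⟩), if_neg h1, if_neg h2]
        ring
  simp only [h1, Finset.sum_add_distrib, Finset.sum_ite_eq', Finset.mem_univ, if_true, Finset.sum_const,
    Finset.card_univ, Fintype.card_fin]
  have h3 : q - 1 ≠ 0 := by linarith
  have h5 : 1 / sbP q + 1 / sbP' q = 1 / 2 := by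
    unfold sbP sbP'
    rw [one_div_div, ← add_div]
    field_simp
    ring
  rw [nsmul_eq_mul]
  push_cast
  linarith

/-- `1 - 2/p⋆ = (q-2)/(q-1) ≤ q - 2`. -/
theorem sb_exp_gain (q : ℝ) (hq : 2 < q) : 0 ≤ 1 - 2 / sbP q ∧ 1 - 2 / sbP q ≤ q - 2 := by
  unfold sbP
  have h1 : 0 < q - 1 := by linarith
  have h2 : 1 - 2 / (2 * (q - 1)) = (q - 2) / (q - 1) := by
    field_simp
    ring
  rw [h2]
  refine ⟨div_nonneg (by linarith) h1.le, ?_⟩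
  rw [div_le_iff₀ h1]
  nlinarith

/-! ## The Hoelder chain -/

/-- the integral for a finite weighted sum of Dirac masses -/
theorem sb_lintegral_wt {X : Type*} [Fintype X] [MeasurableSpace X] [MeasurableSingletonClass X] (a : X → ℝ≥0∞)
    (f : X → ℝ≥0∞) : ∫⁻ ξ, f ξ ∂(∑ ξ, a ξ • Measure.dirac ξ) = ∑ ξ, a ξ * f ξ := by
  rw [lintegral_finsetSum_measure]
  refine Finset.sum_congr rfl fun ξ _ => ?_
  rw [lintegral_smul_measure, lintegral_dirac, smul_eq_mul]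

/-- the integral for the normalised counting measure of `ZMod M` -/
theorem sb_lintegral_cnt {M : ℕ} [NeZero M] [MeasurableSpace (ZMod M)] [MeasurableSingletonClass (ZMod M)]
    (f : ZMod M → ℝ≥0∞) : ∫⁻ x, f x ∂((M : ℝ≥0∞)⁻¹ • Measure.count) = (M : ℝ≥0∞)⁻¹ * ∑ x, f x := by
  rw [lintegral_smul_measure, lintegral_count, tsum_fintype, smul_eq_mul]

/-- Hoelder with finitely many factors for finite weighted sums -/
theorem sb_enn_holder {X ι : Type*} [Fintype X] (a : X → ℝ≥0∞) (s : Finset ι) (f : ι → X → ℝ≥0∞) (p : ι → ℝ)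
    (hp : ∑ i ∈ s, p i = 1) (h2p : ∀ i ∈ s, 0 ≤ p i) :
    ∑ ξ, a ξ * ∏ i ∈ s, f i ξ ^ p i ≤ ∏ i ∈ s, (∑ ξ, a ξ * f i ξ) ^ p i := by
  let _ : MeasurableSpace X := ⊤
  have : MeasurableSingletonClass X := ⟨fun _ => MeasurableSpace.measurableSet_top⟩
  have h := ENNReal.lintegral_prod_norm_pow_le (μ := ∑ ξ, a ξ • Measure.dirac ξ) s (f := f)
    (fun i _ => (measurable_from_top).aemeasurable) hp h2p
  simpa only [sb_lintegral_wt] using h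

/-- power mean on the fast group -/
theorem sb_pow_mean {M : ℕ} [NeZero M] (Φ : ZMod M → ℝ≥0∞) {h : ℝ} (hh : 2 ≤ h) :
    ((M : ℝ≥0∞)⁻¹ * ∑ x, Φ x ^ (2 : ℝ)) ^ (1 / 2 : ℝ) ≤ ((M : ℝ≥0∞)⁻¹ * ∑ x, Φ x ^ h) ^ (1 / h) := by
  have hM0 : (M : ℝ≥0∞) ≠ 0 := by exact_mod_cast NeZero.ne M
  have hMt : (M : ℝ≥0∞) ≠ ⊤ := ENNReal.natCast_ne_top M
  have hw : ∑ _x : ZMod M, (M : ℝ≥0∞)⁻¹ = 1 := by
    rw [Finset.sum_const, Finset.card_univ, ZMod.card, nsmul_eq_mul, ENNReal.mul_inv_cancel hM0 hMt]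
  have h1 := ENNReal.rpow_arith_mean_le_arith_mean_rpow Finset.univ (fun _ : ZMod M => (M : ℝ≥0∞)⁻¹)
    (fun x => Φ x ^ (2 : ℝ)) hw (p := h / 2) (by linarith)
  simp only [← Finset.mul_sum, ← ENNReal.rpow_mul] at h1
  have e : (2 : ℝ) * (h / 2) = h := by ring
  rw [e] at h1
  have h2 := ENNReal.rpow_le_rpow h1 (z := 1 / h) (by positivity)
  rw [← ENNReal.rpow_mul] at h2
  have e2 : h / 2 * (1 / h) = 1 / 2 := by
    have : h ≠ 0 := by linarith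
    field_simp
  rwa [e2] at h2

theorem sb_chain_pt {X : Type*} [Fintype X] (a : X → ℝ≥0∞) {M : ℕ} [NeZero M] (Φ : Fin 4 → X → ZMod M → ℝ≥0∞) (h : Fin 4 → ℝ) (hh : ∀ j, 2 ≤ h j) :
    ∑ ξ, a ξ * (((M : ℝ≥0∞) ^ 2)⁻¹ * ∑ u : ZMod M, ∑ v : ZMod M, ∏ j : Fin 4, Φ j ξ (sbAp u v j))
      ≤ ∏ j : Fin 4, (∑ ξ, a ξ * ((M : ℝ≥0∞)⁻¹ * ∑ x : ZMod M, Φ j ξ x ^ (h j)) ^ (4 / h j)) ^ (1 / 4 : ℝ) := by
  set Y : Fin 4 → X → ℝ≥0∞ := fun j ξ => ((M : ℝ≥0∞)⁻¹ * ∑ x : ZMod M, Φ j ξ x ^ (h j)) ^ (4 / h j) with hY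
  have h1 : ∀ ξ, ((M : ℝ≥0∞) ^ 2)⁻¹ * ∑ u : ZMod M, ∑ v : ZMod M, ∏ j : Fin 4, Φ j ξ (sbAp u v j)
      ≤ ∏ j : Fin 4, Y j ξ ^ (1 / 4 : ℝ) := by
    intro ξ
    refine (sb_H1_enn (fun j => Φ j ξ)).trans ?_
    refine Finset.prod_le_prod' fun j _ => ?_
    refine (sb_pow_mean _ (hh j)).trans (le_of_eq ?_)
    simp only [hY]
    rw [← ENNReal.rpow_mul]
    congr 1
    have : h j ≠ 0 := by have := hh j; linarith
    field_simp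
  calc _ ≤ ∑ ξ, a ξ * ∏ j : Fin 4, Y j ξ ^ (1 / 4 : ℝ) :=
        Finset.sum_le_sum fun ξ _ => mul_le_mul' le_rfl (h1 ξ)
    _ ≤ ∏ j : Fin 4, (∑ ξ, a ξ * Y j ξ) ^ (1 / 4 : ℝ) :=
        sb_enn_holder a Finset.univ Y (fun _ => 1 / 4) (by simp) (fun _ _ => by norm_num)

theorem sb_chain {X : Type*} [Fintype X] (a : X → ℝ≥0∞) {M : ℕ} [NeZero M] (Φ : Fin 4 → X → ZMod M → ℝ → ℝ≥0∞) (hΦ : ∀ j ξ x, Measurable (Φ j ξ x))
    (h p : Fin 4 → ℝ) (hh : ∀ j, 2 ≤ h j) (hp : ∀ j, 0 < p j) (hp1 : ∑ j, 1 / p j = 1) :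
    ∑ ξ, a ξ * (((M : ℝ≥0∞) ^ 2)⁻¹ * ∑ u : ZMod M, ∑ v : ZMod M, ∫⁻ y, ∏ j : Fin 4, Φ j ξ (sbAp u v j) y)
      ≤ ∏ j : Fin 4, (∫⁻ y, (∑ ξ, a ξ * ((M : ℝ≥0∞)⁻¹ * ∑ x : ZMod M, Φ j ξ x y ^ (h j)) ^ (4 / h j)) ^ (p j / 4)) ^ (1 / p j) := by
  have hm1 : ∀ ξ u v, Measurable fun y => ∏ j : Fin 4, Φ j ξ (sbAp u v j) y :=
    fun ξ u v => Finset.measurable_fun_prod _ (fun j _ => hΦ j ξ _)
  have hm2 : ∀ ξ u, Measurable fun y => ∑ v : ZMod M, ∏ j : Fin 4, Φ j ξ (sbAp u v j) y :=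
    fun ξ u => Finset.measurable_fun_sum _ (fun v _ => hm1 ξ u v)
  have hm3 : ∀ ξ, Measurable fun y => ∑ u : ZMod M, ∑ v : ZMod M, ∏ j : Fin 4, Φ j ξ (sbAp u v j) y :=
    fun ξ => Finset.measurable_fun_sum _ (fun u _ => hm2 ξ u)
  have e1 : ∫⁻ y, ∑ ξ, a ξ * (((M : ℝ≥0∞) ^ 2)⁻¹ * ∑ u : ZMod M, ∑ v : ZMod M,
      ∏ j : Fin 4, Φ j ξ (sbAp u v j) y) =
      ∑ ξ, a ξ * (((M : ℝ≥0∞) ^ 2)⁻¹ * ∑ u : ZMod M, ∑ v : ZMod M, ∫⁻ y, ∏ j : Fin 4, Φ j ξ (sbAp u v j) y) := by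
    rw [lintegral_finsetSum _ (fun ξ _ => ((hm3 ξ).const_mul _).const_mul _)]
    refine Finset.sum_congr rfl fun ξ _ => ?_
    rw [lintegral_const_mul _ ((hm3 ξ).const_mul _), lintegral_const_mul _ (hm3 ξ),
      lintegral_finsetSum _ (fun u _ => hm2 ξ u)]
    congr 2
    refine Finset.sum_congr rfl fun u _ => ?_
    rw [lintegral_finsetSum _ (fun v _ => hm1 ξ u v)]
  set Ψ : Fin 4 → ℝ → ℝ≥0∞ := fun j y =>
    ∑ ξ, a ξ * ((M : ℝ≥0∞)⁻¹ * ∑ x : ZMod M, Φ j ξ x y ^ (h j)) ^ (4 / h j) with hΨdef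
  have hΨ : ∀ j, Measurable (Ψ j) := by
    intro j
    refine Finset.measurable_fun_sum _ (fun ξ _ => Measurable.const_mul (Measurable.pow_const ?_ _) _)
    exact Measurable.const_mul (Finset.measurable_fun_sum _ (fun x _ => (hΦ j ξ x).pow_const _)) _
  rw [← e1]
  calc _ ≤ ∫⁻ y, ∏ j : Fin 4, (Ψ j y) ^ (1 / 4 : ℝ) :=
        lintegral_mono fun y => sb_chain_pt a (fun j ξ x => Φ j ξ x y) h hh
    _ = ∫⁻ y, ∏ j : Fin 4, ((Ψ j y) ^ (p j / 4)) ^ (1 / p j) := by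
        refine lintegral_congr fun y => Finset.prod_congr rfl fun j _ => ?_
        rw [← ENNReal.rpow_mul]
        congr 1
        have := (hp j).ne'
        field_simp
    _ ≤ ∏ j : Fin 4, (∫⁻ y, (Ψ j y) ^ (p j / 4)) ^ (1 / p j) :=
        ENNReal.lintegral_prod_norm_pow_le Finset.univ
          (fun j _ => ((hΨ j).pow_const _).aemeasurable) hp1 (fun j _ => by have := hp j; positivity)

/-! ## Lemma 7.1 for finite parameter spaces -/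

theorem sb_mixed_fin {X : Type*} [Fintype X] (a : X → ℝ≥0∞) (ha : ∀ ξ, a ξ ≠ ⊤) {M : ℕ} [NeZero M] {p s h q : ℝ} (hq : 0 < q) (hp : q < p) (hs : q < s) (hh : q < h)
    (f : X → ZMod M → ℝ → ℂ) (hf : ∀ ξ x, Measurable (f ξ x)) :
    ∫⁻ y, (∑ ξ, a ξ * ((M : ℝ≥0∞)⁻¹ * ∑ x : ZMod M, Mq q (f ξ x) y ^ h) ^ (s / h)) ^ (p / s)
      ≤ mxC3 (p / q) (s / q) (h / q) 1 * ∫⁻ y, (∑ ξ, a ξ * ((M : ℝ≥0∞)⁻¹ * ∑ x : ZMod M, ‖f ξ x y‖ₑ ^ h) ^ (s / h)) ^ (p / s) := by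
  let _ : MeasurableSpace X := ⊤
  have : MeasurableSingletonClass X := ⟨fun _ => MeasurableSpace.measurableSet_top⟩
  let _ : MeasurableSpace (ZMod M) := ⊤
  have : MeasurableSingletonClass (ZMod M) := ⟨fun _ => MeasurableSpace.measurableSet_top⟩
  have hmeas : Measurable (fun z : ℝ × X × ZMod M => ‖f z.2.1 z.2.2 z.1‖ₑ) :=
    measurable_from_prod_countable_left fun w => (hf w.1 w.2).enorm
  have key := mx_mixed_Mq (∑ ξ, a ξ • Measure.dirac ξ) ((M : ℝ≥0∞)⁻¹ • Measure.count) hq hp hs hh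
    (fun y ξ x => ‖f ξ x y‖ₑ) hmeas
  simp only [sb_lintegral_wt, sb_lintegral_cnt] at key
  exact key

theorem sb_Mq_measurable (q : ℝ) (f : ℝ → ℂ) : Measurable (Mq q f) := mxMq_measurable q f

/-! ## Norms of the bursts -/

theorem sb_burst_norm {X : Type*} [Fintype X] (a : X → ℝ≥0∞) {M : ℕ} [NeZero M] (τ : ℤ) (Nall : Finset ℤ) (c : X → ZMod M → ℤ → ℂ) (h p : ℝ) (hh : 0 < h) (hp : 0 < p) :
    ∫⁻ y, (∑ ξ, a ξ * ((M : ℝ≥0∞)⁻¹ * ∑ x : ZMod M, ‖sbBurst τ Nall (c ξ x) y‖ₑ ^ h) ^ (4 / h)) ^ (p / 4)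
      = ENNReal.ofReal (sbDel τ / 16) * ∑ n ∈ Nall, (∑ ξ, a ξ * ((M : ℝ≥0∞)⁻¹ * ∑ x : ZMod M, ‖c ξ x n‖ₑ ^ h) ^ (4 / h)) ^ (p / 4) := by
  have hδ0 : 0 < sbDel τ := sb_del_pos τ
  set B : ℤ → Set ℝ := fun n => {y | |y - sbDel τ * n| < sbDel τ / 32} with hB
  set K : ℤ → ℝ≥0∞ := fun n =>
    (∑ ξ, a ξ * ((M : ℝ≥0∞)⁻¹ * ∑ x : ZMod M, ‖c ξ x n‖ₑ ^ h) ^ (4 / h)) ^ (p / 4) with hK
  have hBeq : ∀ n, B n = Set.Ioo (sbDel τ * n - sbDel τ / 32) (sbDel τ * n + sbDel τ / 32) := by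
    intro n
    ext y
    constructor
    · intro hy
      have hy' : |y - sbDel τ * n| < sbDel τ / 32 := hy
      rw [abs_lt] at hy'
      exact ⟨by linarith [hy'.1], by linarith [hy'.2]⟩
    · intro hy
      have : |y - sbDel τ * n| < sbDel τ / 32 := by
        rw [abs_lt]
        exact ⟨by linarith [hy.1], by linarith [hy.2]⟩
      exact this
  have hBm : ∀ n, MeasurableSet (B n) := fun n => by
    rw [hBeq]
    exact measurableSet_Ioo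
  have hBv : ∀ n, volume (B n) = ENNReal.ofReal (sbDel τ / 16) := fun n => by
    rw [hBeq, Real.volume_Ioo]
    congr 1
    ring
  have hdisj : ∀ (n n' : ℤ) (y : ℝ), y ∈ B n → y ∈ B n' → n = n' := by
    intro n n' y hy hy'
    by_contra hne
    have h1 : |y - sbDel τ * n| < sbDel τ / 32 := hy
    have h2 : |y - sbDel τ * n'| < sbDel τ / 32 := hy'
    have h3 : (1 : ℝ) ≤ |(n : ℝ) - n'| := by
      exact_mod_cast Int.one_le_abs (sub_ne_zero.2 hne)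
    have h4 : sbDel τ * |(n : ℝ) - n'| = |(y - sbDel τ * n') - (y - sbDel τ * n)| := by
      rw [← abs_of_pos hδ0, ← abs_mul, abs_of_pos hδ0]
      congr 1
      ring
    have h5 := abs_sub (y - sbDel τ * n') (y - sbDel τ * n)
    have h6 : sbDel τ * 1 ≤ sbDel τ * |(n : ℝ) - n'| := mul_le_mul_of_nonneg_left h3 hδ0.le
    linarith
  have hpt : ∀ y, (∑ ξ, a ξ * ((M : ℝ≥0∞)⁻¹ * ∑ x : ZMod M, ‖sbBurst τ Nall (c ξ x) y‖ₑ ^ h) ^ (4 / h)) ^ (p / 4)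
      = ∑ n ∈ Nall, (B n).indicator (fun _ => K n) y := by
    intro y
    by_cases hex : ∃ n ∈ Nall, y ∈ B n
    · obtain ⟨n, hn, hy⟩ := hex
      have e1 : ∀ ξ x, sbBurst τ Nall (c ξ x) y = c ξ x n := fun ξ x => sb_burst_apply τ Nall (c ξ x) y n hn hy
      simp only [e1]
      rw [Finset.sum_eq_single n]
      · rw [Set.indicator_of_mem hy]
      · intro n' _ hne
        exact Set.indicator_of_notMem (fun hy' => hne (hdisj n' n y hy' hy)) _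
      · exact fun h' => absurd hn h'
    · have e1 : ∀ ξ x, sbBurst τ Nall (c ξ x) y = 0 := fun ξ x =>
        sb_burst_zero τ Nall (c ξ x) y fun n hn hy => hex ⟨n, hn, hy⟩
      have h4 : 0 < 4 / h := by positivity
      have hp4 : 0 < p / 4 := by positivity
      simp only [e1, enorm_zero, ENNReal.zero_rpow_of_pos hh, Finset.sum_const_zero, mul_zero,
        ENNReal.zero_rpow_of_pos h4, ENNReal.zero_rpow_of_pos hp4]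
      refine (Finset.sum_eq_zero fun n hn => ?_).symm
      exact Set.indicator_of_notMem (fun hy => hex ⟨n, hn, hy⟩) _
  simp only [hpt]
  rw [lintegral_finsetSum _ (fun n _ => measurable_const.indicator (hBm n)), Finset.mul_sum]
  refine Finset.sum_congr rfl fun n _ => ?_
  rw [lintegral_indicator (hBm n), setLIntegral_const, hBv, mul_comm]

/-- conversion of a fast mean to real numbers -/
theorem sb_enn_fast {M : ℕ} [NeZero M] (g : ZMod M → ℂ) {r : ℝ} (hr : 0 ≤ r) :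
    (M : ℝ≥0∞)⁻¹ * ∑ x : ZMod M, ‖g x‖ₑ ^ r = ENNReal.ofReal ((M : ℝ)⁻¹ * ∑ x : ZMod M, ‖g x‖ ^ r) := by
  have hM : (0 : ℝ) < M := by exact_mod_cast Nat.pos_of_ne_zero (NeZero.ne M)
  rw [ENNReal.ofReal_mul (by positivity), ENNReal.ofReal_inv_of_pos hM, ENNReal.ofReal_natCast,
    ENNReal.ofReal_sum_of_nonneg (fun x _ => Real.rpow_nonneg (norm_nonneg _) _)]
  congr 1
  refine Finset.sum_congr rfl fun x _ => ?_
  rw [← ofReal_norm, ENNReal.ofReal_rpow_of_nonneg (norm_nonneg _) hr]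

/-- conversion of an average over `Ω × ZMod M` to real numbers -/
theorem sb_enn_wt {Ω : Type} [Fintype Ω] {pr : Ω → ℝ} (hpr : ∀ σ, 0 ≤ pr σ) {M : ℕ} [NeZero M]
    (Y : Ω × ZMod M → ℝ) (hY : ∀ ξ, 0 ≤ Y ξ) :
    ∑ ξ : Ω × ZMod M, sbWt pr M ξ * ENNReal.ofReal (Y ξ)
      = ENNReal.ofReal (∑ σ, pr σ * ((M : ℝ)⁻¹ * ∑ γ : ZMod M, Y (σ, γ))) := by
  have hM : (0 : ℝ) < M := by exact_mod_cast Nat.pos_of_ne_zero (NeZero.ne M)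
  rw [ENNReal.ofReal_sum_of_nonneg (fun σ _ => mul_nonneg (hpr σ)
    (mul_nonneg (by positivity) (Finset.sum_nonneg fun γ _ => hY _))), Fintype.sum_prod_type]
  refine Finset.sum_congr rfl fun σ _ => ?_
  rw [ENNReal.ofReal_mul (hpr σ), ENNReal.ofReal_mul (by positivity), ENNReal.ofReal_inv_of_pos hM,
    ENNReal.ofReal_natCast, ENNReal.ofReal_sum_of_nonneg (fun γ _ => hY _), Finset.mul_sum, Finset.mul_sum]
  refine Finset.sum_congr rfl fun γ _ => ?_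
  unfold sbWt
  ring

section
variable {c0 C0 : ℝ} {t : ℤ} {b0 : ℕ} {S : Finset Cell} {w : Cell → ℝ × ℝ → ℂ} {Ω : Type} [Fintype Ω] {pr : Ω → ℝ} {M : ℕ} [NeZero M]
    {F : Ω → Fin 4 → ℤ → ZMod M → ℂ} {ms : Fin 4 → ℤ → ℝ} {a b : Fin 4} {Cm : ℝ} {Nall : Finset ℤ} {E : Fin 4 → ℝ}

/-- regular slot. -/
theorem sb_mix_reg (h : SbDiscHyp c0 C0 t b0 S w pr M F ms a b Cm Nall E) (A : ℝ) (j : Fin 4) (hj : j ≠ a) (n : ℤ) :
    ∑ ξ : Ω × ZMod M, sbWt pr M ξ * ((M : ℝ≥0∞)⁻¹ * ∑ x : ZMod M, ‖sbG a A ξ.2 (F ξ.1) j n x‖ₑ ^ (4 : ℝ)) ^ (4 / 4 : ℝ)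
      ≤ ENNReal.ofReal (2 * (Cm ^ 2 * ms j n) ^ 2) := by
  have e1 : ∀ ξ : Ω × ZMod M, ((M : ℝ≥0∞)⁻¹ * ∑ x : ZMod M, ‖sbG a A ξ.2 (F ξ.1) j n x‖ₑ ^ (4 : ℝ)) ^ (4 / 4 : ℝ)
      = ENNReal.ofReal (sbFp 4 (sbG0 ξ.2 (F ξ.1) j n)) := by
    intro ξ
    have e2 : (4 / 4 : ℝ) = 1 := by norm_num
    rw [e2, ENNReal.rpow_one, sb_enn_fast _ (by norm_num), sb_G_of_ne a A ξ.2 (F ξ.1) j hj]
    unfold sbFp
    congr 2
    refine Finset.sum_congr rfl fun x _ => ?_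
    exact_mod_cast Real.rpow_natCast ‖sbG0 ξ.2 (F ξ.1) j n x‖ 4
  simp only [e1]
  rw [sb_enn_wt h.pr_nonneg (fun ξ => sbFp 4 (sbG0 ξ.2 (F ξ.1) j n)) (fun ξ => sb_Fp_nonneg _ _)]
  refine ENNReal.ofReal_le_ofReal ?_
  calc ∑ σ, pr σ * ((M : ℝ)⁻¹ * ∑ γ : ZMod M, sbFp 4 (sbG0 γ (F σ) j n))
      ≤ ∑ σ, pr σ * (2 * sbFp 2 (F σ j n) ^ 2) :=
        Finset.sum_le_sum fun σ _ =>
          mul_le_mul_of_nonneg_left (sb_G0_fp4_avg h.prime h.M_gt (F σ) j n) (h.pr_nonneg σ)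
    _ = 2 * ∑ σ, pr σ * sbFp 2 (F σ j n) ^ 2 := by
        rw [Finset.mul_sum]
        exact Finset.sum_congr rfl fun σ _ => by ring
    _ ≤ 2 * Real.sqrt (∑ σ, pr σ * sbFp 2 (F σ j n) ^ 4) :=
        mul_le_mul_of_nonneg_left (sb_jensen24 pr h.pr_nonneg h.pr_sum _) (by norm_num)
    _ ≤ 2 * Real.sqrt ((Cm ^ 2 * ms j n) ^ 4) :=
        mul_le_mul_of_nonneg_left (Real.sqrt_le_sqrt (h.mom j n)) (by norm_num)
    _ = 2 * (Cm ^ 2 * ms j n) ^ 2 := by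
        have : (Cm ^ 2 * ms j n) ^ 4 = ((Cm ^ 2 * ms j n) ^ 2) ^ 2 := by ring
        rw [this, Real.sqrt_sq (sq_nonneg _)]

/-- the clipped slot. -/
theorem sb_mix_heavy (h : SbDiscHyp c0 C0 t b0 S w pr M F ms a b Cm Nall E) (q : ℝ) (hq : 2 < q) (hq3 : q < 3) (A : ℝ) (hA : 1 ≤ A) (n : ℤ) :
    ∑ ξ : Ω × ZMod M, sbWt pr M ξ * ((M : ℝ≥0∞)⁻¹ * ∑ x : ZMod M, ‖sbG a A ξ.2 (F ξ.1) a n x‖ₑ ^ (sbP q)) ^ (4 / sbP q)
      ≤ ENNReal.ofReal ((A ^ (sbP q - 2) * (Cm ^ 2 * ms a n)) ^ (4 / sbP q)) := by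
  obtain ⟨hP1, hP2, hP4⟩ := sb_exp_P q hq hq3
  have hP0 : 0 < sbP q := by linarith
  have hA0 : 0 ≤ A := by linarith
  have hM : (0 : ℝ) < M := by exact_mod_cast Nat.pos_of_ne_zero (NeZero.ne M)
  set W : Ω → ℝ := fun σ => A ^ (sbP q - 2) * sbFp 2 (F σ a n) with hW
  have hW0 : ∀ σ, 0 ≤ W σ := fun σ => mul_nonneg (Real.rpow_nonneg hA0 _) (sb_Fp_nonneg _ _)
  set Y : Ω × ZMod M → ℝ := fun ξ =>
    ((M : ℝ)⁻¹ * ∑ x : ZMod M, ‖sbG a A ξ.2 (F ξ.1) a n x‖ ^ (sbP q)) ^ (4 / sbP q) with hY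
  have hin0 : ∀ ξ : Ω × ZMod M, 0 ≤ (M : ℝ)⁻¹ * ∑ x : ZMod M, ‖sbG a A ξ.2 (F ξ.1) a n x‖ ^ (sbP q) :=
    fun ξ => mul_nonneg (by positivity) (Finset.sum_nonneg fun x _ => Real.rpow_nonneg (norm_nonneg _) _)
  have hY0 : ∀ ξ, 0 ≤ Y ξ := fun ξ => Real.rpow_nonneg (hin0 ξ) _
  have e1 : ∀ ξ : Ω × ZMod M, ((M : ℝ≥0∞)⁻¹ * ∑ x : ZMod M, ‖sbG a A ξ.2 (F ξ.1) a n x‖ₑ ^ (sbP q)) ^ (4 / sbP q)
      = ENNReal.ofReal (Y ξ) := by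
    intro ξ
    rw [sb_enn_fast _ hP0.le, ENNReal.ofReal_rpow_of_nonneg (hin0 ξ) (by positivity)]
  simp only [e1]
  rw [sb_enn_wt h.pr_nonneg Y hY0]
  refine ENNReal.ofReal_le_ofReal ?_
  have hYW : ∀ ξ : Ω × ZMod M, Y ξ ≤ W ξ.1 ^ (4 / sbP q) := by
    intro ξ
    refine Real.rpow_le_rpow (hin0 ξ) ?_ (by positivity)
    have h1 : ∀ x : ZMod M, ‖sbG a A ξ.2 (F ξ.1) a n x‖ ^ (sbP q)
        ≤ A ^ (sbP q - 2) * ‖sbG a A ξ.2 (F ξ.1) a n x‖ ^ 2 := by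
      intro x
      have hle : ‖sbG a A ξ.2 (F ξ.1) a n x‖ ≤ A := by
        unfold sbG
        rw [if_pos rfl]
        exact sb_clip_norm_le' A hA0 _
      have e3 : sbP q = (sbP q - 2) + (2 : ℕ) := by push_cast; ring
      conv_lhs => rw [e3]
      rw [Real.rpow_add_natCast' (norm_nonneg _) (by push_cast; linarith)]
      exact mul_le_mul_of_nonneg_right (Real.rpow_le_rpow (norm_nonneg _) hle (by linarith)) (by positivity)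
    calc (M : ℝ)⁻¹ * ∑ x : ZMod M, ‖sbG a A ξ.2 (F ξ.1) a n x‖ ^ (sbP q)
        ≤ (M : ℝ)⁻¹ * ∑ x : ZMod M, A ^ (sbP q - 2) * ‖sbG a A ξ.2 (F ξ.1) a n x‖ ^ 2 :=
          mul_le_mul_of_nonneg_left (Finset.sum_le_sum fun x _ => h1 x) (by positivity)
      _ = A ^ (sbP q - 2) * sbFp 2 (sbG a A ξ.2 (F ξ.1) a n) := by
          unfold sbFp
          rw [← Finset.mul_sum]
          ring
      _ ≤ W ξ.1 := mul_le_mul_of_nonneg_left (sb_G_fp2_le a A hA0 ξ.2 (F ξ.1) a n) (Real.rpow_nonneg hA0 _)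
  have h2 : ∀ σ, (M : ℝ)⁻¹ * ∑ γ : ZMod M, Y (σ, γ) ≤ W σ ^ (4 / sbP q) := by
    intro σ
    calc (M : ℝ)⁻¹ * ∑ γ : ZMod M, Y (σ, γ) ≤ (M : ℝ)⁻¹ * ∑ _γ : ZMod M, W σ ^ (4 / sbP q) :=
          mul_le_mul_of_nonneg_left (Finset.sum_le_sum fun γ _ => hYW (σ, γ)) (by positivity)
      _ = W σ ^ (4 / sbP q) := by
          rw [Finset.sum_const, Finset.card_univ, ZMod.card, nsmul_eq_mul, ← mul_assoc,
            inv_mul_cancel₀ hM.ne', one_mul]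
  have e4 : ∀ σ, (W σ ^ (4 / sbP q)) ^ (sbP q) = W σ ^ 4 := by
    intro σ
    rw [← Real.rpow_mul (hW0 σ), div_mul_cancel₀ _ hP0.ne']
    exact_mod_cast Real.rpow_natCast (W σ) 4
  have hB0 : 0 ≤ A ^ (sbP q - 2) * (Cm ^ 2 * ms a n) :=
    mul_nonneg (Real.rpow_nonneg hA0 _) (mul_nonneg (sq_nonneg _) (h.ms_nonneg a n))
  calc ∑ σ, pr σ * ((M : ℝ)⁻¹ * ∑ γ : ZMod M, Y (σ, γ))
      ≤ ∑ σ, pr σ * W σ ^ (4 / sbP q) :=
        Finset.sum_le_sum fun σ _ => mul_le_mul_of_nonneg_left (h2 σ) (h.pr_nonneg σ)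
    _ ≤ (∑ σ, pr σ * (W σ ^ (4 / sbP q)) ^ (sbP q)) ^ (1 / sbP q) :=
        Real.arith_mean_le_rpow_mean Finset.univ pr _ (fun σ _ => h.pr_nonneg σ) h.pr_sum
          (fun σ _ => Real.rpow_nonneg (hW0 σ) _) (by linarith)
    _ = ((A ^ (sbP q - 2)) ^ 4 * ∑ σ, pr σ * sbFp 2 (F σ a n) ^ 4) ^ (1 / sbP q) := by
        congr 1
        rw [Finset.mul_sum]
        refine Finset.sum_congr rfl fun σ _ => ?_
        rw [e4, hW]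
        ring
    _ ≤ ((A ^ (sbP q - 2)) ^ 4 * (Cm ^ 2 * ms a n) ^ 4) ^ (1 / sbP q) := by
        refine Real.rpow_le_rpow ?_ (mul_le_mul_of_nonneg_left (h.mom a n) (by positivity)) (by positivity)
        exact mul_nonneg (by positivity) (Finset.sum_nonneg fun σ _ =>
          mul_nonneg (h.pr_nonneg σ) (pow_nonneg (sb_Fp_nonneg _ _) _))
    _ = (A ^ (sbP q - 2) * (Cm ^ 2 * ms a n)) ^ (4 / sbP q) := by
        rw [← mul_pow, ← Real.rpow_natCast, ← Real.rpow_mul hB0]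
        congr 1
        push_cast
        ring

end

/-- one slot, from a bound `κ * ms j n` of the `p/4`-th power of the mixed norm at every slow index -/
theorem sb_slot_aux {q : ℝ} (hq : 2 < q) (hq3 : q < 3) {c0 C0 : ℝ} {t : ℤ} {b0 : ℕ} {S : Finset Cell}
    {w : Cell → ℝ × ℝ → ℂ} {Ω : Type} [Fintype Ω] {pr : Ω → ℝ} {M : ℕ} [NeZero M]
    {F : Ω → Fin 4 → ℤ → ZMod M → ℂ} {ms : Fin 4 → ℤ → ℝ} {a b : Fin 4} {Cm : ℝ} {Nall : Finset ℤ} {E : Fin 4 → ℝ}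
    (h : SbDiscHyp c0 C0 t b0 S w pr M F ms a b Cm Nall E) (A : ℝ) (j : Fin 4) {p hh κ : ℝ} (hp : q < p)
    (hhq : q < hh) (hκ : 0 ≤ κ)
    (hn : ∀ n, (∑ ξ : Ω × ZMod M, sbWt pr M ξ * ((M : ℝ≥0∞)⁻¹ * ∑ x : ZMod M,
      ‖sbG a A ξ.2 (F ξ.1) j n x‖ₑ ^ hh) ^ (4 / hh)) ^ (p / 4) ≤ ENNReal.ofReal (κ * ms j n)) :
    (∫⁻ y, (∑ ξ : Ω × ZMod M, sbWt pr M ξ * ((M : ℝ≥0∞)⁻¹ * ∑ x : ZMod M,
        Mq q (sbBurst (t + b0) Nall (fun n => sbG a A ξ.2 (F ξ.1) j n x)) y ^ hh) ^ (4 / hh)) ^ (p / 4)) ^ (1 / p)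
      ≤ ENNReal.ofReal ((((mxC3 (p / q) (4 / q) (hh / q) 1 : NNReal) : ℝ) * κ / 16) ^ (1 / p) * E j ^ (1 / p)) := by
  have hq0 : 0 < q := by linarith
  have hp0 : 0 < p := by linarith
  have hM0 : (M : ℝ≥0∞) ≠ 0 := by exact_mod_cast NeZero.ne M
  have hwt : ∀ ξ : Ω × ZMod M, sbWt pr M ξ ≠ ⊤ := fun ξ =>
    ENNReal.mul_ne_top ENNReal.ofReal_ne_top (ENNReal.inv_ne_top.2 hM0)
  have hδ0 : 0 < sbDel (t + b0) := sb_del_pos _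
  have hsum0 : 0 ≤ ∑ n ∈ Nall, ms j n := Finset.sum_nonneg fun n _ => h.ms_nonneg j n
  have hE : 0 ≤ E j := le_trans (mul_nonneg hδ0.le hsum0) (h.tot j)
  set c3 : NNReal := mxC3 (p / q) (4 / q) (hh / q) 1 with hc3
  have h1 := sb_mixed_fin (sbWt pr M) hwt (M := M) (p := p) (s := 4) (h := hh) hq0 hp (by linarith) hhq
    (fun ξ x => sbBurst (t + b0) Nall (fun n => sbG a A ξ.2 (F ξ.1) j n x))
    (fun ξ x => sb_burst_measurable _ _ _)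
  rw [sb_burst_norm (sbWt pr M) (t + b0) Nall (fun ξ x n => sbG a A ξ.2 (F ξ.1) j n x) hh p (by linarith) hp0]
    at h1
  have h2 : ∑ n ∈ Nall, (∑ ξ : Ω × ZMod M, sbWt pr M ξ * ((M : ℝ≥0∞)⁻¹ * ∑ x : ZMod M,
      ‖sbG a A ξ.2 (F ξ.1) j n x‖ₑ ^ hh) ^ (4 / hh)) ^ (p / 4) ≤ ENNReal.ofReal (κ * ∑ n ∈ Nall, ms j n) := by
    rw [Finset.mul_sum, ENNReal.ofReal_sum_of_nonneg (fun n _ => mul_nonneg hκ (h.ms_nonneg j n))]
    exact Finset.sum_le_sum fun n _ => hn n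
  have h3 : ∫⁻ y, (∑ ξ : Ω × ZMod M, sbWt pr M ξ * ((M : ℝ≥0∞)⁻¹ * ∑ x : ZMod M,
        Mq q (sbBurst (t + b0) Nall (fun n => sbG a A ξ.2 (F ξ.1) j n x)) y ^ hh) ^ (4 / hh)) ^ (p / 4)
      ≤ ENNReal.ofReal ((c3 : ℝ) * κ / 16 * E j) := by
    refine h1.trans ?_
    calc (c3 : ℝ≥0∞) * (ENNReal.ofReal (sbDel (t + b0) / 16) * ∑ n ∈ Nall, (∑ ξ : Ω × ZMod M, sbWt pr M ξ *
          ((M : ℝ≥0∞)⁻¹ * ∑ x : ZMod M, ‖sbG a A ξ.2 (F ξ.1) j n x‖ₑ ^ hh) ^ (4 / hh)) ^ (p / 4))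
        ≤ (c3 : ℝ≥0∞) * (ENNReal.ofReal (sbDel (t + b0) / 16) * ENNReal.ofReal (κ * ∑ n ∈ Nall, ms j n)) :=
          mul_le_mul' le_rfl (mul_le_mul' le_rfl h2)
      _ = ENNReal.ofReal ((c3 : ℝ) * (sbDel (t + b0) / 16 * (κ * ∑ n ∈ Nall, ms j n))) := by
          rw [← ENNReal.ofReal_mul (by positivity), ← ENNReal.ofReal_coe_nnreal (p := c3),
            ← ENNReal.ofReal_mul c3.coe_nonneg]
      _ ≤ ENNReal.ofReal ((c3 : ℝ) * κ / 16 * E j) := by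
          refine ENNReal.ofReal_le_ofReal ?_
          have h4 : (c3 : ℝ) * κ / 16 * (sbDel (t + b0) * ∑ n ∈ Nall, ms j n) ≤ (c3 : ℝ) * κ / 16 * E j :=
            mul_le_mul_of_nonneg_left (h.tot j) (by have := c3.coe_nonneg; positivity)
          calc (c3 : ℝ) * (sbDel (t + b0) / 16 * (κ * ∑ n ∈ Nall, ms j n))
              = (c3 : ℝ) * κ / 16 * (sbDel (t + b0) * ∑ n ∈ Nall, ms j n) := by ring
            _ ≤ _ := h4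
  have hc0 : 0 ≤ (c3 : ℝ) * κ / 16 := by have := c3.coe_nonneg; positivity
  calc _ ≤ (ENNReal.ofReal ((c3 : ℝ) * κ / 16 * E j)) ^ (1 / p) := ENNReal.rpow_le_rpow h3 (by positivity)
    _ = ENNReal.ofReal (((c3 : ℝ) * κ / 16 * E j) ^ (1 / p)) :=
        ENNReal.ofReal_rpow_of_nonneg (mul_nonneg hc0 hE) (by positivity)
    _ = _ := by rw [Real.mul_rpow hc0 hE]

/-- the clipped slot -/
theorem sb_slot_heavy {q : ℝ} (hq : 2 < q) (hq3 : q < 3) {c0 C0 : ℝ} {t : ℤ} {b0 : ℕ} {S : Finset Cell}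
    {w : Cell → ℝ × ℝ → ℂ} {Ω : Type} [Fintype Ω] {pr : Ω → ℝ} {M : ℕ} [NeZero M]
    {F : Ω → Fin 4 → ℤ → ZMod M → ℂ} {ms : Fin 4 → ℤ → ℝ} {a b : Fin 4} {Cm : ℝ} {Nall : Finset ℤ} {E : Fin 4 → ℝ}
    (h : SbDiscHyp c0 C0 t b0 S w pr M F ms a b Cm Nall E) (A : ℝ) (hA : 1 ≤ A) :
    (∫⁻ y, (∑ ξ : Ω × ZMod M, sbWt pr M ξ * ((M : ℝ≥0∞)⁻¹ * ∑ x : ZMod M,
        Mq q (sbBurst (t + b0) Nall (fun n => sbG a A ξ.2 (F ξ.1) a n x)) y ^ (sbP q)) ^ (4 / sbP q)) ^ (sbP q / 4))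
          ^ (1 / sbP q)
      ≤ ENNReal.ofReal ((((mxC3 (sbP q / q) (4 / q) (sbP q / q) 1 : NNReal) : ℝ) * Cm ^ 2 / 16) ^ (1 / sbP q) *
          (A ^ (1 - 2 / sbP q) * E a ^ (1 / sbP q))) := by
  obtain ⟨hP1, hP2, hP4⟩ := sb_exp_P q hq hq3
  have hP0 : 0 < sbP q := by linarith
  have hA0 : 0 ≤ A := by linarith
  have hAp : 0 ≤ A ^ (sbP q - 2) := Real.rpow_nonneg hA0 _
  have hn : ∀ n, (∑ ξ : Ω × ZMod M, sbWt pr M ξ * ((M : ℝ≥0∞)⁻¹ * ∑ x : ZMod M,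
      ‖sbG a A ξ.2 (F ξ.1) a n x‖ₑ ^ (sbP q)) ^ (4 / sbP q)) ^ (sbP q / 4)
      ≤ ENNReal.ofReal (A ^ (sbP q - 2) * Cm ^ 2 * ms a n) := by
    intro n
    have hB0 : 0 ≤ A ^ (sbP q - 2) * (Cm ^ 2 * ms a n) :=
      mul_nonneg hAp (mul_nonneg (sq_nonneg _) (h.ms_nonneg a n))
    refine (ENNReal.rpow_le_rpow (sb_mix_heavy h q hq hq3 A hA n) (by positivity)).trans (le_of_eq ?_)
    rw [ENNReal.ofReal_rpow_of_nonneg (Real.rpow_nonneg hB0 _) (by positivity), ← Real.rpow_mul hB0]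
    have e : 4 / sbP q * (sbP q / 4) = 1 := by field_simp
    rw [e, Real.rpow_one, mul_assoc]
  refine (sb_slot_aux hq hq3 h A a hP1 hP1 (mul_nonneg hAp (sq_nonneg Cm)) hn).trans (le_of_eq ?_)
  congr 1
  set c3 : NNReal := mxC3 (sbP q / q) (4 / q) (sbP q / q) 1 with hc3
  have e1 : (c3 : ℝ) * (A ^ (sbP q - 2) * Cm ^ 2) / 16 = ((c3 : ℝ) * Cm ^ 2 / 16) * A ^ (sbP q - 2) := by ring
  have hc0 : 0 ≤ (c3 : ℝ) * Cm ^ 2 / 16 := by have := c3.coe_nonneg; positivity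
  rw [e1, Real.mul_rpow hc0 hAp, ← Real.rpow_mul hA0]
  have e2 : (sbP q - 2) * (1 / sbP q) = 1 - 2 / sbP q := by field_simp
  rw [e2, mul_assoc]

/-- a regular slot -/
theorem sb_slot_reg {q : ℝ} (hq : 2 < q) (hq3 : q < 3) {c0 C0 : ℝ} {t : ℤ} {b0 : ℕ} {S : Finset Cell}
    {w : Cell → ℝ × ℝ → ℂ} {Ω : Type} [Fintype Ω] {pr : Ω → ℝ} {M : ℕ} [NeZero M]
    {F : Ω → Fin 4 → ℤ → ZMod M → ℂ} {ms : Fin 4 → ℤ → ℝ} {a b : Fin 4} {Cm : ℝ} {Nall : Finset ℤ} {E : Fin 4 → ℝ}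
    (h : SbDiscHyp c0 C0 t b0 S w pr M F ms a b Cm Nall E) (A : ℝ) (j : Fin 4) (hj : j ≠ a) {p : ℝ} (hp : q < p) :
    (∫⁻ y, (∑ ξ : Ω × ZMod M, sbWt pr M ξ * ((M : ℝ≥0∞)⁻¹ * ∑ x : ZMod M,
        Mq q (sbBurst (t + b0) Nall (fun n => sbG a A ξ.2 (F ξ.1) j n x)) y ^ (4 : ℝ)) ^ (4 / 4 : ℝ)) ^ (p / 4))
          ^ (1 / p)
      ≤ ENNReal.ofReal ((((mxC3 (p / q) (4 / q) (4 / q) 1 : NNReal) : ℝ) *
          (2 ^ (p / 4) * (Cm ^ 2) ^ (p / 2) * ((2 : ℝ) ^ b0) ^ (p / 2 - 1)) / 16) ^ (1 / p) * E j ^ (1 / p)) := by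
  have hp0 : 0 < p := by linarith
  have hκ : 0 ≤ (2 : ℝ) ^ (p / 4) * (Cm ^ 2) ^ (p / 2) * ((2 : ℝ) ^ b0) ^ (p / 2 - 1) := by positivity
  have hn : ∀ n, (∑ ξ : Ω × ZMod M, sbWt pr M ξ * ((M : ℝ≥0∞)⁻¹ * ∑ x : ZMod M,
      ‖sbG a A ξ.2 (F ξ.1) j n x‖ₑ ^ (4 : ℝ)) ^ (4 / 4 : ℝ)) ^ (p / 4)
      ≤ ENNReal.ofReal ((2 : ℝ) ^ (p / 4) * (Cm ^ 2) ^ (p / 2) * ((2 : ℝ) ^ b0) ^ (p / 2 - 1) * ms j n) := by
    intro n
    have hms := h.ms_nonneg j n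
    have hx : 0 ≤ Cm ^ 2 * ms j n := mul_nonneg (sq_nonneg _) hms
    refine (ENNReal.rpow_le_rpow (sb_mix_reg h A j hj n) (by positivity)).trans ?_
    rw [ENNReal.ofReal_rpow_of_nonneg (by positivity) (by positivity)]
    refine ENNReal.ofReal_le_ofReal ?_
    have e1 : (2 * (Cm ^ 2 * ms j n) ^ 2) ^ (p / 4) = 2 ^ (p / 4) * ((Cm ^ 2) ^ (p / 2) * ms j n ^ (p / 2)) := by
      rw [Real.mul_rpow (by norm_num) (by positivity), ← Real.rpow_natCast (Cm ^ 2 * ms j n) 2,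
        ← Real.rpow_mul hx]
      have e : ((2 : ℕ) : ℝ) * (p / 4) = p / 2 := by push_cast; ring
      rw [e, Real.mul_rpow (sq_nonneg _) hms]
    have e2 : ms j n ^ (p / 2) = ms j n ^ (p / 2 - 1) * ms j n := by
      have e : p / 2 = (p / 2 - 1) + 1 := by ring
      conv_lhs => rw [e]
      rw [Real.rpow_add' hms (by linarith), Real.rpow_one]
    have h3 : ms j n ^ (p / 2 - 1) ≤ ((2 : ℝ) ^ b0) ^ (p / 2 - 1) :=
      Real.rpow_le_rpow hms (h.reg j hj n) (by linarith)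
    rw [e1, e2]
    calc (2 : ℝ) ^ (p / 4) * ((Cm ^ 2) ^ (p / 2) * (ms j n ^ (p / 2 - 1) * ms j n))
        = (2 : ℝ) ^ (p / 4) * (Cm ^ 2) ^ (p / 2) * ms j n * ms j n ^ (p / 2 - 1) := by ring
      _ ≤ (2 : ℝ) ^ (p / 4) * (Cm ^ 2) ^ (p / 2) * ms j n * ((2 : ℝ) ^ b0) ^ (p / 2 - 1) :=
          mul_le_mul_of_nonneg_left h3 (by positivity)
      _ = _ := by ring
  exact sb_slot_aux hq hq3 h A j hp (by linarith) hκ hn

/-- the mixed norm of the maximal function of the bursts of one slot. -/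
theorem sb_slot (q : ℝ) (hq : 2 < q) (hq3 : q < 3) (Cm : ℝ) (hCm : 1 ≤ Cm) (b0 : ℕ) : ∃ C : ℝ, 0 < C ∧
    ∀ (c0 C0 : ℝ) (t : ℤ) (S : Finset Cell) (w : Cell → ℝ × ℝ → ℂ) (Ω : Type) [Fintype Ω] (pr : Ω → ℝ) (M : ℕ) [NeZero M]
      (F : Ω → Fin 4 → ℤ → ZMod M → ℂ) (ms : Fin 4 → ℤ → ℝ) (a b : Fin 4) (Nall : Finset ℤ) (E : Fin 4 → ℝ),
      SbDiscHyp c0 C0 t b0 S w pr M F ms a b Cm Nall E → ∀ (A : ℝ), 1 ≤ A → ∀ j : Fin 4,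
      (∫⁻ y, (∑ ξ : Ω × ZMod M, sbWt pr M ξ * ((M : ℝ≥0∞)⁻¹ * ∑ x : ZMod M,
          Mq q (sbBurst (t + b0) Nall (fun n => sbG a A ξ.2 (F ξ.1) j n x)) y ^ (sbHj q a j)) ^ (4 / sbHj q a j)) ^ (sbPj q a b j / 4)) ^ (1 / sbPj q a b j)
        ≤ ENNReal.ofReal (C * ((if j = a then A ^ (1 - 2 / sbP q) else 1) * E j ^ (1 / sbPj q a b j))) := by
  obtain ⟨hP1, hP2, hP4⟩ := sb_exp_P q hq hq3
  have hP' := sb_exp_P' q hq hq3
  set C1 : ℝ := (((mxC3 (sbP q / q) (4 / q) (sbP q / q) 1 : NNReal) : ℝ) * Cm ^ 2 / 16) ^ (1 / sbP q) with hC1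
  set C2 : ℝ := (((mxC3 (sbP q / q) (4 / q) (4 / q) 1 : NNReal) : ℝ) *
    (2 ^ (sbP q / 4) * (Cm ^ 2) ^ (sbP q / 2) * ((2 : ℝ) ^ b0) ^ (sbP q / 2 - 1)) / 16) ^ (1 / sbP q) with hC2
  set C3 : ℝ := (((mxC3 (sbP' q / q) (4 / q) (4 / q) 1 : NNReal) : ℝ) *
    (2 ^ (sbP' q / 4) * (Cm ^ 2) ^ (sbP' q / 2) * ((2 : ℝ) ^ b0) ^ (sbP' q / 2 - 1)) / 16) ^ (1 / sbP' q) with hC3
  have h1 : 0 ≤ C1 := Real.rpow_nonneg (by positivity) _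
  have h2 : 0 ≤ C2 := Real.rpow_nonneg (by positivity) _
  have h3 : 0 ≤ C3 := Real.rpow_nonneg (by positivity) _
  refine ⟨C1 + C2 + C3 + 1, by positivity, ?_⟩
  intro c0 C0 t S w Ω _ pr M _ F ms a b Nall E hyp A hA j
  have hE : 0 ≤ E j :=
    le_trans (mul_nonneg (sb_del_pos _).le (Finset.sum_nonneg fun n _ => hyp.ms_nonneg j n)) (hyp.tot j)
  have hEp : ∀ r : ℝ, 0 ≤ E j ^ r := fun r => Real.rpow_nonneg hE r
  by_cases hja : j = a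
  · subst hja
    have e1 : sbPj q j b j = sbP q := if_pos (Or.inl rfl)
    have e2 : sbHj q j j = sbP q := if_pos rfl
    rw [e1, e2, if_pos rfl]
    refine (sb_slot_heavy hq hq3 hyp A hA).trans (ENNReal.ofReal_le_ofReal ?_)
    exact mul_le_mul_of_nonneg_right (by linarith)
      (mul_nonneg (Real.rpow_nonneg (by linarith) _) (hEp _))
  · have e2 : sbHj q a j = 4 := if_neg hja
    rw [e2, if_neg hja, one_mul]
    by_cases hjb : j = b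
    · have e1 : sbPj q a b j = sbP q := if_pos (Or.inr hjb)
      rw [e1]
      refine (sb_slot_reg hq hq3 hyp A j hja hP1).trans (ENNReal.ofReal_le_ofReal ?_)
      exact mul_le_mul_of_nonneg_right (by linarith) (hEp _)
    · have e1 : sbPj q a b j = sbP' q := if_neg (not_or.2 ⟨hja, hjb⟩)
      rw [e1]
      refine (sb_slot_reg hq hq3 hyp A j hja (by linarith)).trans (ENNReal.ofReal_le_ofReal ?_)
      exact mul_le_mul_of_nonneg_right (by linarith) (hEp _)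

/-- THE MAIN TERM. -/
theorem sb_main (q : ℝ) (hq : 2 < q) (hq3 : q < 3) (Cm : ℝ) (hCm : 1 ≤ Cm) (b0 : ℕ) : ∃ C : ℝ, 0 < C ∧
    ∀ (c0 C0 : ℝ) (t : ℤ) (S : Finset Cell) (w : Cell → ℝ × ℝ → ℂ) (Ω : Type) [Fintype Ω] (pr : Ω → ℝ) (M : ℕ) [NeZero M]
      (F : Ω → Fin 4 → ℤ → ZMod M → ℂ) (ms : Fin 4 → ℤ → ℝ) (a b : Fin 4) (Nall : Finset ℤ) (E : Fin 4 → ℝ),
      SbDiscHyp c0 C0 t b0 S w pr M F ms a b Cm Nall E → ∀ (A : ℝ), 1 ≤ A →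
      ∑ ξ : Ω × ZMod M, sbWt pr M ξ * (((M : ℝ≥0∞) ^ 2)⁻¹ * ∑ u : ZMod M, ∑ v : ZMod M,
          ∫⁻ y, ∏ j : Fin 4, Mq q (sbBurst (t + b0) Nall (fun n => sbG a A ξ.2 (F ξ.1) j n (sbAp u v j))) y)
        ≤ ENNReal.ofReal (C * (A ^ (1 - 2 / sbP q) * ∏ j : Fin 4, E j ^ (1 / sbPj q a b j))) := by
  obtain ⟨C, hC, hslot⟩ := sb_slot q hq hq3 Cm hCm b0
  refine ⟨C ^ 4, by positivity, ?_⟩
  intro c0 C0 t S w Ω _ pr M _ F ms a b Nall E hyp A hA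
  have hE : ∀ j, 0 ≤ E j := fun j =>
    le_trans (mul_nonneg (sb_del_pos _).le (Finset.sum_nonneg fun n _ => hyp.ms_nonneg j n)) (hyp.tot j)
  have hch := sb_chain (sbWt pr M)
    (fun j ξ x => Mq q (sbBurst (t + b0) Nall (fun n => sbG a A ξ.2 (F ξ.1) j n x)))
    (fun j ξ x => sb_Mq_measurable q _) (sbHj q a) (sbPj q a b)
    (fun j => (sb_exp_Hj q hq hq3 a j).2) (fun j => by have := (sb_exp_Pj q hq hq3 a b j).2; linarith)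
    (sb_exp_sum q hq a b hyp.ab)
  refine hch.trans ?_
  have hA0 : 0 ≤ A ^ (1 - 2 / sbP q) := Real.rpow_nonneg (by linarith) _
  calc _ ≤ ∏ j : Fin 4, ENNReal.ofReal (C * ((if j = a then A ^ (1 - 2 / sbP q) else 1) * E j ^ (1 / sbPj q a b j))) :=
        Finset.prod_le_prod' (fun j _ => hslot c0 C0 t S w Ω pr M F ms a b Nall E hyp A hA j)
    _ = ENNReal.ofReal (∏ j : Fin 4, (C * ((if j = a then A ^ (1 - 2 / sbP q) else 1) * E j ^ (1 / sbPj q a b j)))) := by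
        rw [ENNReal.ofReal_prod_of_nonneg]
        intro j _
        refine mul_nonneg hC.le (mul_nonneg ?_ (Real.rpow_nonneg (hE j) _))
        split_ifs
        · exact hA0
        · exact zero_le_one
    _ = _ := by
        congr 1
        rw [Finset.prod_mul_distrib, Finset.prod_mul_distrib, Finset.prod_const, Finset.prod_ite_eq']
        simp

end Claimed.Agent.R258
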