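/-
Row 258, block [S7b] (architect: helper243).  FILE Approx: averages on fine dyadic cells.  Paper-free.
Leaves: P-SB-AP1 (`sb_avg_supp`, `sb_mass_supp`, `sb_mass_nonneg`, `sb_mass_sum`), P-SB-AP2 (`sb_avg_memLp`, `sb_avg_contr`), P-SB-AP3 (`sb_avg_tendsto`), P-SB-AP4 (`sb_avg_mom`), P-SB-AP5 (`sb_z_memLp`).

`μ = sbDel ℓ`, fine cell `c_k = [μ k, μ (k+1))`, `T_ℓ f = sbStep ℓ (sbAvg ℓ f)` (conditional expectation on the fine cells).
* `sb_mass_sum`: `L.set` is the disjoint union of the `c_k`, `k ∈ sbIdx ℓ L` (`sb_mem_idx_iff`, `sb_floor_mem_idx_iff`); `integral_finset_biUnion`, or induction on consecutive intervals (`intervalIntegral.sum_integral_adjacent_intervals`).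
* `sb_avg_contr`: on `c_k`: `μ |avg|² ≤ ∫_{c_k} |f|²` (Cauchy-Schwarz); `f` vanishes off `R.set`, so for `ℓ ≥ R.depth` only `k ∈ sbIdx ℓ R` matter: `∫ |T_ℓ f|² = ∑_k μ |avg_k|² ≤ ∑_k ∫_{c_k} |f|² = ∫ |f|²` (`sb_step_sq_integral`).
* `sb_avg_tendsto`: `ε/3`: `MemLp.exists_hasCompactSupport_eLpNorm_sub_le` gives a continuous compactly supported `g` with `‖f - g‖₂ ≤ ε`.  Put `g₁ = g 1_R`; `‖f - g₁‖₂ ≤ ε`, `T_ℓ` is linear, `‖T_ℓ (f - g₁)‖₂ ≤ ε` (`sb_avg_contr`), and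
  `|T_ℓ g₁ - g₁| ≤ ω_g(2^{-ℓ})` on `R.set` (both vanish outside, each fine cell lies in `R` or outside), so `‖T_ℓ g₁ - g₁‖₂ ≤ ω_g(2^{-ℓ}) |R|^{1/2} → 0` (uniform continuity).
* `sb_avg_mom`: `μ |avg_k(z^σ)|² ≤ ∫_{c_k} |z^σ|²` (Cauchy-Schwarz), then Minkowski's integral inequality in `L⁴(pr)`: `v(y) = (pr σ^{1/4} |z^σ(y)|²)_σ ∈ PiLp 4 (fun _ : Ω => ℝ)`, `‖v(y)‖ = (∑ pr σ |z^σ(y)|⁸)^{1/4} ≤ Cm² m(y)²`,
  `norm_integral_le_integral_norm` / `norm_integral_le_of_norm_le`; the coordinates of `∫ v` are the integrals of the coordinates.   The `z σ` with `pr σ > 0` are square integrable on `c_k` since `pr σ |z^σ|⁸ ≤ (Cm m)⁸`.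
* `sb_z_memLp`: `‖z y‖ ≤ pr^{-1/8} Cm m(y)`.
-/
import Claimed.Agent.R258.S7b.Abs

set_option autoImplicit false
open MeasureTheory Filter Topology
open scoped ENNReal

namespace Claimed.Agent.R258

/-- the fine cell -/
theorem sb_mem_fine_iff (ℓ k : ℤ) (y : ℝ) :
    y ∈ Set.Ico (sbDel ℓ * k) (sbDel ℓ * (k + 1)) ↔ ⌊y * (2 : ℝ) ^ ℓ⌋ = k := by
  have hμ := sb_del_pos ℓ
  have h1 := sb_del_mul_zpow ℓ
  have e : y = sbDel ℓ * (y * (2 : ℝ) ^ ℓ) := by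
    rw [mul_left_comm, h1, mul_one]
  rw [Int.floor_eq_iff, Set.mem_Ico]
  constructor
  · rintro ⟨a, b⟩
    rw [e] at a b
    exact ⟨le_of_mul_le_mul_left a hμ, lt_of_mul_lt_mul_left b hμ.le⟩
  · rintro ⟨a, b⟩
    rw [e]
    exact ⟨mul_le_mul_of_nonneg_left a hμ.le, mul_lt_mul_of_pos_left b hμ⟩

theorem sb_fine_volume (ℓ k : ℤ) :
    volume (Set.Ico (sbDel ℓ * k) (sbDel ℓ * (k + 1))) = ENNReal.ofReal (sbDel ℓ) := by
  rw [Real.volume_Ico]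
  congr 1
  ring

theorem sb_fine_disjoint (ℓ : ℤ) {k k' : ℤ} (h : k ≠ k') :
    Disjoint (Set.Ico (sbDel ℓ * k) (sbDel ℓ * (k + 1))) (Set.Ico (sbDel ℓ * k') (sbDel ℓ * (k' + 1))) := by
  rw [Set.disjoint_left]
  intro y h1 h2
  rw [sb_mem_fine_iff] at h1 h2
  exact h (h1.symm.trans h2)

theorem sb_fine_subset (ℓ : ℤ) (R : Cell) (hR : R.depth ≤ ℓ) {k : ℤ} (hk : k ∈ sbIdx ℓ R) :
    Set.Ico (sbDel ℓ * k) (sbDel ℓ * (k + 1)) ⊆ R.set := by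
  intro y hy
  rw [sb_mem_fine_iff] at hy
  rw [← sb_floor_mem_idx_iff ℓ R hR, hy]
  exact hk

theorem sb_fine_notMem (ℓ : ℤ) (R : Cell) (hR : R.depth ≤ ℓ) {k : ℤ} (hk : k ∉ sbIdx ℓ R) {y : ℝ}
    (hy : y ∈ Set.Ico (sbDel ℓ * k) (sbDel ℓ * (k + 1))) : y ∉ R.set := by
  rw [sb_mem_fine_iff] at hy
  rw [← sb_floor_mem_idx_iff ℓ R hR, hy]
  exact hk

theorem sb_fine_iUnion (ℓ : ℤ) (L : Cell) (hL : L.depth ≤ ℓ) :
    ⋃ k ∈ sbIdx ℓ L, Set.Ico (sbDel ℓ * k) (sbDel ℓ * (k + 1)) = L.set := by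
  ext y
  simp only [Set.mem_iUnion, exists_prop, sb_mem_fine_iff]
  rw [← sb_floor_mem_idx_iff ℓ L hL]
  constructor
  · rintro ⟨k, hk, rfl⟩
    exact hk
  · intro h
    exact ⟨_, h, rfl⟩

theorem sb_avg_supp (ℓ : ℤ) (R : Cell) (hR : R.depth ≤ ℓ) (f : ℝ → ℂ) (hf : ∀ y, y ∉ R.set → f y = 0) (k : ℤ) (hk : k ∉ sbIdx ℓ R) : sbAvg ℓ f k = 0 := by
  unfold sbAvg
  rw [setIntegral_eq_zero_of_forall_eq_zero fun y hy => hf y (sb_fine_notMem ℓ R hR hk hy), mul_zero]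

theorem sb_mass_supp (ℓ : ℤ) (R : Cell) (hR : R.depth ≤ ℓ) (g : ℝ → ℝ) (hg : ∀ y, y ∉ R.set → g y = 0) (k : ℤ) (hk : k ∉ sbIdx ℓ R) : sbMass ℓ g k = 0 := by
  unfold sbMass
  exact setIntegral_eq_zero_of_forall_eq_zero fun y hy => hg y (sb_fine_notMem ℓ R hR hk hy)

theorem sb_mass_nonneg (ℓ : ℤ) (g : ℝ → ℝ) (hg : ∀ y, 0 ≤ g y) (k : ℤ) : 0 ≤ sbMass ℓ g k := by
  unfold sbMass
  exact integral_nonneg fun y => hg y

theorem sb_mass_sum (ℓ : ℤ) (L : Cell) (hL : L.depth ≤ ℓ) (g : ℝ → ℝ) (hg : IntegrableOn g L.set) : ∑ k ∈ sbIdx ℓ L, sbMass ℓ g k = ∫ y in L.set, g y := by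
  unfold sbMass
  rw [← sb_fine_iUnion ℓ L hL]
  refine (integral_biUnion_finset _ (fun k _ => measurableSet_Ico) ?_ ?_).symm
  · intro k _ k' _ hne
    exact sb_fine_disjoint ℓ hne
  · intro k hk
    exact hg.mono_set (sb_fine_subset ℓ L hL hk)

/-- Cauchy-Schwarz against the constant function. -/
theorem sb_cs_const {s : Set ℝ} {μ : ℝ} (hs : volume s = ENNReal.ofReal μ) (hμ : 0 < μ) {h : ℝ → ℝ}
    (h1 : IntegrableOn h s) (h2 : IntegrableOn (fun y => h y ^ 2) s) :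
    (∫ y in s, h y) ^ 2 ≤ μ * ∫ y in s, h y ^ 2 := by
  set A := ∫ y in s, h y with hA
  set t := A / μ with ht
  have hc : ∫ _y in s, (t ^ 2 : ℝ) = μ * t ^ 2 := by
    rw [setIntegral_const, Measure.real, hs, ENNReal.toReal_ofReal hμ.le, smul_eq_mul]
  have hfin : volume s ≠ ⊤ := by rw [hs]; exact ENNReal.ofReal_ne_top
  have hi1 : IntegrableOn (fun y => 2 * t * h y) s := h1.const_mul _
  have hi2 : IntegrableOn (fun _ : ℝ => t ^ 2) s := integrableOn_const hfin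
  have key : 0 ≤ ∫ y in s, (h y - t) ^ 2 := integral_nonneg fun y => sq_nonneg _
  have e : ∫ y in s, (h y - t) ^ 2 = (∫ y in s, h y ^ 2) - 2 * t * A + μ * t ^ 2 := by
    have e1 : ∀ y, (h y - t) ^ 2 = h y ^ 2 - 2 * t * h y + t ^ 2 := fun y => by ring
    simp only [e1]
    have hi3 : IntegrableOn (fun y => h y ^ 2 - 2 * t * h y) s := h2.sub hi1
    rw [integral_add hi3 hi2, integral_sub h2 hi1, integral_const_mul, hc]
  rw [e] at key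
  have e2 : 2 * t * A = 2 * (A ^ 2 / μ) := by rw [ht]; ring
  have e3 : μ * t ^ 2 = A ^ 2 / μ := by rw [ht]; field_simp
  rw [e2, e3] at key
  have : A ^ 2 / μ ≤ ∫ y in s, h y ^ 2 := by linarith
  rwa [div_le_iff₀ hμ, mul_comm] at this

/-- `μ |avg|² ≤ ∫_{c_k} |f|²`. -/
theorem sb_avg_sq_le (ℓ k : ℤ) (f : ℝ → ℂ)
    (h1 : IntegrableOn (fun y => ‖f y‖) (Set.Ico (sbDel ℓ * k) (sbDel ℓ * (k + 1))))
    (h2 : IntegrableOn (fun y => ‖f y‖ ^ 2) (Set.Ico (sbDel ℓ * k) (sbDel ℓ * (k + 1)))) :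
    sbDel ℓ * ‖sbAvg ℓ f k‖ ^ 2 ≤ ∫ y in Set.Ico (sbDel ℓ * k) (sbDel ℓ * (k + 1)), ‖f y‖ ^ 2 := by
  have hμ := sb_del_pos ℓ
  unfold sbAvg
  rw [norm_mul, Complex.norm_real, Real.norm_of_nonneg (inv_nonneg.mpr hμ.le), mul_pow]
  have hn : ‖∫ y in Set.Ico (sbDel ℓ * k) (sbDel ℓ * (k + 1)), f y‖ ^ 2
      ≤ sbDel ℓ * ∫ y in Set.Ico (sbDel ℓ * k) (sbDel ℓ * (k + 1)), ‖f y‖ ^ 2 := by
    refine le_trans ?_ (sb_cs_const (sb_fine_volume ℓ k) hμ h1 h2)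
    exact pow_le_pow_left₀ (norm_nonneg _) (norm_integral_le_integral_norm _) 2
  calc sbDel ℓ * ((sbDel ℓ)⁻¹ ^ 2 * ‖∫ y in Set.Ico (sbDel ℓ * k) (sbDel ℓ * (k + 1)), f y‖ ^ 2)
      ≤ sbDel ℓ * ((sbDel ℓ)⁻¹ ^ 2 *
          (sbDel ℓ * ∫ y in Set.Ico (sbDel ℓ * k) (sbDel ℓ * (k + 1)), ‖f y‖ ^ 2)) := by gcongr
    _ = _ := by field_simp

theorem sb_eLpNorm_two_le {f g : ℝ → ℂ} (hf : MemLp f 2 volume) (hg : MemLp g 2 volume)
    (h : ∫ y, ‖f y‖ ^ 2 ≤ ∫ y, ‖g y‖ ^ 2) : eLpNorm f 2 volume ≤ eLpNorm g 2 volume := by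
  rw [hf.eLpNorm_eq_integral_rpow_norm (by norm_num) (by norm_num),
    hg.eLpNorm_eq_integral_rpow_norm (by norm_num) (by norm_num)]
  refine ENNReal.ofReal_le_ofReal ?_
  simp only [ENNReal.toReal_ofNat, Real.rpow_ofNat]
  exact Real.rpow_le_rpow (integral_nonneg fun _ => sq_nonneg _) h (by norm_num)

theorem sb_step_avg_eq_zero (R : Cell) (f : ℝ → ℂ) (hs : ∀ y, y ∉ R.set → f y = 0) (ℓ : ℤ)
    (hℓ : R.depth ≤ ℓ) {y : ℝ} (hy : y ∉ R.set) : sbStep ℓ (sbAvg ℓ f) y = 0 := by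
  unfold sbStep
  refine sb_avg_supp ℓ R hℓ f hs _ ?_
  rw [sb_floor_mem_idx_iff ℓ R hℓ]
  exact hy

theorem sb_avg_memLp (R : Cell) (f : ℝ → ℂ) (hfm : Measurable f) (hf : MemLp f 2 volume) (hs : ∀ y, y ∉ R.set → f y = 0) (ℓ : ℤ) (hℓ : R.depth ≤ ℓ) :
    MemLp (sbStep ℓ (sbAvg ℓ f)) 2 volume := by
  rw [memLp_two_iff_integrable_sq_norm (sb_step_measurable ℓ _).aestronglyMeasurable]
  refine (sb_step_sq_integrableOn ℓ (sbAvg ℓ f) R).integrable_of_forall_notMem_eq_zero fun y hy => ?_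
  rw [sb_step_avg_eq_zero R f hs ℓ hℓ hy]
  simp

theorem sb_avg_contr (R : Cell) (f : ℝ → ℂ) (hfm : Measurable f) (hf : MemLp f 2 volume) (hs : ∀ y, y ∉ R.set → f y = 0) (ℓ : ℤ) (hℓ : R.depth ≤ ℓ) :
    eLpNorm (sbStep ℓ (sbAvg ℓ f)) 2 volume ≤ eLpNorm f 2 volume := by
  refine sb_eLpNorm_two_le (sb_avg_memLp R f hfm hf hs ℓ hℓ) hf ?_
  have hf2 : Integrable fun y => ‖f y‖ ^ 2 :=
    (memLp_two_iff_integrable_sq_norm hfm.aestronglyMeasurable).mp hf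
  have e1 : ∫ y, ‖sbStep ℓ (sbAvg ℓ f) y‖ ^ 2 = ∫ y in R.set, ‖sbStep ℓ (sbAvg ℓ f) y‖ ^ 2 := by
    refine (setIntegral_eq_integral_of_forall_compl_eq_zero fun y hy => ?_).symm
    rw [sb_step_avg_eq_zero R f hs ℓ hℓ hy]
    simp
  have e2 : ∫ y, ‖f y‖ ^ 2 = ∫ y in R.set, ‖f y‖ ^ 2 := by
    refine (setIntegral_eq_integral_of_forall_compl_eq_zero fun y hy => ?_).symm
    rw [hs y hy]
    simp
  rw [e1, e2, sb_step_sq_integral ℓ _ R hℓ, ← sb_mass_sum ℓ R hℓ _ hf2.integrableOn, Finset.mul_sum]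
  refine Finset.sum_le_sum fun k _ => ?_
  unfold sbMass
  refine sb_avg_sq_le ℓ k f ?_ hf2.integrableOn
  exact ((hf.restrict _).integrable one_le_two).norm

theorem sb_avg_sub (ℓ : ℤ) (f g : ℝ → ℂ) (hf : MemLp f 2 volume) (hg : MemLp g 2 volume) (k : ℤ) :
    sbAvg ℓ (f - g) k = sbAvg ℓ f k - sbAvg ℓ g k := by
  unfold sbAvg
  have h1 := (hf.restrict (Set.Ico (sbDel ℓ * k) (sbDel ℓ * (k + 1)))).integrable one_le_two
  have h2 := (hg.restrict (Set.Ico (sbDel ℓ * k) (sbDel ℓ * (k + 1)))).integrable one_le_two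
  simp only [Pi.sub_apply]
  rw [integral_sub h1 h2, mul_sub]

theorem sb_avg_close (ℓ : ℤ) (R : Cell) (hR : R.depth ≤ ℓ) (g : ℝ → ℂ) (hgc : Continuous g) {δ η : ℝ}
    (hη : 0 ≤ η) (hδ : ∀ x y, dist x y < δ → dist (g x) (g y) ≤ η) (hμδ : sbDel ℓ ≤ δ) (y : ℝ) :
    ‖sbStep ℓ (sbAvg ℓ (R.set.indicator g)) y - R.set.indicator g y‖
      ≤ ‖R.set.indicator (fun _ => η) y‖ := by
  have hμ := sb_del_pos ℓ
  by_cases hy : y ∈ R.set
  swap
  · rw [sb_step_avg_eq_zero R _ (fun x hx => Set.indicator_of_notMem hx g) ℓ hR hy,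
      Set.indicator_of_notMem hy, Set.indicator_of_notMem hy]
    simp
  rw [Set.indicator_of_mem hy, Set.indicator_of_mem hy, Real.norm_of_nonneg hη]
  unfold sbStep sbAvg
  set k : ℤ := ⌊y * (2 : ℝ) ^ ℓ⌋ with hk
  set c : Set ℝ := Set.Ico (sbDel ℓ * k) (sbDel ℓ * (k + 1)) with hc
  have hkI : k ∈ sbIdx ℓ R := (sb_floor_mem_idx_iff ℓ R hR y).mpr hy
  have hcR : c ⊆ R.set := sb_fine_subset ℓ R hR hkI
  have hyc : y ∈ c := (sb_mem_fine_iff ℓ k y).mpr rfl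
  have hvol : volume c = ENNReal.ofReal (sbDel ℓ) := sb_fine_volume ℓ k
  have hvr : volume.real c = sbDel ℓ := by
    rw [Measure.real, hvol, ENNReal.toReal_ofReal hμ.le]
  have hfin : volume c < ⊤ := by rw [hvol]; exact ENNReal.ofReal_lt_top
  have e1 : ∫ x in c, R.set.indicator g x = ∫ x in c, g x :=
    setIntegral_congr_fun measurableSet_Ico fun x hx => Set.indicator_of_mem (hcR hx) g
  have e2 : g y = (((sbDel ℓ)⁻¹ : ℝ) : ℂ) * ∫ _x in c, g y := by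
    rw [setIntegral_const, hvr, Complex.real_smul, ← mul_assoc, ← Complex.ofReal_mul,
      inv_mul_cancel₀ hμ.ne', Complex.ofReal_one, one_mul]
  have hgi : IntegrableOn g c := hgc.integrableOn_Icc.mono_set Set.Ico_subset_Icc_self
  rw [e1]
  conv_lhs => rw [e2]
  rw [← mul_sub, ← integral_sub hgi (integrableOn_const hfin.ne), norm_mul, Complex.norm_real,
    Real.norm_of_nonneg (inv_nonneg.mpr hμ.le)]
  have hb : ‖∫ x in c, (g x - g y)‖ ≤ η * volume.real c := by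
    refine norm_setIntegral_le_of_norm_le_const hfin fun x hx => ?_
    rw [← dist_eq_norm]
    refine hδ x y (lt_of_lt_of_le ?_ hμδ)
    rw [Real.dist_eq, abs_lt]
    have a1 := hx.1
    have a2 := hx.2
    have b1 := hyc.1
    have b2 := hyc.2
    constructor <;> nlinarith
  rw [hvr] at hb
  calc (sbDel ℓ)⁻¹ * ‖∫ x in c, (g x - g y)‖ ≤ (sbDel ℓ)⁻¹ * (η * sbDel ℓ) := by gcongr
    _ = η := by field_simp

theorem sb_del_natCast (n : ℕ) : sbDel (n : ℤ) = (1 / 2 : ℝ) ^ n := by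
  unfold sbDel
  rw [zpow_neg, zpow_natCast, one_div, inv_pow]

theorem sb_avg_tendsto (R : Cell) (f : ℝ → ℂ) (hfm : Measurable f) (hf : MemLp f 2 volume) (hs : ∀ y, y ∉ R.set → f y = 0) :
    Tendsto (fun n : ℕ => eLpNorm (sbStep (n : ℤ) (sbAvg (n : ℤ) f) - f) 2 volume) atTop (𝓝 0) := by
  rw [ENNReal.tendsto_nhds_zero]
  intro ε hε
  by_cases hεt : ε = ⊤
  · exact Filter.Eventually.of_forall fun n => hεt ▸ le_top
  have hRm : MeasurableSet R.set := measurableSet_Ico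
  set ε₃ : ℝ≥0∞ := ε / 3 with hε₃
  have hε₃0 : ε₃ ≠ 0 := (ENNReal.div_pos hε.ne' (by norm_num)).ne'
  have hε₃t : ε₃ ≠ ⊤ := ENNReal.div_ne_top hεt (by norm_num)
  obtain ⟨g, hgs, hfg, hgc, hgL⟩ :=
    hf.exists_hasCompactSupport_eLpNorm_sub_le (by norm_num) (ε := ε₃) hε₃0
  set g₁ : ℝ → ℂ := R.set.indicator g with hg₁
  have hg₁m : Measurable g₁ := hgc.measurable.indicator hRm
  have hg₁L : MemLp g₁ 2 volume := hgL.indicator hRm
  have hg₁0 : ∀ y, y ∉ R.set → g₁ y = 0 := fun y hy => Set.indicator_of_notMem hy g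
  set c : ℝ≥0∞ := volume R.set ^ (1 / (2 : ℝ≥0∞).toReal) with hc
  have hvol : volume R.set = ENNReal.ofReal (R.right - R.left) := Real.volume_Ico
  have hlen : 0 < R.right - R.left := by
    unfold Cell.right Cell.left Cell.len
    have : (0 : ℝ) < 2 ^ (-R.depth) := by positivity
    nlinarith
  have hc0 : c ≠ 0 := by
    rw [hc, hvol]
    exact (ENNReal.rpow_pos (ENNReal.ofReal_pos.mpr hlen) ENNReal.ofReal_ne_top).ne'
  have hct : c ≠ ⊤ := by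
    rw [hc, hvol]
    exact ENNReal.rpow_ne_top_of_nonneg (by simp) ENNReal.ofReal_ne_top
  set η' : ℝ≥0∞ := ε₃ / c with hη'
  have hη'0 : η' ≠ 0 := (ENNReal.div_pos hε₃0 hct).ne'
  have hη't : η' ≠ ⊤ := ENNReal.div_ne_top hε₃t hc0
  set η : ℝ := η'.toReal with hη
  have hηpos : 0 < η := ENNReal.toReal_pos hη'0 hη't
  have hηof : ENNReal.ofReal η = η' := ENNReal.ofReal_toReal hη't
  obtain ⟨δ, hδ, hunif⟩ := Metric.uniformContinuous_iff.mp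
    (hgs.uniformContinuous_of_continuous hgc) η hηpos
  have hev1 : ∀ᶠ n : ℕ in atTop, sbDel (n : ℤ) ≤ δ := by
    have ht : Tendsto (fun n : ℕ => (1 / 2 : ℝ) ^ n) atTop (𝓝 0) :=
      tendsto_pow_atTop_nhds_zero_of_lt_one (by norm_num) (by norm_num)
    filter_upwards [ht.eventually (gt_mem_nhds hδ)] with n hn
    rw [sb_del_natCast]
    exact hn.le
  have hev2 : ∀ᶠ n : ℕ in atTop, R.depth ≤ (n : ℤ) := by
    filter_upwards [eventually_ge_atTop R.depth.toNat] with n hn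
    have := Int.self_le_toNat R.depth
    have h2 : (R.depth.toNat : ℤ) ≤ n := by exact_mod_cast hn
    linarith
  filter_upwards [hev1, hev2] with n hn1 hn2
  set ℓ : ℤ := (n : ℤ) with hℓ
  have hfg₁ : eLpNorm (f - g₁) 2 volume ≤ ε₃ := by
    refine le_trans (eLpNorm_mono fun y => ?_) hfg
    simp only [Pi.sub_apply]
    by_cases hy : y ∈ R.set
    · rw [hg₁, Set.indicator_of_mem hy]
    · rw [hs y hy, hg₁0 y hy]
      simp
  have hA : eLpNorm (sbStep ℓ (sbAvg ℓ (f - g₁))) 2 volume ≤ ε₃ := by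
    refine le_trans (sb_avg_contr R (f - g₁) (hfm.sub hg₁m) (hf.sub hg₁L) (fun y hy => ?_) ℓ hn2) hfg₁
    simp only [Pi.sub_apply]
    rw [hs y hy, hg₁0 y hy, sub_zero]
  have hB : eLpNorm (sbStep ℓ (sbAvg ℓ g₁) - g₁) 2 volume ≤ ε₃ := by
    have h1 : eLpNorm (sbStep ℓ (sbAvg ℓ g₁) - g₁) 2 volume
        ≤ eLpNorm (R.set.indicator fun _ : ℝ => η) 2 volume :=
      eLpNorm_mono fun y => sb_avg_close ℓ R hn2 g hgc hηpos.le
        (fun x y hxy => (hunif hxy).le) hn1 y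
    refine h1.trans_eq ?_
    rw [eLpNorm_indicator_const hRm (by norm_num) (by norm_num), ← hc, Real.enorm_eq_ofReal hηpos.le,
      hηof, hη', ENNReal.div_mul_cancel hc0 hct]
  have hC : eLpNorm (g₁ - f) 2 volume ≤ ε₃ := by
    rw [eLpNorm_sub_comm]
    exact hfg₁
  have hdec : sbStep ℓ (sbAvg ℓ f) - f
      = sbStep ℓ (sbAvg ℓ (f - g₁)) + (sbStep ℓ (sbAvg ℓ g₁) - g₁) + (g₁ - f) := by
    funext y
    simp only [Pi.sub_apply, Pi.add_apply]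
    unfold sbStep
    rw [sb_avg_sub ℓ f g₁ hf hg₁L]
    ring
  have mA : AEStronglyMeasurable (sbStep ℓ (sbAvg ℓ (f - g₁))) volume :=
    (sb_step_measurable ℓ _).aestronglyMeasurable
  have mB : AEStronglyMeasurable (sbStep ℓ (sbAvg ℓ g₁) - g₁) volume :=
    ((sb_step_measurable ℓ _).sub hg₁m).aestronglyMeasurable
  have mC : AEStronglyMeasurable (g₁ - f) volume := (hg₁m.sub hfm).aestronglyMeasurable
  rw [hdec]
  calc eLpNorm (sbStep ℓ (sbAvg ℓ (f - g₁)) + (sbStep ℓ (sbAvg ℓ g₁) - g₁) + (g₁ - f)) 2 volume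
      ≤ eLpNorm (sbStep ℓ (sbAvg ℓ (f - g₁)) + (sbStep ℓ (sbAvg ℓ g₁) - g₁)) 2 volume
          + eLpNorm (g₁ - f) 2 volume := eLpNorm_add_le (mA.add mB) mC one_le_two
    _ ≤ eLpNorm (sbStep ℓ (sbAvg ℓ (f - g₁))) 2 volume
          + eLpNorm (sbStep ℓ (sbAvg ℓ g₁) - g₁) 2 volume + eLpNorm (g₁ - f) 2 volume :=
        add_le_add (eLpNorm_add_le mA mB one_le_two) le_rfl
    _ ≤ ε₃ + ε₃ + ε₃ := add_le_add (add_le_add hA hB) hC
    _ = ε := ENNReal.add_thirds ε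

theorem sb_young4 {x w : ℝ} : 4 * (x ^ 3 * w) ≤ 3 * x ^ 4 + w ^ 4 := by
  nlinarith [mul_nonneg (sq_nonneg (x - w)) (add_nonneg (add_nonneg (sq_nonneg x) (sq_nonneg (x + w))) (sq_nonneg x)),
    sq_nonneg (x - w), sq_nonneg (x + w), sq_nonneg x, sq_nonneg w]

/-- Minkowski's integral inequality in `L⁴` of a finite weighted space. -/
theorem sb_mink4 {Ω : Type} [Fintype Ω] (pr : Ω → ℝ) (hpr : ∀ σ, 0 ≤ pr σ) {s : Set ℝ}
    (F : Ω → ℝ → ℝ) (hF0 : ∀ σ y, 0 ≤ F σ y) (hFi : ∀ σ, 0 < pr σ → IntegrableOn (F σ) s)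
    (H : ℝ → ℝ) (hH0 : ∀ y, 0 ≤ H y) (hHi : IntegrableOn H s)
    (hle : ∀ y, ∑ σ, pr σ * F σ y ^ 4 ≤ H y ^ 4) :
    ∑ σ, pr σ * (∫ y in s, F σ y) ^ 4 ≤ (∫ y in s, H y) ^ 4 := by
  set b : Ω → ℝ := fun σ => ∫ y in s, F σ y with hb
  have hb0 : ∀ σ, 0 ≤ b σ := fun σ => integral_nonneg (hF0 σ)
  set B4 : ℝ := ∑ σ, pr σ * b σ ^ 4 with hB4
  have hB40 : 0 ≤ B4 := Finset.sum_nonneg fun σ _ => mul_nonneg (hpr σ) (by positivity)
  set I : ℝ := ∫ y in s, H y with hI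
  have hI0 : 0 ≤ I := integral_nonneg hH0
  rcases hB40.eq_or_lt with hz | hpos
  · rw [← hz]
    positivity
  set B : ℝ := B4 ^ (1 / 4 : ℝ) with hB
  have hBpos : 0 < B := Real.rpow_pos_of_pos hpos _
  have hBB : B ^ 4 = B4 := by
    rw [hB, ← Real.rpow_natCast, ← Real.rpow_mul hB40]
    norm_num
  have hpt : ∀ y, ∑ σ, pr σ * b σ ^ 3 * F σ y ≤ B ^ 3 * H y := by
    intro y
    rcases (hH0 y).eq_or_lt with hH | hH
    · have hsum : ∑ σ, pr σ * F σ y ^ 4 = 0 := by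
        refine le_antisymm ?_ (Finset.sum_nonneg fun σ _ => mul_nonneg (hpr σ) (by positivity))
        have := hle y
        rwa [← hH, zero_pow (by norm_num)] at this
      rw [Finset.sum_eq_zero_iff_of_nonneg fun σ _ => mul_nonneg (hpr σ) (by positivity)] at hsum
      rw [← hH, mul_zero]
      refine (Finset.sum_eq_zero fun σ hσ => ?_).le
      rcases mul_eq_zero.mp (hsum σ hσ) with h | h
      · rw [h]; ring
      · rw [pow_eq_zero_iff (by norm_num)] at h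
        rw [h, mul_zero]
    · have h1 : 4 * H y ^ 3 * B * ∑ σ, pr σ * b σ ^ 3 * F σ y
          ≤ 4 * H y ^ 3 * B * (B ^ 3 * H y) := by
        calc 4 * H y ^ 3 * B * ∑ σ, pr σ * b σ ^ 3 * F σ y
            = ∑ σ, pr σ * (4 * ((b σ * H y) ^ 3 * (F σ y * B))) := by
              rw [Finset.mul_sum]
              refine Finset.sum_congr rfl fun σ _ => ?_
              ring
          _ ≤ ∑ σ, pr σ * (3 * (b σ * H y) ^ 4 + (F σ y * B) ^ 4) :=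
              Finset.sum_le_sum fun σ _ => mul_le_mul_of_nonneg_left sb_young4 (hpr σ)
          _ = 3 * H y ^ 4 * B4 + B ^ 4 * ∑ σ, pr σ * F σ y ^ 4 := by
              rw [hB4, Finset.mul_sum, Finset.mul_sum, ← Finset.sum_add_distrib]
              refine Finset.sum_congr rfl fun σ _ => ?_
              ring
          _ ≤ 3 * H y ^ 4 * B4 + B ^ 4 * H y ^ 4 := by
              have := hle y
              gcongr
          _ = 4 * H y ^ 3 * B * (B ^ 3 * H y) := by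
              rw [← hBB]
              ring
      exact le_of_mul_le_mul_left h1 (by positivity)
  have hti : ∀ σ, IntegrableOn (fun y => pr σ * b σ ^ 3 * F σ y) s := by
    intro σ
    rcases (hpr σ).eq_or_lt with h | h
    · simp only [← h, zero_mul]
      exact integrable_zero _ _ _
    · exact (hFi σ h).const_mul _
  have hint : ∫ y in s, ∑ σ, pr σ * b σ ^ 3 * F σ y = B ^ 4 := by
    rw [integral_finsetSum _ fun σ _ => hti σ, hBB, hB4]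
    refine Finset.sum_congr rfl fun σ _ => ?_
    rw [integral_const_mul]
    ring
  have hle2 : B ^ 4 ≤ B ^ 3 * I := by
    rw [← hint, hI, ← integral_const_mul]
    exact integral_mono (integrable_finsetSum _ fun σ _ => hti σ) (hHi.const_mul _) hpt
  have hBI : B ≤ I := by
    have : B ^ 3 * B ≤ B ^ 3 * I := by
      calc B ^ 3 * B = B ^ 4 := by ring
        _ ≤ _ := hle2
    exact le_of_mul_le_mul_left this (by positivity)
  rw [← hBB]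
  exact pow_le_pow_left₀ hBpos.le hBI 4

/-- from the eighth moment to a pointwise bound of the square. -/
theorem sb_sq_le_of_mom {p0 a c : ℝ} (hp0 : 0 < p0)
    (h : p0 * a ^ 8 ≤ c ^ 8) : a ^ 2 ≤ max 1 p0⁻¹ * c ^ 2 := by
  set K := max 1 p0⁻¹ with hK
  have hK1 : 1 ≤ K := le_max_left _ _
  have hKp : p0⁻¹ ≤ K := le_max_right _ _
  have hK4 : K ≤ K ^ 4 := by
    calc K = K ^ 1 := (pow_one K).symm
      _ ≤ K ^ 4 := pow_le_pow_right₀ hK1 (by norm_num)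
  have h1 : a ^ 8 ≤ p0⁻¹ * c ^ 8 := by
    rw [inv_mul_eq_div, le_div_iff₀ hp0, mul_comm]
    exact h
  have h2 : (a ^ 2) ^ 4 ≤ (K * c ^ 2) ^ 4 := by
    calc (a ^ 2) ^ 4 = a ^ 8 := by ring
      _ ≤ p0⁻¹ * c ^ 8 := h1
      _ ≤ K ^ 4 * c ^ 8 := by
          have := hKp.trans hK4
          gcongr
      _ = (K * c ^ 2) ^ 4 := by ring
  exact (pow_le_pow_iff_left₀ (by positivity) (by positivity) (by norm_num)).mp h2

theorem sb_sq_integrable_of_mom (p0 : ℝ) (hp0 : 0 < p0) (z : ℝ → ℂ) (m : ℝ → ℝ) (Cm : ℝ) (hCm : 0 ≤ Cm)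
    (hz : Measurable z) (hm0 : ∀ y, 0 ≤ m y)
    (hint : Integrable (fun y => m y ^ 2)) (hmom : ∀ y, p0 * ‖z y‖ ^ 8 ≤ (Cm * m y) ^ 8) :
    Integrable fun y => ‖z y‖ ^ 2 := by
  have hg : Integrable fun y => max 1 p0⁻¹ * Cm ^ 2 * m y ^ 2 := hint.const_mul _
  refine hg.mono' (hz.norm.pow_const 2).aestronglyMeasurable (Filter.Eventually.of_forall fun y => ?_)
  rw [Real.norm_of_nonneg (by positivity)]
  have := sb_sq_le_of_mom hp0 (hmom y)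
  calc ‖z y‖ ^ 2 ≤ max 1 p0⁻¹ * (Cm * m y) ^ 2 := this
    _ = _ := by ring

/-- the moment hypothesis passes to the averages. -/
theorem sb_avg_mom {Ω : Type} [Fintype Ω] (pr : Ω → ℝ) (hpr : ∀ σ, 0 ≤ pr σ) (z : Ω → ℝ → ℂ) (m : ℝ → ℝ) (Cm : ℝ) (hCm : 0 ≤ Cm)
    (hz : ∀ σ, Measurable (z σ)) (hm : Measurable m) (hm0 : ∀ y, 0 ≤ m y) (hint : Integrable (fun y => m y ^ 2))
    (hmom : ∀ y, ∑ σ, pr σ * ‖z σ y‖ ^ 8 ≤ (Cm * m y) ^ 8) (ℓ k : ℤ) :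
    ∑ σ, pr σ * (sbDel ℓ * ‖sbAvg ℓ (z σ) k‖ ^ 2) ^ 4 ≤ (Cm ^ 2 * sbMass ℓ (fun y => m y ^ 2) k) ^ 4 := by
  set c : Set ℝ := Set.Ico (sbDel ℓ * k) (sbDel ℓ * (k + 1)) with hc
  have hμ := sb_del_pos ℓ
  have hone : ∀ σ y, pr σ * ‖z σ y‖ ^ 8 ≤ (Cm * m y) ^ 8 := by
    intro σ y
    refine le_trans ?_ (hmom y)
    exact Finset.single_le_sum (f := fun σ => pr σ * ‖z σ y‖ ^ 8)
      (fun τ _ => mul_nonneg (hpr τ) (by positivity)) (Finset.mem_univ σ)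
  have hsq : ∀ σ, 0 < pr σ → Integrable fun y => ‖z σ y‖ ^ 2 := fun σ hσ =>
    sb_sq_integrable_of_mom (pr σ) hσ (z σ) m Cm hCm (hz σ) hm0 hint (hone σ)
  have hL2 : ∀ σ, 0 < pr σ → MemLp (z σ) 2 volume := fun σ hσ =>
    (memLp_two_iff_integrable_sq_norm (hz σ).aestronglyMeasurable).mpr (hsq σ hσ)
  have h1 : ∑ σ, pr σ * (sbDel ℓ * ‖sbAvg ℓ (z σ) k‖ ^ 2) ^ 4
      ≤ ∑ σ, pr σ * (∫ y in c, ‖z σ y‖ ^ 2) ^ 4 := by
    refine Finset.sum_le_sum fun σ _ => ?_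
    rcases (hpr σ).eq_or_lt with h | h
    · rw [← h, zero_mul, zero_mul]
    · refine mul_le_mul_of_nonneg_left ?_ h.le
      refine pow_le_pow_left₀ (by positivity) ?_ 4
      exact sb_avg_sq_le ℓ k (z σ) (((hL2 σ h).restrict _).integrable one_le_two).norm
        (hsq σ h).integrableOn
  refine h1.trans ?_
  have h2 := sb_mink4 pr hpr (s := c) (fun σ y => ‖z σ y‖ ^ 2) (fun σ y => by positivity)
    (fun σ hσ => (hsq σ hσ).integrableOn) (fun y => Cm ^ 2 * m y ^ 2) (fun y => by positivity)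
    (hint.const_mul _).integrableOn (fun y => by
      have := hmom y
      calc ∑ σ, pr σ * (‖z σ y‖ ^ 2) ^ 4 = ∑ σ, pr σ * ‖z σ y‖ ^ 8 := by
            refine Finset.sum_congr rfl fun σ _ => ?_
            ring
        _ ≤ (Cm * m y) ^ 8 := this
        _ = (Cm ^ 2 * m y ^ 2) ^ 4 := by ring)
  rw [integral_const_mul] at h2
  exact h2

theorem sb_z_memLp (p0 : ℝ) (hp0 : 0 < p0) (z : ℝ → ℂ) (m : ℝ → ℝ) (Cm : ℝ) (hCm : 0 ≤ Cm) (hz : Measurable z) (hm0 : ∀ y, 0 ≤ m y)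
    (hint : Integrable (fun y => m y ^ 2)) (hmom : ∀ y, p0 * ‖z y‖ ^ 8 ≤ (Cm * m y) ^ 8) : MemLp z 2 volume := by
  rw [memLp_two_iff_integrable_sq_norm hz.aestronglyMeasurable]
  exact sb_sq_integrable_of_mom p0 hp0 z m Cm hCm hz hm0 hint hmom

end Claimed.Agent.R258
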