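/-
Row 258, block [S7b] (architect: helper243).  FILE Lift: the hypotheses of one rectangle (`SbStepHyp`, fine cells) give the hypotheses of the discrete core (`SbDiscHyp`) for the lifted functions.  Paper-free.
Leaves: P-SB-LIFT1 (`sb_lift_fp2`, `sb_lift_mom`, `sb_lift_supp`, `sb_liftMs_supp`, `sb_liftMs_nonneg`, `sb_lift_sub`), P-SB-LIFT2 (`sb_window_sum_le`, `sb_lift_loc`, `sb_lift_tot`), P-SB-LIFT3 (`sb_lift_reg`).
The assembly `sb_lift_hyp` is proved.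

Notation: `M₀ = 2^e`, `τ = t + b0`, `ℓ = τ + e`, `δ = sbDel τ = M₀ μ`, `μ = sbDel ℓ`, `16 M₀ < M`.  The window of the slow index `n` in the slot `j` is `W_j(n) = {M₀ n + k + sbSh κ j | k ∈ sbLiftSet e j} ⊆ [M₀ (n-4), M₀ (n+5))`.
* `sb_lift_fp2`: `x ↦ x.valMinAbs` is a bijection from `{x | x.valMinAbs ∈ sbLiftSet e j}` onto `sbLiftSet e j` (all its elements have absolute value `≤ 3 M₀ < M/2`).
* `sb_lift_mom`: `sb_lift_fp2`, then `sb_mink` with `c = (M μ)⁻¹`, `f σ k = μ ‖Z σ j (..)‖²`, `g k = Cm² ρ j (..)`.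
* `sb_window_sum_le`: a fine index lies in at most `5` windows: `∑_{n ∈ N} ∑_{k ∈ sbLiftSet e j} r (M₀ n + k + s) ≤ 5 ∑_{k' ∈ P} r k'` if all these indices lie in `P` or `r` vanishes off `P`
  (exchange the sums; for fixed `k'` the `n` with `k' - s - M₀ n ∈ [-2 M₀, 3 M₀)` are five consecutive integers).
* `sb_lift_loc`: for `n ∈ sbInn τ I` the window lies in `sbIdx ℓ I` (margin 6); `5 δ/(M μ) = 5 M₀/M < 1`.     * `sb_lift_tot`: same with `P = Fall`.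
* `sb_lift_reg`: the window is an interval of `5 M₀ ≤ 2^b0 M₀` fine indices, so it is covered by `sbIdx ℓ J ∪ sbIdx ℓ J'` for two cells of depth `t`; `2 · 2^(-t)/(M μ) = 2 · 2^b0 M₀/M ≤ 2^b0`.
-/
import Claimed.Agent.R258.Pack009
import Claimed.Agent.R258.S7b.Idx

set_option autoImplicit false
open MeasureTheory
open scoped ENNReal

namespace Claimed.Agent.R258

theorem sb_lift_set_bd (e : ℕ) (j : Fin 4) (k : ℤ) (hk : k ∈ sbLiftSet e j) : -(2 * 2 ^ e) ≤ k ∧ k < 3 * 2 ^ e := by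
  have hq : (0 : ℤ) < 2 ^ e := by positivity
  unfold sbLiftSet at hk
  split_ifs at hk <;> rw [Finset.mem_Ico] at hk <;> constructor <;> linarith [hk.1, hk.2]

theorem sb_lift_sh_bd (κ : ℤ × ℤ) (hκ : |κ.1| ≤ 2 ∧ |κ.2| ≤ 2) (j : Fin 4) : |sbSh κ j| ≤ 2 := by
  fin_cases j <;> simp [sbSh, hκ.1, hκ.2]

/-- location of the quotient. -/
theorem sb_lift_div_bd (q n c : ℤ) (hq : 0 < q) (h1 : -(4 * q) ≤ c) (h2 : c < 5 * q) :
    n - 4 ≤ (q * n + c) / q ∧ (q * n + c) / q ≤ n + 4 := by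
  have e : (q * n + c) / q = c / q + n := by
    rw [add_comm, Int.add_mul_ediv_left _ _ hq.ne']
  have a1 : -4 ≤ c / q := (Int.le_ediv_iff_mul_le hq).2 (by linarith)
  have a2 : c / q < 5 := (Int.ediv_lt_iff_lt_mul hq).2 h2
  rw [e]
  constructor <;> omega

theorem sb_lift_win_bd (e : ℕ) (κ : ℤ × ℤ) (hκ : |κ.1| ≤ 2 ∧ |κ.2| ≤ 2) (j : Fin 4) (n k : ℤ) (hk : k ∈ sbLiftSet e j) :
    n - 4 ≤ (2 ^ e * n + k + sbSh κ j) / 2 ^ e ∧ (2 ^ e * n + k + sbSh κ j) / 2 ^ e ≤ n + 4 := by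
  have hq : (1 : ℤ) ≤ 2 ^ e := one_le_pow₀ (by norm_num)
  obtain ⟨h1, h2⟩ := sb_lift_set_bd e j k hk
  have h3 := abs_le.1 (sb_lift_sh_bd κ hκ j)
  rw [add_assoc]
  exact sb_lift_div_bd _ n _ (by linarith) (by linarith [h3.1]) (by linarith [h3.2])

theorem sb_lift_sum_vma (e M : ℕ) [NeZero M] (hM : 16 * 2 ^ e < M) (j : Fin 4) (g : ℤ → ℝ) :
    ∑ x : ZMod M, (if x.valMinAbs ∈ sbLiftSet e j then g x.valMinAbs else 0) = ∑ k ∈ sbLiftSet e j, g k := by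
  rw [← Finset.sum_filter]
  refine Finset.sum_nbij' (fun x => x.valMinAbs) (fun k => (k : ZMod M)) ?_ ?_ ?_ ?_ ?_
  · intro x hx
    exact (Finset.mem_filter.1 hx).2
  · intro k hk
    have hv : ((k : ZMod M)).valMinAbs = k := by
      rw [ZMod.valMinAbs_spec]
      obtain ⟨h1, h2⟩ := sb_lift_set_bd e j k hk
      have hM' : (16 : ℤ) * 2 ^ e < M := by exact_mod_cast hM
      have hq : (0 : ℤ) < 2 ^ e := by positivity
      refine ⟨rfl, ?_, ?_⟩ <;> linarith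
    rw [Finset.mem_filter]
    exact ⟨Finset.mem_univ _, by rw [hv]; exact hk⟩
  · intro x _
    exact ZMod.coe_valMinAbs x
  · intro k hk
    rw [ZMod.valMinAbs_spec]
    obtain ⟨h1, h2⟩ := sb_lift_set_bd e j k hk
    have hM' : (16 : ℤ) * 2 ^ e < M := by exact_mod_cast hM
    have hq : (0 : ℤ) < 2 ^ e := by positivity
    refine ⟨rfl, ?_, ?_⟩ <;> linarith
  · intro x _
    rfl

theorem sb_lift_fp2 (e M : ℕ) [NeZero M] (hM : 16 * 2 ^ e < M) (κ : ℤ × ℤ) (Z : Fin 4 → ℤ → ℂ) (j : Fin 4) (n : ℤ) :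
    sbFp 2 (sbLift e M κ Z j n) = (M : ℝ)⁻¹ * ∑ k ∈ sbLiftSet e j, ‖Z j (2 ^ e * n + k + sbSh κ j)‖ ^ 2 := by
  unfold sbFp
  congr 1
  rw [← sb_lift_sum_vma e M hM j (fun k => ‖Z j (2 ^ e * n + k + sbSh κ j)‖ ^ 2)]
  refine Finset.sum_congr rfl fun x _ => ?_
  unfold sbLift
  split_ifs
  · rfl
  · simp

theorem sb_liftMs_nonneg (e M : ℕ) (ℓ : ℤ) (κ : ℤ × ℤ) (ρ : Fin 4 → ℤ → ℝ) (hρ : ∀ j k, 0 ≤ ρ j k) (j : Fin 4) (n : ℤ) :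
    0 ≤ sbLiftMs e M ℓ κ ρ j n := by
  unfold sbLiftMs
  have := sb_del_pos ℓ
  exact mul_nonneg (by positivity) (Finset.sum_nonneg fun k _ => hρ _ _)

theorem sb_lift_mom {Ω : Type} [Fintype Ω] (pr : Ω → ℝ) (hpr : ∀ σ, 0 ≤ pr σ) (e M : ℕ) [NeZero M] (hM : 16 * 2 ^ e < M) (ℓ : ℤ) (κ : ℤ × ℤ)
    (Z : Ω → Fin 4 → ℤ → ℂ) (ρ : Fin 4 → ℤ → ℝ) (Cm : ℝ) (hρ : ∀ j k, 0 ≤ ρ j k)
    (hmom : ∀ j k, ∑ σ, pr σ * (sbDel ℓ * ‖Z σ j k‖ ^ 2) ^ 4 ≤ (Cm ^ 2 * ρ j k) ^ 4) (j : Fin 4) (n : ℤ) :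
    ∑ σ, pr σ * (sbFp 2 (sbLift e M κ (Z σ) j n)) ^ 4 ≤ (Cm ^ 2 * sbLiftMs e M ℓ κ ρ j n) ^ 4 := by
  have hμ := sb_del_pos ℓ
  have hM0 : (0 : ℝ) < M := by exact_mod_cast Nat.pos_of_ne_zero (NeZero.ne M)
  have m := sb_mink pr hpr (sbLiftSet e j) (fun _ => ((M : ℝ) * sbDel ℓ)⁻¹) (fun _ _ => by positivity)
    (fun σ k => sbDel ℓ * ‖Z σ j (2 ^ e * n + k + sbSh κ j)‖ ^ 2) (fun k => Cm ^ 2 * ρ j (2 ^ e * n + k + sbSh κ j))
    (fun σ k _ => by positivity) (fun k _ => mul_nonneg (by positivity) (hρ _ _)) (fun k _ => hmom j _)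
  refine le_trans (le_of_eq ?_) (m.trans (le_of_eq ?_))
  · refine Finset.sum_congr rfl fun σ _ => ?_
    rw [sb_lift_fp2 e M hM, Finset.mul_sum]
    congr 2
    refine Finset.sum_congr rfl fun k _ => ?_
    field_simp
  · unfold sbLiftMs
    congr 1
    rw [Finset.mul_sum, Finset.mul_sum]
    refine Finset.sum_congr rfl fun k _ => ?_
    ring

theorem sb_lift_mem_Nall (e : ℕ) (κ : ℤ × ℤ) (hκ : |κ.1| ≤ 2 ∧ |κ.2| ≤ 2) (Fall : Finset ℤ) (j : Fin 4) (n k : ℤ)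
    (hk : k ∈ sbLiftSet e j) (h : 2 ^ e * n + k + sbSh κ j ∈ Fall) : n ∈ sbNall e Fall := by
  unfold sbNall
  rw [Finset.mem_biUnion]
  refine ⟨_, h, ?_⟩
  obtain ⟨h1, h2⟩ := sb_lift_win_bd e κ hκ j n k hk
  rw [Finset.mem_Icc]
  constructor <;> omega

theorem sb_lift_supp (e M : ℕ) (κ : ℤ × ℤ) (hκ : |κ.1| ≤ 2 ∧ |κ.2| ≤ 2) (Z : Fin 4 → ℤ → ℂ) (Fall : Finset ℤ)
    (hZ : ∀ j k, k ∉ Fall → Z j k = 0) (j : Fin 4) (n : ℤ) (hn : n ∉ sbNall e Fall) : sbLift e M κ Z j n = 0 := by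
  funext x
  unfold sbLift
  split_ifs with hx
  · exact hZ j _ fun h => hn (sb_lift_mem_Nall e κ hκ Fall j n _ hx h)
  · rfl

theorem sb_liftMs_supp (e M : ℕ) (ℓ : ℤ) (κ : ℤ × ℤ) (hκ : |κ.1| ≤ 2 ∧ |κ.2| ≤ 2) (ρ : Fin 4 → ℤ → ℝ) (Fall : Finset ℤ)
    (hρ : ∀ j k, k ∉ Fall → ρ j k = 0) (j : Fin 4) (n : ℤ) (hn : n ∉ sbNall e Fall) : sbLiftMs e M ℓ κ ρ j n = 0 := by
  unfold sbLiftMs
  rw [Finset.sum_eq_zero, mul_zero]
  intro k hk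
  exact hρ j _ fun h => hn (sb_lift_mem_Nall e κ hκ Fall j n _ hk h)

theorem sb_lift_sub (τ : ℤ) (e : ℕ) (I : Cell) (hI : I.depth ≤ τ) (Fall : Finset ℤ) (h : sbIdx (τ + e) I ⊆ Fall) : sbInn τ I ⊆ sbNall e Fall := by
  intro n hn
  have hq : (0 : ℤ) < 2 ^ e := by positivity
  have e1 : (2 ^ e * n : ℤ) / 2 ^ e = n := Int.mul_ediv_cancel_left n hq.ne'
  have h1 : (2 ^ e * n : ℤ) ∈ sbIdx (τ + e) I := by
    rw [sb_idx_refine τ e I hI, e1]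
    exact sb_inn_subset_idx τ I hn
  unfold sbNall
  rw [Finset.mem_biUnion]
  refine ⟨_, h h1, ?_⟩
  rw [e1, Finset.mem_Icc]
  constructor <;> omega

/-- one block of the window: the map is injective. -/
theorem sb_lift_block_le (q : ℤ) (hq : 0 < q) (s i : ℤ) (N L P : Finset ℤ) (r : ℤ → ℝ) (hr : ∀ k, 0 ≤ r k)
    (hP : ∀ n ∈ N, ∀ k ∈ L, q * n + k + s ∈ P ∨ r (q * n + k + s) = 0) :
    ∑ n ∈ N, ∑ k ∈ L with k / q = i, r (q * n + k + s) ≤ ∑ k ∈ P, r k := by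
  rw [← Finset.sum_product' (f := fun n k => r (q * n + k + s))]
  refine sb_hold_sum_inj _ P (fun p : ℤ × ℤ => q * p.1 + p.2 + s) ?_ r hr ?_
  · rintro ⟨n, k⟩ hp ⟨n', k'⟩ hp' h
    simp only [Finset.coe_product, Set.mem_prod, Finset.mem_coe, Finset.mem_filter] at hp hp'
    simp only at h
    have h0 : q * n + k = q * n' + k' := by linarith
    have h1 : k % q = k' % q := by
      have : (k + q * n) % q = (k' + q * n') % q := by rw [add_comm k, add_comm k', h0]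
      rwa [Int.add_mul_emod_self_left, Int.add_mul_emod_self_left] at this
    have a := Int.emod_add_mul_ediv k q
    have b := Int.emod_add_mul_ediv k' q
    rw [hp.2.2] at a
    rw [hp'.2.2] at b
    have hk : k = k' := by rw [← a, ← b, h1]
    have hn : q * n = q * n' := by linarith
    rw [hk, mul_left_cancel₀ hq.ne' hn]
  · rintro ⟨n, k⟩ hp hnot
    simp only [Finset.mem_product, Finset.mem_filter] at hp
    exact (hP n hp.1 k hp.2.1).resolve_left hnot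

/-- bounded overlap of the windows. -/
theorem sb_window_sum_le (e : ℕ) (j : Fin 4) (s : ℤ) (N P : Finset ℤ) (r : ℤ → ℝ) (hr : ∀ k, 0 ≤ r k)
    (hP : ∀ n ∈ N, ∀ k ∈ sbLiftSet e j, 2 ^ e * n + k + s ∈ P ∨ r (2 ^ e * n + k + s) = 0) :
    ∑ n ∈ N, ∑ k ∈ sbLiftSet e j, r (2 ^ e * n + k + s) ≤ 5 * ∑ k ∈ P, r k := by
  have hq : (0 : ℤ) < 2 ^ e := by positivity
  have hmaps : ∀ k ∈ sbLiftSet e j, k / 2 ^ e ∈ Finset.Icc (-2 : ℤ) 2 := by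
    intro k hk
    obtain ⟨h1, h2⟩ := sb_lift_set_bd e j k hk
    have a1 : -2 ≤ k / 2 ^ e := (Int.le_ediv_iff_mul_le hq).2 (by linarith)
    have a2 : k / 2 ^ e < 3 := (Int.ediv_lt_iff_lt_mul hq).2 h2
    rw [Finset.mem_Icc]
    constructor <;> omega
  have e1 : ∀ n : ℤ, ∑ k ∈ sbLiftSet e j, r (2 ^ e * n + k + s)
      = ∑ i ∈ Finset.Icc (-2 : ℤ) 2, ∑ k ∈ sbLiftSet e j with k / 2 ^ e = i, r (2 ^ e * n + k + s) :=
    fun n => (Finset.sum_fiberwise_of_maps_to hmaps _).symm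
  simp_rw [e1]
  rw [Finset.sum_comm]
  calc ∑ i ∈ Finset.Icc (-2 : ℤ) 2, ∑ n ∈ N, ∑ k ∈ sbLiftSet e j with k / 2 ^ e = i, r (2 ^ e * n + k + s)
      ≤ ∑ _i ∈ Finset.Icc (-2 : ℤ) 2, ∑ k ∈ P, r k :=
        Finset.sum_le_sum fun i _ => sb_lift_block_le _ hq s i N _ P r hr hP
    _ = 5 * ∑ k ∈ P, r k := by
        rw [Finset.sum_const, nsmul_eq_mul]
        congr 1

/-- `5 δ / (M μ) ≤ 1`. -/
theorem sb_lift_const (τ : ℤ) (e M : ℕ) (hM : 16 * 2 ^ e < M) :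
    sbDel τ * (((M : ℝ) * sbDel (τ + e))⁻¹ * 5) ≤ 1 := by
  have hμ := sb_del_pos (τ + e)
  have hM' : (16 : ℝ) * 2 ^ e < M := by exact_mod_cast hM
  have hq : (0 : ℝ) < 2 ^ e := by positivity
  have hM0 : (0 : ℝ) < M := by linarith
  rw [sb_del_add τ e]
  have : 2 ^ e * sbDel (τ + e) * (((M : ℝ) * sbDel (τ + e))⁻¹ * 5) = 5 * 2 ^ e / M := by
    field_simp
  rw [this, div_le_one hM0]
  linarith

theorem sb_lift_loc (τ : ℤ) (e M : ℕ) (hM : 16 * 2 ^ e < M) (κ : ℤ × ℤ) (hκ : |κ.1| ≤ 2 ∧ |κ.2| ≤ 2) (ρ : Fin 4 → ℤ → ℝ) (hρ : ∀ j k, 0 ≤ ρ j k)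
    (I : Cell) (hI : I.depth ≤ τ) (j : Fin 4) (h : ∑ k ∈ sbIdx (τ + e) I, ρ j k ≤ I.len) :
    sbLoc τ I (sbLiftMs e M (τ + e) κ ρ j) ≤ 1 := by
  have hμ := sb_del_pos (τ + e)
  have hδ := sb_del_pos τ
  have hlen : 0 < I.len := by unfold Cell.len; positivity
  have hw := sb_window_sum_le e j (sbSh κ j) (sbInn τ I) (sbIdx (τ + e) I) (ρ j) (hρ j) (by
    intro n hn k hk
    left
    rw [sb_idx_refine τ e I hI]
    obtain ⟨h1, h2⟩ := sb_lift_win_bd e κ hκ j n k hk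
    unfold sbInn at hn
    unfold sbIdx
    rw [Finset.mem_Ico] at hn ⊢
    constructor <;> omega)
  unfold sbLoc sbLiftMs
  rw [← Finset.mul_sum]
  have hc := sb_lift_const τ e M hM
  calc sbDel τ / I.len * (((M : ℝ) * sbDel (τ + e))⁻¹ * ∑ n ∈ sbInn τ I, ∑ k ∈ sbLiftSet e j, ρ j (2 ^ e * n + k + sbSh κ j))
      ≤ sbDel τ / I.len * (((M : ℝ) * sbDel (τ + e))⁻¹ * (5 * I.len)) := by
        refine mul_le_mul_of_nonneg_left (mul_le_mul_of_nonneg_left (hw.trans ?_) (by positivity)) (by positivity)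
        linarith
    _ = sbDel τ * (((M : ℝ) * sbDel (τ + e))⁻¹ * 5) := by
        field_simp
    _ ≤ 1 := hc

theorem sb_lift_tot (τ : ℤ) (e M : ℕ) (hM : 16 * 2 ^ e < M) (κ : ℤ × ℤ) (ρ : Fin 4 → ℤ → ℝ) (hρ : ∀ j k, 0 ≤ ρ j k) (Fall : Finset ℤ)
    (hs : ∀ j k, k ∉ Fall → ρ j k = 0) (j : Fin 4) (Ej : ℝ) (h : ∑ k ∈ Fall, ρ j k ≤ Ej) (N : Finset ℤ) :
    sbDel τ * ∑ n ∈ N, sbLiftMs e M (τ + e) κ ρ j n ≤ Ej := by
  have hμ := sb_del_pos (τ + e)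
  have hδ := sb_del_pos τ
  have hw := sb_window_sum_le e j (sbSh κ j) N Fall (ρ j) (hρ j) (by
    intro n _ k _
    by_cases hmem : 2 ^ e * n + k + sbSh κ j ∈ Fall
    · exact Or.inl hmem
    · exact Or.inr (hs j _ hmem))
  have hS0 : 0 ≤ ∑ k ∈ Fall, ρ j k := Finset.sum_nonneg fun k _ => hρ j k
  unfold sbLiftMs
  rw [← Finset.mul_sum]
  have hc := sb_lift_const τ e M hM
  calc sbDel τ * (((M : ℝ) * sbDel (τ + e))⁻¹ * ∑ n ∈ N, ∑ k ∈ sbLiftSet e j, ρ j (2 ^ e * n + k + sbSh κ j))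
      ≤ sbDel τ * (((M : ℝ) * sbDel (τ + e))⁻¹ * (5 * ∑ k ∈ Fall, ρ j k)) :=
        mul_le_mul_of_nonneg_left (mul_le_mul_of_nonneg_left hw (by positivity)) hδ.le
    _ = (sbDel τ * (((M : ℝ) * sbDel (τ + e))⁻¹ * 5)) * ∑ k ∈ Fall, ρ j k := by ring
    _ ≤ 1 * ∑ k ∈ Fall, ρ j k := mul_le_mul_of_nonneg_right hc hS0
    _ ≤ Ej := by rw [one_mul]; exact h

theorem sb_lift_reg (t : ℤ) (b0 e M : ℕ) (hb3 : 3 ≤ b0) (hM : 16 * 2 ^ e < M) (κ : ℤ × ℤ) (ρ : Fin 4 → ℤ → ℝ) (hρ : ∀ j k, 0 ≤ ρ j k) (j : Fin 4)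
    (h : ∀ J : Cell, J.depth = t → ∑ k ∈ sbIdx (t + b0 + e) J, ρ j k ≤ J.len) (n : ℤ) :
    sbLiftMs e M (t + b0 + e) κ ρ j n ≤ 2 ^ b0 := by
  have hμ := sb_del_pos (t + b0 + e)
  have hq : (0 : ℤ) < 2 ^ e := by positivity
  obtain ⟨Q, hQ⟩ : ∃ Q : ℤ, Q = 2 ^ (b0 + e) := ⟨_, rfl⟩
  have hQpos : 0 < Q := by rw [hQ]; positivity
  have hQ5 : 5 * 2 ^ e ≤ Q := by
    rw [hQ, pow_add]
    have : (8 : ℤ) ≤ 2 ^ b0 := by
      calc (8 : ℤ) = 2 ^ 3 := by norm_num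
        _ ≤ 2 ^ b0 := pow_le_pow_right₀ (by norm_num) hb3
    nlinarith
  have htn : (t + b0 + e - t).toNat = b0 + e := by
    have : t + b0 + e - t = ((b0 + e : ℕ) : ℤ) := by push_cast; ring
    rw [this, Int.toNat_natCast]
  obtain ⟨a0, ha0⟩ : ∃ a0 : ℤ, a0 = 2 ^ e * n + -(2 * 2 ^ e) + sbSh κ j := ⟨_, rfl⟩
  obtain ⟨m, hm⟩ : ∃ m : ℤ, m = a0 / Q := ⟨_, rfl⟩
  have hm1 : m * Q ≤ a0 := by rw [hm]; exact Int.ediv_mul_le a0 hQpos.ne'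
  have hm2 : a0 < (m + 1) * Q := by rw [hm]; exact Int.lt_ediv_add_one_mul_self a0 hQpos
  have hidx : ∀ m' : ℤ, sbIdx (t + b0 + e) ⟨t, m'⟩ = Finset.Ico (m' * Q) ((m' + 1) * Q) := by
    intro m'
    unfold sbIdx
    simp only [htn, hQ]
  have hsum : ∑ k ∈ sbLiftSet e j, ρ j (2 ^ e * n + k + sbSh κ j) ≤
      ∑ k ∈ sbIdx (t + b0 + e) ⟨t, m⟩ ∪ sbIdx (t + b0 + e) ⟨t, m + 1⟩, ρ j k := by
    refine sb_hold_sum_inj _ _ (fun k => 2 ^ e * n + k + sbSh κ j) ?_ (ρ j) (hρ j) ?_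
    · intro k _ k' _ hkk
      simp only at hkk
      linarith
    · intro k hk hnot
      exfalso
      apply hnot
      obtain ⟨h1, h2⟩ := sb_lift_set_bd e j k hk
      rw [Finset.mem_union, hidx, hidx, Finset.mem_Ico, Finset.mem_Ico]
      by_cases hc : 2 ^ e * n + k + sbSh κ j < (m + 1) * Q
      · left
        exact ⟨by linarith, hc⟩
      · right
        refine ⟨not_lt.1 hc, ?_⟩
        have : (m + 1 + 1) * Q = (m + 1) * Q + Q := by ring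
        linarith
  have hun : ∑ k ∈ sbIdx (t + b0 + e) ⟨t, m⟩ ∪ sbIdx (t + b0 + e) ⟨t, m + 1⟩, ρ j k ≤ 2 * sbDel t := by
    have h1 := h ⟨t, m⟩ rfl
    have h2 := h ⟨t, m + 1⟩ rfl
    have h3 := Finset.sum_union_inter (s₁ := sbIdx (t + b0 + e) ⟨t, m⟩) (s₂ := sbIdx (t + b0 + e) ⟨t, m + 1⟩) (f := ρ j)
    have h4 : 0 ≤ ∑ k ∈ sbIdx (t + b0 + e) ⟨t, m⟩ ∩ sbIdx (t + b0 + e) ⟨t, m + 1⟩, ρ j k :=
      Finset.sum_nonneg fun k _ => hρ j k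
    have l1 : (⟨t, m⟩ : Cell).len = sbDel t := rfl
    have l2 : (⟨t, m + 1⟩ : Cell).len = sbDel t := rfl
    rw [l1] at h1
    rw [l2] at h2
    linarith
  have hM' : (16 : ℝ) * 2 ^ e < M := by exact_mod_cast hM
  have hqR : (0 : ℝ) < 2 ^ e := by positivity
  have hM0 : (0 : ℝ) < M := by linarith
  have hdel : sbDel t = 2 ^ b0 * (2 ^ e * sbDel (t + b0 + e)) := by
    rw [sb_del_add t b0, sb_del_add (t + b0) e]
  unfold sbLiftMs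
  calc ((M : ℝ) * sbDel (t + b0 + e))⁻¹ * ∑ k ∈ sbLiftSet e j, ρ j (2 ^ e * n + k + sbSh κ j)
      ≤ ((M : ℝ) * sbDel (t + b0 + e))⁻¹ * (2 * sbDel t) :=
        mul_le_mul_of_nonneg_left (hsum.trans hun) (by positivity)
    _ = 2 ^ b0 * (2 * 2 ^ e / M) := by
        rw [hdel]
        field_simp
    _ ≤ 2 ^ b0 * 1 := by
        refine mul_le_mul_of_nonneg_left ?_ (by positivity)
        rw [div_le_one hM0]
        linarith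
    _ = 2 ^ b0 := mul_one _

/-- ASSEMBLY. -/
theorem sb_lift_hyp {c0 C0 : ℝ} {t : ℤ} {b0 e : ℕ} (hb3 : 3 ≤ b0) {S : Finset Cell} {w : Cell → ℝ × ℝ → ℂ} {Ω : Type} [Fintype Ω] {pr : Ω → ℝ}
    {Z : Ω → Fin 4 → ℤ → ℂ} {ρ : Fin 4 → ℤ → ℝ} {a b : Fin 4} {Cm : ℝ} {Fall : Finset ℤ} {E : Fin 4 → ℝ}
    (h : SbStepHyp c0 C0 t (t + b0 + e) S w pr Z ρ a b Cm Fall E) (M : ℕ) [NeZero M] (hp : M.Prime) (hM : 16 * 2 ^ e < M)
    (κ : ℤ × ℤ) (hκ : |κ.1| ≤ 2 ∧ |κ.2| ≤ 2) :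
    SbDiscHyp c0 C0 t b0 S w pr M (fun σ => sbLift e M κ (Z σ)) (sbLiftMs e M (t + b0 + e) κ ρ) a b Cm (sbNall e Fall) E where
  prime := hp
  M_gt := by
    have : 1 ≤ 2 ^ e := Nat.one_le_two_pow
    omega
  depth_lt := h.depth_lt
  adm := h.adm
  pr_nonneg := h.pr_nonneg
  pr_sum := h.pr_sum
  ab := h.ab
  ms_nonneg := sb_liftMs_nonneg e M _ κ ρ h.ρ_nonneg
  supp := fun σ j n hn => sb_lift_supp e M κ hκ (Z σ) Fall (h.Z_supp σ) j n hn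
  ms_supp := fun j n hn => sb_liftMs_supp e M _ κ hκ ρ Fall h.ρ_supp j n hn
  sub := fun I hI => sb_lift_sub (t + b0) e I (by have := h.depth_lt I hI; omega) Fall (h.sub I hI)
  mom := fun j n => sb_lift_mom pr h.pr_nonneg e M hM _ κ Z ρ Cm h.ρ_nonneg h.mom j n
  reg := fun j hj n => sb_lift_reg t b0 e M hb3 hM κ ρ h.ρ_nonneg j (h.reg j hj) n
  loc := fun I hI j => sb_lift_loc (t + b0) e M hM κ hκ ρ h.ρ_nonneg I (by have := h.depth_lt I hI; omega) j (h.loc I hI j)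
  tot := fun j => sb_lift_tot (t + b0) e M hM κ ρ h.ρ_nonneg Fall h.ρ_supp j (E j) (h.tot j) _

end Claimed.Agent.R258
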