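/-
Row 258, block [S7b] (architect: helper243).  FILE StepForm: for STEP inputs a form whose kernel is constant on the fine squares is EXACTLY a convex combination of finite sums;
lift of the fast variable to `ZMod M`.  Paper-free.
Leaves: P-SB-SF1 (`sb_step_form`), P-SB-SF2 (`sb_lift_sum`), P-SB-SF3 (`sb_ker_disc`).

PROOFS.
* `sb_step_form`.  `μ = sbDel ℓ`.  Change variables `(x,t) ↦ (y0,y1) = (x, x+t)` (`measurePreserving_prod_add`), cut `ℝ²` into the squares `μ [k0,k0+1) × μ [k1,k1+1)`; only `k0, k1 ∈ Fall` contribute (slots 0, 1).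
  On the square write `y_i = μ (k_i + θ_i)`, `θ ∈ [0,1)²`: `x + j t = μ (sbAp k0 k1 j + (1-j) θ0 + j θ1)`, hence `⌊(x + j t)/μ⌋ = sbAp k0 k1 j + ⌊(1-j) θ0 + j θ1⌋`; the last floor is `0` for `j = 0, 1`,
  `κ.1 := ⌊2 θ1 - θ0⌋ ∈ {-1,0,1}` for `j = 2`, `κ.2 := ⌊3 θ1 - 2 θ0⌋ ∈ {-2,..,2}` for `j = 3`.   Take `Kp = Icc (-2) 2 ×ˢ Icc (-2) 2`, `α κ = (volume {θ ∈ [0,1)² | floors = κ}).toReal`
  (these sets partition the unit square, so `∑ α = 1`).  The integral over one square is `μ² ∑_κ α κ · Om(k0,k1) ∏_j Z_j(sbAp k0 k1 j + sbSh κ j)`.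
* `sb_lift_sum`.  `u ↦ u.valMinAbs` identifies `{u | valMinAbs u ∈ [0,2^e)}` with `[0,2^e)`; the factors `j = 0, 1` of the RHS vanish unless `u, v` are of this form, `u = (a0 : ZMod M)`, `v = a1`.  Then
  `sbAp u v j = ((sbAp a0 a1 j : ℤ) : ZMod M)` and `sbAp a0 a1 j ∈ (-2·2^e, 3·2^e)`, of absolute value `< M/2`, so `valMinAbs` returns it (`ZMod.valMinAbs_spec` / `ZMod.coe_valMinAbs`), and it lies in `sbLiftSet e j`.
* `sb_ker_disc`.  `sbKer τ w p = Om(⌊p.1 2^ℓ⌋, ⌊(p.1+p.2) 2^ℓ⌋)` with `Om (k0,k1) = w (δ (k0 / 2^e), δ (k1 / 2^e - k0 / 2^e))` (`sb_floor_refine`, `ℓ = τ + e`).  Apply the property of `Kp, α` with a finite `Fall` containing the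
  support and saturated (`Fall = ` union of the blocks `[2^e n, 2^e (n+1))`), write `k_i = 2^e n_i + a_i`: `sbAp k0 k1 j = 2^e sbAp n0 n1 j + sbAp a0 a1 j`; `sb_lift_sum`; the terms with `n0` or `n1 ∉ sbIdx τ I` vanish
  (`sb_ker_inn`, `sb_inn_subset_idx`), and so do the terms of `sbDisc` outside the finite range (all `Z` vanish there, slots 0 and 1).  Normalisation: `μ² / |I|² = (δ/|I|)² / (2^e)²`.
-/
import Claimed.Agent.R258.S7b.Abs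

set_option autoImplicit false
open MeasureTheory
open scoped ENNReal

namespace Claimed.Agent.R258

/-- the property of the weights of the shifts. -/
def SbShiftWeights (Kp : Finset (ℤ × ℤ)) (α : ℤ × ℤ → ℝ) : Prop :=
  (∀ κ, 0 ≤ α κ) ∧ ∑ κ ∈ Kp, α κ = 1 ∧ (∀ κ ∈ Kp, |κ.1| ≤ 2 ∧ |κ.2| ≤ 2) ∧
  ∀ (ℓ : ℤ) (Om : ℤ × ℤ → ℂ) (Z : Fin 4 → ℤ → ℂ) (Fall : Finset ℤ), (∀ j k, k ∉ Fall → Z j k = 0) →
    ∫ p : ℝ × ℝ, Om (⌊p.1 * (2 : ℝ) ^ ℓ⌋, ⌊(p.1 + p.2) * (2 : ℝ) ^ ℓ⌋) * ∏ j : Fin 4, sbStep ℓ (Z j) (p.1 + ((j : ℕ) : ℝ) * p.2)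
      = ((sbDel ℓ ^ 2 : ℝ) : ℂ) * ∑ κ ∈ Kp, (α κ : ℂ) * ∑ k0 ∈ Fall, ∑ k1 ∈ Fall,
          Om (k0, k1) * ∏ j : Fin 4, Z j (sbAp k0 k1 j + sbSh κ j)

/-- the set of the `p` whose four progression points have prescribed fine indices. -/
def sbSq (s : ℝ) (k0 k1 : ℤ) (κ : ℤ × ℤ) : Set (ℝ × ℝ) :=
  {p | ⌊p.1 * s⌋ = k0 ∧ ⌊(p.1 + p.2) * s⌋ = k1 ∧ ⌊(p.1 + 2 * p.2) * s⌋ = 2 * k1 - k0 + κ.1 ∧
    ⌊(p.1 + 3 * p.2) * s⌋ = 3 * k1 - 2 * k0 + κ.2}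

theorem sb_sq_measurable (s : ℝ) (k0 k1 : ℤ) (κ : ℤ × ℤ) : MeasurableSet (sbSq s k0 k1 κ) := by
  unfold sbSq
  have m1 : Measurable (fun p : ℝ × ℝ => ⌊p.1 * s⌋) := Int.measurable_floor.comp (by fun_prop)
  have m2 : Measurable (fun p : ℝ × ℝ => ⌊(p.1 + p.2) * s⌋) := Int.measurable_floor.comp (by fun_prop)
  have m3 : Measurable (fun p : ℝ × ℝ => ⌊(p.1 + 2 * p.2) * s⌋) := Int.measurable_floor.comp (by fun_prop)
  have m4 : Measurable (fun p : ℝ × ℝ => ⌊(p.1 + 3 * p.2) * s⌋) := Int.measurable_floor.comp (by fun_prop)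
  exact ((m1 (measurableSet_singleton k0)).inter ((m2 (measurableSet_singleton k1)).inter
    ((m3 (measurableSet_singleton _)).inter (m4 (measurableSet_singleton _)))))

theorem sb_sq_preimage (s : ℝ) (k0 k1 : ℤ) (κ : ℤ × ℤ) :
    sbSq s k0 k1 κ = (fun p : ℝ × ℝ => s • p) ⁻¹' ((fun q : ℝ × ℝ => ((-(k0 : ℝ), -((k1 : ℝ) - k0)) : ℝ × ℝ) + q) ⁻¹' (sbSq 1 0 0 κ)) := by
  ext p
  simp only [sbSq, Set.mem_ofPred_eq, Set.mem_preimage, Prod.smul_fst, Prod.smul_snd, Prod.fst_add, Prod.snd_add, smul_eq_mul, mul_one]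
  have e1 : -(k0 : ℝ) + s * p.1 = p.1 * s - k0 := by ring
  have e2 : -(k0 : ℝ) + s * p.1 + (-((k1 : ℝ) - k0) + s * p.2) = (p.1 + p.2) * s - k1 := by ring
  have e3 : -(k0 : ℝ) + s * p.1 + 2 * (-((k1 : ℝ) - k0) + s * p.2) = (p.1 + 2 * p.2) * s - ((2 * k1 - k0 : ℤ) : ℝ) := by
    push_cast; ring
  have e4 : -(k0 : ℝ) + s * p.1 + 3 * (-((k1 : ℝ) - k0) + s * p.2) = (p.1 + 3 * p.2) * s - ((3 * k1 - 2 * k0 : ℤ) : ℝ) := by
    push_cast; ring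
  rw [e4, e3, e2, e1, Int.floor_sub_intCast, Int.floor_sub_intCast, Int.floor_sub_intCast, Int.floor_sub_intCast]
  constructor
  · rintro ⟨h1, h2, h3, h4⟩
    refine ⟨by omega, by omega, by omega, by omega⟩
  · rintro ⟨h1, h2, h3, h4⟩
    refine ⟨by omega, by omega, by omega, by omega⟩

theorem sb_sq_volume (s : ℝ) (hs : 0 < s) (k0 k1 : ℤ) (κ : ℤ × ℤ) :
    volume (sbSq s k0 k1 κ) = ENNReal.ofReal ((s ^ 2)⁻¹) * volume (sbSq 1 0 0 κ) := by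
  rw [sb_sq_preimage, Measure.addHaar_preimage_smul volume hs.ne', measure_preimage_add]
  congr 2
  rw [Module.finrank_prod, Module.finrank_self, abs_of_pos (by positivity)]

theorem sb_sq_subset (κ : ℤ × ℤ) : sbSq 1 0 0 κ ⊆ (fun z : ℝ × ℝ => (z.1, z.1 + z.2)) ⁻¹' (Set.Ico (0:ℝ) 1 ×ˢ Set.Ico (0:ℝ) 1) := by
  intro p hp
  simp only [sbSq, Set.mem_ofPred_eq, mul_one] at hp
  simp only [Set.mem_preimage, Set.mem_prod, Set.mem_Ico]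
  have h1 := Int.floor_eq_iff.1 hp.1
  have h2 := Int.floor_eq_iff.1 hp.2.1
  simp only [Int.cast_zero, zero_add] at h1 h2
  exact ⟨h1, h2⟩

theorem sb_unit_volume : volume ((fun z : ℝ × ℝ => (z.1, z.1 + z.2)) ⁻¹' (Set.Ico (0:ℝ) 1 ×ˢ Set.Ico (0:ℝ) 1)) = 1 := by
  have := (measurePreserving_prod_add (volume : Measure ℝ) (volume : Measure ℝ)).measure_preimage
    (s := Set.Ico (0:ℝ) 1 ×ˢ Set.Ico (0:ℝ) 1) (measurableSet_Ico.prod measurableSet_Ico).nullMeasurableSet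
  rw [← Measure.volume_eq_prod] at this
  rw [this, Measure.volume_eq_prod, Measure.prod_prod]
  simp

/-- the shifts. -/
noncomputable def sbKp : Finset (ℤ × ℤ) := Finset.Icc (-2) 2 ×ˢ Finset.Icc (-2) 2

theorem sb_sq_exists (s : ℝ) (p : ℝ × ℝ) : ∃ κ ∈ sbKp, p ∈ sbSq s ⌊p.1 * s⌋ ⌊(p.1 + p.2) * s⌋ κ := by
  set a := p.1 * s with ha
  set b := (p.1 + p.2) * s with hb
  have e2 : (p.1 + 2 * p.2) * s = 2 * b - a := by rw [ha, hb]; ring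
  have e3 : (p.1 + 3 * p.2) * s = 3 * b - 2 * a := by rw [ha, hb]; ring
  have a1 := Int.floor_le a
  have a2 := Int.lt_floor_add_one a
  have b1 := Int.floor_le b
  have b2 := Int.lt_floor_add_one b
  have c1 := Int.floor_le (2 * b - a)
  have c2 := Int.lt_floor_add_one (2 * b - a)
  have d1 := Int.floor_le (3 * b - 2 * a)
  have d2 := Int.lt_floor_add_one (3 * b - 2 * a)
  refine ⟨(⌊2 * b - a⌋ - (2 * ⌊b⌋ - ⌊a⌋), ⌊3 * b - 2 * a⌋ - (3 * ⌊b⌋ - 2 * ⌊a⌋)), ?_, ?_⟩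
  · simp only [sbKp, Finset.mem_product, Finset.mem_Icc]
    refine ⟨⟨?_, ?_⟩, ⟨?_, ?_⟩⟩
    · have : ((2 * ⌊b⌋ - ⌊a⌋ - 2 : ℤ) : ℝ) < (⌊2 * b - a⌋ : ℝ) := by push_cast; linarith
      have := Int.cast_lt.1 this
      omega
    · have : (⌊2 * b - a⌋ : ℝ) < ((2 * ⌊b⌋ - ⌊a⌋ + 2 : ℤ) : ℝ) := by push_cast; linarith
      have := Int.cast_lt.1 this
      omega
    · have : ((3 * ⌊b⌋ - 2 * ⌊a⌋ - 3 : ℤ) : ℝ) < (⌊3 * b - 2 * a⌋ : ℝ) := by push_cast; linarith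
      have := Int.cast_lt.1 this
      omega
    · have : (⌊3 * b - 2 * a⌋ : ℝ) < ((3 * ⌊b⌋ - 2 * ⌊a⌋ + 3 : ℤ) : ℝ) := by push_cast; linarith
      have := Int.cast_lt.1 this
      omega
  · simp only [sbSq, Set.mem_ofPred_eq]
    rw [e2, e3]
    refine ⟨rfl, rfl, by ring, by ring⟩

theorem sb_sq_unique (s : ℝ) (p : ℝ × ℝ) (k0 k1 k0' k1' : ℤ) (κ κ' : ℤ × ℤ) (h : p ∈ sbSq s k0 k1 κ) (h' : p ∈ sbSq s k0' k1' κ') :
    k0 = k0' ∧ k1 = k1' ∧ κ = κ' := by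
  simp only [sbSq, Set.mem_ofPred_eq] at h h'
  obtain ⟨h1, h2, h3, h4⟩ := h
  obtain ⟨g1, g2, g3, g4⟩ := h'
  refine ⟨by omega, by omega, Prod.ext (by omega) (by omega)⟩

/-- the weights. -/
noncomputable def sbAl (κ : ℤ × ℤ) : ℝ := (volume (sbSq 1 0 0 κ)).toReal

theorem sb_sq_volume_ne_top (κ : ℤ × ℤ) : volume (sbSq 1 0 0 κ) ≠ ⊤ := by
  have := measure_mono (μ := volume) (sb_sq_subset κ)
  rw [sb_unit_volume] at this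
  exact ne_top_of_le_ne_top ENNReal.one_ne_top this

theorem sb_al_sum : ∑ κ ∈ sbKp, sbAl κ = 1 := by
  unfold sbAl
  rw [← ENNReal.toReal_sum (fun κ _ => sb_sq_volume_ne_top κ), ← measure_biUnion_finset]
  · have : (⋃ κ ∈ sbKp, sbSq 1 0 0 κ) = (fun z : ℝ × ℝ => (z.1, z.1 + z.2)) ⁻¹' (Set.Ico (0:ℝ) 1 ×ˢ Set.Ico (0:ℝ) 1) := by
      apply Set.Subset.antisymm
      · exact Set.iUnion₂_subset fun κ _ => sb_sq_subset κ
      · intro p hp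
        simp only [Set.mem_preimage, Set.mem_prod, Set.mem_Ico] at hp
        obtain ⟨κ, hκ, h⟩ := sb_sq_exists 1 p
        have f1 : ⌊p.1 * 1⌋ = 0 := by
          rw [mul_one, Int.floor_eq_iff]; simpa using hp.1
        have f2 : ⌊(p.1 + p.2) * 1⌋ = 0 := by
          rw [mul_one, Int.floor_eq_iff]; simpa using hp.2
        rw [f1, f2] at h
        exact Set.mem_iUnion₂.2 ⟨κ, hκ, h⟩
    rw [this, sb_unit_volume]
    simp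
  · intro κ _ κ' _ hne
    rw [Function.onFun, Set.disjoint_left]
    intro p hp hp'
    exact hne (sb_sq_unique 1 p 0 0 0 0 κ κ' hp hp').2.2
  · exact fun κ _ => sb_sq_measurable 1 0 0 κ

theorem sb_sq_real (ℓ : ℤ) (k0 k1 : ℤ) (κ : ℤ × ℤ) : volume.real (sbSq ((2:ℝ) ^ ℓ) k0 k1 κ) = sbDel ℓ ^ 2 * sbAl κ := by
  unfold Measure.real sbAl
  rw [sb_sq_volume _ (by positivity), ENNReal.toReal_mul, ENNReal.toReal_ofReal (by positivity)]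
  congr 1
  unfold sbDel
  rw [zpow_neg, inv_pow]

theorem sb_sq_prod (ℓ : ℤ) (Z : Fin 4 → ℤ → ℂ) (k0 k1 : ℤ) (κ : ℤ × ℤ) (p : ℝ × ℝ) (hp : p ∈ sbSq ((2:ℝ) ^ ℓ) k0 k1 κ) :
    ∏ j : Fin 4, sbStep ℓ (Z j) (p.1 + ((j : ℕ) : ℝ) * p.2) = ∏ j : Fin 4, Z j (sbAp k0 k1 j + sbSh κ j) := by
  simp only [sbSq, Set.mem_ofPred_eq] at hp
  obtain ⟨h1, h2, h3, h4⟩ := hp
  rw [Fin.prod_univ_four, Fin.prod_univ_four]
  unfold sbStep sbAp sbSh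
  have e0 : p.1 + (((0 : Fin 4) : ℕ) : ℝ) * p.2 = p.1 := by simp
  have e1 : p.1 + (((1 : Fin 4) : ℕ) : ℝ) * p.2 = p.1 + p.2 := by simp
  have e2 : p.1 + (((2 : Fin 4) : ℕ) : ℝ) * p.2 = p.1 + 2 * p.2 := by simp
  have e3 : p.1 + (((3 : Fin 4) : ℕ) : ℝ) * p.2 = p.1 + 3 * p.2 := by simp
  rw [e0, e1, e2, e3, h1, h2, h3, h4]
  have f0 : k0 + (((0 : Fin 4) : ℕ) : ℤ) * (k1 - k0) + ![0, 0, κ.1, κ.2] 0 = k0 := by simp
  have f1 : k0 + (((1 : Fin 4) : ℕ) : ℤ) * (k1 - k0) + ![0, 0, κ.1, κ.2] 1 = k1 := by simp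
  have f2 : k0 + (((2 : Fin 4) : ℕ) : ℤ) * (k1 - k0) + ![0, 0, κ.1, κ.2] 2 = 2 * k1 - k0 + κ.1 := by
    simp; ring
  have f3 : k0 + (((3 : Fin 4) : ℕ) : ℤ) * (k1 - k0) + ![0, 0, κ.1, κ.2] 3 = 3 * k1 - 2 * k0 + κ.2 := by
    simp; ring
  rw [f0, f1, f2, f3]

theorem sb_prod_zero0 (Z : Fin 4 → ℤ → ℂ) (Fall : Finset ℤ) (hZ : ∀ j k, k ∉ Fall → Z j k = 0) (k0 k1 : ℤ) (κ : ℤ × ℤ) (h : k0 ∉ Fall) :
    ∏ j : Fin 4, Z j (sbAp k0 k1 j + sbSh κ j) = 0 := by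
  refine Finset.prod_eq_zero (Finset.mem_univ 0) ?_
  have : sbAp k0 k1 0 + sbSh κ 0 = k0 := by simp [sbAp, sbSh]
  rw [this]
  exact hZ 0 k0 h

theorem sb_prod_zero1 (Z : Fin 4 → ℤ → ℂ) (Fall : Finset ℤ) (hZ : ∀ j k, k ∉ Fall → Z j k = 0) (k0 k1 : ℤ) (κ : ℤ × ℤ) (h : k1 ∉ Fall) :
    ∏ j : Fin 4, Z j (sbAp k0 k1 j + sbSh κ j) = 0 := by
  refine Finset.prod_eq_zero (Finset.mem_univ 1) ?_
  have : sbAp k0 k1 1 + sbSh κ 1 = k1 := by simp [sbAp, sbSh]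
  rw [this]
  exact hZ 1 k1 h

theorem sb_step_pointwise (ℓ : ℤ) (Om : ℤ × ℤ → ℂ) (Z : Fin 4 → ℤ → ℂ) (Fall : Finset ℤ) (hZ : ∀ j k, k ∉ Fall → Z j k = 0) (p : ℝ × ℝ) :
    Om (⌊p.1 * (2 : ℝ) ^ ℓ⌋, ⌊(p.1 + p.2) * (2 : ℝ) ^ ℓ⌋) * ∏ j : Fin 4, sbStep ℓ (Z j) (p.1 + ((j : ℕ) : ℝ) * p.2)
      = ∑ κ ∈ sbKp, ∑ k0 ∈ Fall, ∑ k1 ∈ Fall, (sbSq ((2:ℝ) ^ ℓ) k0 k1 κ).indicator
          (fun _ => Om (k0, k1) * ∏ j : Fin 4, Z j (sbAp k0 k1 j + sbSh κ j)) p := by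
  obtain ⟨κ0, hκ0, hmem⟩ := sb_sq_exists ((2:ℝ) ^ ℓ) p
  set k0 := ⌊p.1 * (2 : ℝ) ^ ℓ⌋
  set k1 := ⌊(p.1 + p.2) * (2 : ℝ) ^ ℓ⌋
  have hz : ∀ (κ' : ℤ × ℤ) (k0' k1' : ℤ), ¬ (k0 = k0' ∧ k1 = k1' ∧ κ0 = κ') → (sbSq ((2:ℝ) ^ ℓ) k0' k1' κ').indicator
          (fun _ => Om (k0', k1') * ∏ j : Fin 4, Z j (sbAp k0' k1' j + sbSh κ' j)) p = 0 := by
    intro κ' k0' k1' hne
    exact Set.indicator_of_notMem (fun h => hne (sb_sq_unique _ p _ _ _ _ _ _ hmem h)) _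
  rw [Finset.sum_eq_single κ0 (fun κ' _ hne => Finset.sum_eq_zero fun k0' _ => Finset.sum_eq_zero fun k1' _ =>
      hz κ' k0' k1' (fun h => hne h.2.2.symm)) (fun h => absurd hκ0 h),
    Finset.sum_eq_single k0 (fun k0' _ hne => Finset.sum_eq_zero fun k1' _ => hz κ0 k0' k1' (fun h => hne h.1.symm))
      (fun h => Finset.sum_eq_zero fun k1' _ => by rw [sb_prod_zero0 Z Fall hZ k0 k1' κ0 h, mul_zero]; simp),
    Finset.sum_eq_single k1 (fun k1' _ hne => hz κ0 k0 k1' (fun h => hne h.2.1.symm))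
      (fun h => by rw [sb_prod_zero1 Z Fall hZ k0 k1 κ0 h, mul_zero]; simp),
    Set.indicator_of_mem hmem, sb_sq_prod ℓ Z k0 k1 κ0 p hmem]

theorem sb_step_form : ∃ (Kp : Finset (ℤ × ℤ)) (α : ℤ × ℤ → ℝ), SbShiftWeights Kp α := by
  refine ⟨sbKp, sbAl, fun κ => ENNReal.toReal_nonneg, sb_al_sum, ?_, ?_⟩
  · intro κ hκ
    simp only [sbKp, Finset.mem_product, Finset.mem_Icc] at hκ
    exact ⟨abs_le.2 hκ.1, abs_le.2 hκ.2⟩
  · intro ℓ Om Z Fall hZ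
    have hint : ∀ (κ : ℤ × ℤ) (k0 k1 : ℤ), Integrable ((sbSq ((2:ℝ) ^ ℓ) k0 k1 κ).indicator
          (fun _ => Om (k0, k1) * ∏ j : Fin 4, Z j (sbAp k0 k1 j + sbSh κ j))) := by
      intro κ k0 k1
      rw [integrable_indicator_iff (sb_sq_measurable _ _ _ _)]
      refine integrableOn_const ?_
      rw [sb_sq_volume _ (by positivity)]
      exact ENNReal.mul_ne_top ENNReal.ofReal_ne_top (sb_sq_volume_ne_top κ)
    simp_rw [sb_step_pointwise ℓ Om Z Fall hZ]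
    rw [integral_finsetSum _ (fun κ _ => integrable_finsetSum _ fun k0 _ => integrable_finsetSum _ fun k1 _ => hint κ k0 k1),
      Finset.mul_sum]
    refine Finset.sum_congr rfl fun κ _ => ?_
    rw [integral_finsetSum _ (fun k0 _ => integrable_finsetSum _ fun k1 _ => hint κ k0 k1), Finset.mul_sum, Finset.mul_sum]
    refine Finset.sum_congr rfl fun k0 _ => ?_
    rw [integral_finsetSum _ (fun k1 _ => hint κ k0 k1), Finset.mul_sum, Finset.mul_sum]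
    refine Finset.sum_congr rfl fun k1 _ => ?_
    rw [integral_indicator_const _ (sb_sq_measurable _ _ _ _), sb_sq_real, Complex.real_smul]
    push_cast
    ring

theorem sb_liftSet_bounds (e : ℕ) (j : Fin 4) (x : ℤ) (hx : x ∈ sbLiftSet e j) : -(2 * 2 ^ e) ≤ x ∧ x < 3 * 2 ^ e := by
  unfold sbLiftSet at hx
  have hp : (0 : ℤ) < 2 ^ e := by positivity
  split_ifs at hx
  · rw [Finset.mem_Ico] at hx
    constructor <;> nlinarith [hx.1, hx.2]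
  · rw [Finset.mem_Ico] at hx
    exact hx

theorem sb_valMinAbs_cast (e M : ℕ) [NeZero M] (hM : 16 * 2 ^ e < M) (x : ℤ) (h1 : -(2 * 2 ^ e) ≤ x) (h2 : x < 3 * 2 ^ e) :
    ((x : ZMod M)).valMinAbs = x := by
  rw [ZMod.valMinAbs_spec]
  refine ⟨rfl, ?_⟩
  have hM' : (16 * 2 ^ e : ℤ) < M := by exact_mod_cast hM
  have hp : (0 : ℤ) < 2 ^ e := by positivity
  rw [Set.mem_Ioc]
  constructor <;> nlinarith

theorem sb_lift_apply (e M : ℕ) [NeZero M] (hM : 16 * 2 ^ e < M) (κ : ℤ × ℤ) (Z : Fin 4 → ℤ → ℂ) (j : Fin 4) (n x : ℤ)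
    (hx : x ∈ sbLiftSet e j) : sbLift e M κ Z j n (x : ZMod M) = Z j (2 ^ e * n + x + sbSh κ j) := by
  obtain ⟨h1, h2⟩ := sb_liftSet_bounds e j x hx
  unfold sbLift
  rw [sb_valMinAbs_cast e M hM x h1 h2, if_pos hx]

theorem sb_ap_mem_liftSet (e : ℕ) (a0 a1 : ℤ) (h0 : a0 ∈ Finset.Ico (0 : ℤ) (2 ^ e)) (h1 : a1 ∈ Finset.Ico (0 : ℤ) (2 ^ e)) (j : Fin 4) :
    sbAp a0 a1 j ∈ sbLiftSet e j := by
  rw [Finset.mem_Ico] at h0 h1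
  unfold sbLiftSet sbAp
  fin_cases j
  · simp only [Fin.zero_eta, Fin.val_zero, Nat.ofNat_pos, if_true, Finset.mem_Ico]
    constructor <;> push_cast <;> nlinarith [h0.1, h0.2]
  · simp only [Fin.mk_one, Fin.val_one, Nat.one_lt_ofNat, if_true, Finset.mem_Ico]
    constructor <;> push_cast <;> nlinarith [h1.1, h1.2]
  · have : ¬ (((⟨2, by norm_num⟩ : Fin 4) : ℕ) < 2) := by norm_num
    rw [if_neg this, Finset.mem_Ico]
    constructor <;> push_cast <;> nlinarith [h0.1, h0.2, h1.1, h1.2]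
  · have : ¬ (((⟨3, by norm_num⟩ : Fin 4) : ℕ) < 2) := by norm_num
    rw [if_neg this, Finset.mem_Ico]
    constructor <;> push_cast <;> nlinarith [h0.1, h0.2, h1.1, h1.2]

/-- the fine progression sum inside four slow windows is a progression sum on `ZMod M`. -/
theorem sb_lift_sum (e M : ℕ) [NeZero M] (hM : 16 * 2 ^ e < M) (κ : ℤ × ℤ) (Z : Fin 4 → ℤ → ℂ) (n : Fin 4 → ℤ) :
    ∑ a0 ∈ Finset.Ico (0 : ℤ) (2 ^ e), ∑ a1 ∈ Finset.Ico (0 : ℤ) (2 ^ e), ∏ j : Fin 4, Z j (2 ^ e * n j + sbAp a0 a1 j + sbSh κ j)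
      = ∑ u : ZMod M, ∑ v : ZMod M, ∏ j : Fin 4, sbLift e M κ Z j (n j) (sbAp u v j) := by
  classical
  set U : Finset (ZMod M) := (Finset.Ico (0 : ℤ) (2 ^ e)).image (fun a : ℤ => (a : ZMod M)) with hU
  have hinj : Set.InjOn (fun a : ℤ => (a : ZMod M)) (Finset.Ico (0 : ℤ) (2 ^ e) : Set ℤ) := by
    intro a ha b hb hab
    simp only at hab
    have h1 := sb_lift_apply e M hM (0, 0) (fun _ k => (k : ℂ)) 0 0 a (by simpa [sbLiftSet] using ha)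
    have h2 := sb_lift_apply e M hM (0, 0) (fun _ k => (k : ℂ)) 0 0 b (by simpa [sbLiftSet] using hb)
    rw [hab, h2] at h1
    simpa [sbSh] using h1.symm
  have hmemU : ∀ u : ZMod M, u.valMinAbs ∈ Finset.Ico (0 : ℤ) (2 ^ e) → u ∈ U := by
    intro u hu
    rw [hU, Finset.mem_image]
    exact ⟨u.valMinAbs, hu, ZMod.coe_valMinAbs u⟩
  have z0 : ∀ u v : ZMod M, u ∉ U → ∏ j : Fin 4, sbLift e M κ Z j (n j) (sbAp u v j) = 0 := by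
    intro u v hu
    refine Finset.prod_eq_zero (Finset.mem_univ 0) ?_
    have : sbAp u v 0 = u := by simp [sbAp]
    rw [this]
    unfold sbLift
    rw [if_neg]
    intro h
    exact hu (hmemU u (by simpa [sbLiftSet] using h))
  have z1 : ∀ u v : ZMod M, v ∉ U → ∏ j : Fin 4, sbLift e M κ Z j (n j) (sbAp u v j) = 0 := by
    intro u v hv
    refine Finset.prod_eq_zero (Finset.mem_univ 1) ?_
    have : sbAp u v 1 = v := by simp [sbAp]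
    rw [this]
    unfold sbLift
    rw [if_neg]
    intro h
    exact hv (hmemU v (by simpa [sbLiftSet] using h))
  rw [← Finset.sum_subset (Finset.subset_univ U) (fun u _ hu => Finset.sum_eq_zero fun v _ => z0 u v hu), hU,
    Finset.sum_image hinj]
  refine Finset.sum_congr rfl fun a0 h0 => ?_
  rw [← Finset.sum_subset (Finset.subset_univ U) (fun v _ hv => z1 _ v hv), hU, Finset.sum_image hinj]
  refine Finset.sum_congr rfl fun a1 h1 => Finset.prod_congr rfl fun j _ => ?_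
  have : sbAp (a0 : ZMod M) (a1 : ZMod M) j = ((sbAp a0 a1 j : ℤ) : ZMod M) := by
    unfold sbAp; push_cast; ring
  rw [this, sb_lift_apply e M hM κ Z j (n j) _ (sb_ap_mem_liftSet e a0 a1 h0 h1 j)]

theorem sb_idx_regroup (τ : ℤ) (e : ℕ) (I : Cell) (h : I.depth ≤ τ) (g : ℤ → ℂ) :
    ∑ k ∈ sbIdx (τ + e) I, g k = ∑ n ∈ sbIdx τ I, ∑ a ∈ Finset.Ico (0 : ℤ) (2 ^ e), g (2 ^ e * n + a) := by
  have hp : (0 : ℤ) < 2 ^ e := by positivity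
  rw [← Finset.sum_product']
  symm
  refine Finset.sum_nbij' (fun x : ℤ × ℤ => 2 ^ e * x.1 + x.2) (fun k => (k / 2 ^ e, k % 2 ^ e)) ?_ ?_ ?_ ?_ ?_
  · rintro ⟨n, a⟩ hx
    rw [Finset.mem_product, Finset.mem_Ico] at hx
    simp only at hx ⊢
    rw [sb_idx_refine τ e I h]
    have : (2 ^ e * n + a) / 2 ^ e = n := by
      rw [Int.add_comm, Int.add_mul_ediv_left _ _ hp.ne', Int.ediv_eq_zero_of_lt hx.2.1 hx.2.2, zero_add]
    rw [this]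
    exact hx.1
  · intro k hk
    rw [Finset.mem_product, Finset.mem_Ico]
    exact ⟨(sb_idx_refine τ e I h k).1 hk, Int.emod_nonneg _ hp.ne', Int.emod_lt_of_pos _ hp⟩
  · rintro ⟨n, a⟩ hx
    rw [Finset.mem_product, Finset.mem_Ico] at hx
    simp only at hx ⊢
    have e1 : (2 ^ e * n + a) / 2 ^ e = n := by
      rw [Int.add_comm, Int.add_mul_ediv_left _ _ hp.ne', Int.ediv_eq_zero_of_lt hx.2.1 hx.2.2, zero_add]
    have e2 : (2 ^ e * n + a) % 2 ^ e = a := by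
      rw [Int.add_comm, Int.add_mul_emod_self_left, Int.emod_eq_of_lt hx.2.1 hx.2.2]
    rw [e1, e2]
  · intro k _
    exact Int.mul_ediv_add_emod k (2 ^ e)
  · intro x _
    rfl

theorem sb_sum_sum_eq {A B : Finset ℤ} (T : ℤ → ℤ → ℂ) (hA0 : ∀ k0 k1, k0 ∉ A → T k0 k1 = 0) (hA1 : ∀ k0 k1, k1 ∉ A → T k0 k1 = 0)
    (hB0 : ∀ k0 k1, k0 ∉ B → T k0 k1 = 0) (hB1 : ∀ k0 k1, k1 ∉ B → T k0 k1 = 0) :
    ∑ k0 ∈ A, ∑ k1 ∈ A, T k0 k1 = ∑ k0 ∈ B, ∑ k1 ∈ B, T k0 k1 := by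
  classical
  have h1 : ∑ k0 ∈ A, ∑ k1 ∈ A, T k0 k1 = ∑ k0 ∈ A ∪ B, ∑ k1 ∈ A ∪ B, T k0 k1 := by
    rw [← Finset.sum_subset Finset.subset_union_left (fun k0 _ h => Finset.sum_eq_zero fun k1 _ => hA0 k0 k1 h)]
    refine Finset.sum_congr rfl fun k0 _ => ?_
    rw [← Finset.sum_subset Finset.subset_union_left (fun k1 _ h => hA1 k0 k1 h)]
  have h2 : ∑ k0 ∈ B, ∑ k1 ∈ B, T k0 k1 = ∑ k0 ∈ A ∪ B, ∑ k1 ∈ A ∪ B, T k0 k1 := by
    rw [← Finset.sum_subset Finset.subset_union_right (fun k0 _ h => Finset.sum_eq_zero fun k1 _ => hB0 k0 k1 h)]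
    refine Finset.sum_congr rfl fun k0 _ => ?_
    rw [← Finset.sum_subset Finset.subset_union_right (fun k1 _ h => hB1 k0 k1 h)]
  rw [h1, h2]

/-- the fine sum of one shift in terms of the lifted functions. -/
theorem sb_fine_sum {c0 C0 : ℝ} {I : Cell} {w : ℝ × ℝ → ℂ}
    (hw : Admissible c0 C0 I w) (b0 : ℕ) (hb0 : 4 ≤ c0 * 2 ^ b0) (t : ℤ) (hI : I.depth < t) (e M : ℕ) [NeZero M] (hM : 16 * 2 ^ e < M)
    (Z : Fin 4 → ℤ → ℂ) (Fall : Finset ℤ) (hZ : ∀ j k, k ∉ Fall → Z j k = 0) (κ : ℤ × ℤ) :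
    ∑ k0 ∈ Fall, ∑ k1 ∈ Fall, w (sbDel (t + b0) * ((k0 / 2 ^ e : ℤ) : ℝ), sbDel (t + b0) * (((k1 / 2 ^ e : ℤ) : ℝ) - ((k0 / 2 ^ e : ℤ) : ℝ))) *
        ∏ j : Fin 4, Z j (sbAp k0 k1 j + sbSh κ j)
      = ∑ n0 ∈ sbIdx (t + b0) I, ∑ n1 ∈ sbIdx (t + b0) I, w (sbDel (t + b0) * n0, sbDel (t + b0) * (n1 - n0)) *
          ∑ u : ZMod M, ∑ v : ZMod M, ∏ j : Fin 4, sbLift e M κ Z j (sbAp n0 n1 j) (sbAp u v j) := by
  have hp : (0 : ℤ) < 2 ^ e := by positivity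
  have hτ : I.depth ≤ t + b0 := by omega
  have hOm : ∀ k0 k1 : ℤ, (k0 ∉ sbIdx (t + b0 + e) I ∨ k1 ∉ sbIdx (t + b0 + e) I) →
      w (sbDel (t + b0) * ((k0 / 2 ^ e : ℤ) : ℝ), sbDel (t + b0) * (((k1 / 2 ^ e : ℤ) : ℝ) - ((k0 / 2 ^ e : ℤ) : ℝ))) = 0 := by
    intro k0 k1 h
    by_contra hne
    have h0 := sb_inn_subset_idx _ _ (sb_ker_inn hw b0 hb0 t hI _ _ hne 0)
    have h1 := sb_inn_subset_idx _ _ (sb_ker_inn hw b0 hb0 t hI _ _ hne 1)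
    have e0 : sbAp (k0 / 2 ^ e) (k1 / 2 ^ e) 0 = k0 / 2 ^ e := by simp [sbAp]
    have e1 : sbAp (k0 / 2 ^ e) (k1 / 2 ^ e) 1 = k1 / 2 ^ e := by simp [sbAp]
    rw [e0, ← sb_idx_refine _ e I hτ] at h0
    rw [e1, ← sb_idx_refine _ e I hτ] at h1
    rcases h with h | h
    · exact h h0
    · exact h h1
  rw [sb_sum_sum_eq (A := Fall) (B := sbIdx (t + b0 + e) I) _
    (fun k0 k1 h => by rw [sb_prod_zero0 Z Fall hZ k0 k1 κ h, mul_zero])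
    (fun k0 k1 h => by rw [sb_prod_zero1 Z Fall hZ k0 k1 κ h, mul_zero])
    (fun k0 k1 h => by rw [hOm k0 k1 (Or.inl h), zero_mul])
    (fun k0 k1 h => by rw [hOm k0 k1 (Or.inr h), zero_mul])]
  rw [sb_idx_regroup (t + b0) e I hτ]
  refine Finset.sum_congr rfl fun n0 _ => ?_
  simp_rw [sb_idx_regroup (t + b0) e I hτ]
  rw [Finset.sum_comm]
  refine Finset.sum_congr rfl fun n1 _ => ?_
  rw [← sb_lift_sum e M hM κ Z (fun j => sbAp n0 n1 j), Finset.mul_sum]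
  refine Finset.sum_congr rfl fun a0 h0 => ?_
  rw [Finset.mul_sum]
  refine Finset.sum_congr rfl fun a1 h1 => ?_
  rw [Finset.mem_Ico] at h0 h1
  have d0 : (2 ^ e * n0 + a0) / 2 ^ e = n0 := by
    rw [Int.add_comm, Int.add_mul_ediv_left _ _ hp.ne', Int.ediv_eq_zero_of_lt h0.1 h0.2, zero_add]
  have d1 : (2 ^ e * n1 + a1) / 2 ^ e = n1 := by
    rw [Int.add_comm, Int.add_mul_ediv_left _ _ hp.ne', Int.ediv_eq_zero_of_lt h1.1 h1.2, zero_add]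
  rw [d0, d1]
  congr 1
  refine Finset.prod_congr rfl fun j _ => ?_
  congr 2
  unfold sbAp
  ring

/-- the form with the sampled kernel and step inputs, in terms of the discrete forms. -/
theorem sb_ker_disc {Kp : Finset (ℤ × ℤ)} {α : ℤ × ℤ → ℝ} (hα : SbShiftWeights Kp α) {c0 C0 : ℝ} {I : Cell} {w : ℝ × ℝ → ℂ}
    (hw : Admissible c0 C0 I w) (b0 : ℕ) (hb0 : 4 ≤ c0 * 2 ^ b0) (t : ℤ) (hI : I.depth < t) (e M : ℕ) [NeZero M] (hM : 16 * 2 ^ e < M)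
    (Z : Fin 4 → ℤ → ℂ) (Fall : Finset ℤ) (hZ : ∀ j k, k ∉ Fall → Z j k = 0) :
    (((I.len ^ 2)⁻¹ : ℝ) : ℂ) * ∫ p : ℝ × ℝ, sbKer (t + b0) w p * ∏ j : Fin 4, sbStep (t + b0 + e) (Z j) (p.1 + ((j : ℕ) : ℝ) * p.2)
      = ∑ κ ∈ Kp, (α κ : ℂ) * (((((M : ℝ) / 2 ^ e) ^ 2 : ℝ) : ℂ) * sbDisc (t + b0) M I w (sbLift e M κ Z)) := by
  have hker : ∀ p : ℝ × ℝ, sbKer (t + b0) w p = w (sbDel (t + b0) * ((⌊p.1 * (2 : ℝ) ^ (t + b0 + e)⌋ / 2 ^ e : ℤ) : ℝ),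
      sbDel (t + b0) * (((⌊(p.1 + p.2) * (2 : ℝ) ^ (t + b0 + e)⌋ / 2 ^ e : ℤ) : ℝ) - ((⌊p.1 * (2 : ℝ) ^ (t + b0 + e)⌋ / 2 ^ e : ℤ) : ℝ))) := by
    intro p
    unfold sbKer
    rw [sb_floor_refine (t + b0) e p.1, sb_floor_refine (t + b0) e (p.1 + p.2)]
  have key := hα.2.2.2 (t + b0 + e) (fun k : ℤ × ℤ => w (sbDel (t + b0) * ((k.1 / 2 ^ e : ℤ) : ℝ),
      sbDel (t + b0) * (((k.2 / 2 ^ e : ℤ) : ℝ) - ((k.1 / 2 ^ e : ℤ) : ℝ)))) Z Fall hZ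
  simp only at key
  simp_rw [hker]
  rw [key, Finset.mul_sum, Finset.mul_sum]
  refine Finset.sum_congr rfl fun κ _ => ?_
  rw [sb_fine_sum hw b0 hb0 t hI e M hM Z Fall hZ κ]
  unfold sbDisc sbSamp
  have hM0 : (M : ℂ) ≠ 0 := by exact_mod_cast (NeZero.ne M)
  have hl : (I.len : ℂ) ≠ 0 := by exact_mod_cast (cell_len_pos I).ne'
  have hd : sbDel (t + b0) = 2 ^ e * sbDel (t + b0 + e) := sb_del_add (t + b0) e
  have swap : ∑ u : ZMod M, ∑ v : ZMod M, (((sbDel (t + b0) / I.len) ^ 2 : ℝ) : ℂ) * ∑ n0 ∈ sbIdx (t + b0) I, ∑ n1 ∈ sbIdx (t + b0) I,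
      w (sbDel (t + b0) * n0, sbDel (t + b0) * (n1 - n0)) * ∏ j : Fin 4, sbLift e M κ Z j (sbAp n0 n1 j) (sbAp u v j)
      = (((sbDel (t + b0) / I.len) ^ 2 : ℝ) : ℂ) * ∑ n0 ∈ sbIdx (t + b0) I, ∑ n1 ∈ sbIdx (t + b0) I, w (sbDel (t + b0) * n0, sbDel (t + b0) * (n1 - n0)) *
          ∑ u : ZMod M, ∑ v : ZMod M, ∏ j : Fin 4, sbLift e M κ Z j (sbAp n0 n1 j) (sbAp u v j) := by
    simp only [Finset.mul_sum]
    calc _ = ∑ u : ZMod M, ∑ n0 ∈ sbIdx (t + b0) I, ∑ v : ZMod M, ∑ n1 ∈ sbIdx (t + b0) I, _ :=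
          Finset.sum_congr rfl fun u _ => Finset.sum_comm
      _ = ∑ n0 ∈ sbIdx (t + b0) I, ∑ u : ZMod M, ∑ v : ZMod M, ∑ n1 ∈ sbIdx (t + b0) I, _ := Finset.sum_comm
      _ = ∑ n0 ∈ sbIdx (t + b0) I, ∑ u : ZMod M, ∑ n1 ∈ sbIdx (t + b0) I, ∑ v : ZMod M, _ :=
          Finset.sum_congr rfl fun n0 _ => Finset.sum_congr rfl fun u _ => Finset.sum_comm
      _ = _ := Finset.sum_congr rfl fun n0 _ => Finset.sum_comm
  rw [swap, hd]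
  push_cast
  have h2 : (2 : ℂ) ^ e ≠ 0 := pow_ne_zero _ (by norm_num)
  field_simp

end Claimed.Agent.R258
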