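/-
Row 258, block [S7b] (architect: helper243).  FILE Cont: ONE RECTANGLE, STEP INPUTS: continuous form -> discrete core (sides.tex l.200-250).
Leaves: P-SB-CO1 (`sb_sker_diff`, `sb_sker_supp`), P-SB-CO2 (`sb_err1`), P-SB-CO3 (`sb_err_sum_step`).   `sb_cont` is assembled by the architect.

`τ = t + b0`, `δ = sbDel τ`.
* `sb_sker_diff`: `sbKer τ w p = w p'` with `p' = (δ ⌊p.1/δ⌋, δ (⌊(p.1+p.2)/δ⌋ - ⌊p.1/δ⌋))`, `|p.1 - p'.1| < δ`, `|p.2 - p'.2| < δ` (difference of two fractional parts times `δ`), sup norm, `sb_ker_lip`.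
* `sb_sker_supp`: if `w p ≠ 0` use `Admissible.supp` (`0 < c0`).  If `w p' ≠ 0`: `sb_ker_deep` for `p'` and `|(p.1 + j p.2) - (p'.1 + j p'.2)| < 4 δ`.
* `sb_err1`: `form - |I|⁻² ∫ sbKer .. = |I|⁻² ∫ (w - sbKer τ w) ∏ ..` (`integral_sub`; integrability: `sb_step_integrable`, `sb_int_integrable` with `sb_sker_measurable`); `sb_int_le` with `B = |I|⁻¹ B1 δ`;
  `sb_step_sq_integral`;  `|I|⁻² ∏_j √(x_j) = ∏_j √(|I|⁻¹ x_j)`.
* `sb_err_sum_step`: per cell `sb_prod_sqrt_mom` (`c = |I|⁻¹`, `N = sbIdx ℓ I`, `f σ j k = μ ‖Z σ j k‖²`, `g = ρ`, `hloc` = field `loc`); then `∑_I (δ/|I|) √(ρ_a(I) ρ_b(I)) ≤ √(E a E b)` by `sb_cs_cover`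
  (`lam I = δ/|I|`, `hcov`: `sb_cover_le` at the mesh `ℓ`, `δ 2^t ≤ 1`; `hN` = field `sub`), field `tot`.
-/
import Claimed.Agent.R258.Pack024
import Claimed.Agent.R258.S7b.Lift
import Claimed.Agent.R258.S7b.StepForm

set_option autoImplicit false
open MeasureTheory
open scoped ENNReal

namespace Claimed.Agent.R258

theorem sb_sker_near (τ : ℤ) (p : ℝ × ℝ) :
    |p.1 - sbDel τ * (⌊p.1 * (2 : ℝ) ^ τ⌋ : ℝ)| < sbDel τ ∧
    |p.2 - sbDel τ * ((⌊(p.1 + p.2) * (2 : ℝ) ^ τ⌋ : ℝ) - ⌊p.1 * (2 : ℝ) ^ τ⌋)| < sbDel τ := by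
  have hd := sb_del_pos τ
  have h1 := sb_del_mul_zpow τ
  set a := p.1 * (2 : ℝ) ^ τ with ha
  set b := (p.1 + p.2) * (2 : ℝ) ^ τ with hb
  have e1 : p.1 = sbDel τ * a := by rw [ha, mul_comm p.1, ← mul_assoc, h1, one_mul]
  have e2 : p.1 + p.2 = sbDel τ * b := by rw [hb, mul_comm (p.1 + p.2), ← mul_assoc, h1, one_mul]
  have e3 : p.2 = sbDel τ * (b - a) := by linarith
  have a1 := Int.floor_le a
  have a2 := Int.lt_floor_add_one a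
  have b1 := Int.floor_le b
  have b2 := Int.lt_floor_add_one b
  constructor
  · rw [e1, ← mul_sub, abs_mul, abs_of_pos hd]
    have : |a - ⌊a⌋| < 1 := by rw [abs_lt]; constructor <;> linarith
    nlinarith
  · rw [e3, ← mul_sub, abs_mul, abs_of_pos hd]
    have : |b - a - ((⌊b⌋ : ℝ) - ⌊a⌋)| < 1 := by rw [abs_lt]; constructor <;> linarith
    nlinarith

theorem sb_sker_diff {c0 C0 : ℝ} {I : Cell} {w : ℝ × ℝ → ℂ} (hw : Admissible c0 C0 I w) (hC0 : 1 ≤ C0) (τ : ℤ) (p : ℝ × ℝ) :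
    ‖w p - sbKer τ w p‖ ≤ I.len⁻¹ * sbB1 C0 * sbDel τ := by
  unfold sbKer
  refine (sb_ker_lip hw _ _).trans ?_
  have hB := sb_B1_one_le C0 hC0
  have hl := cell_len_pos I
  refine mul_le_mul_of_nonneg_left ?_ (by positivity)
  obtain ⟨h1, h2⟩ := sb_sker_near τ p
  rw [Prod.norm_def]
  exact max_le h1.le h2.le

theorem sb_sker_supp {c0 C0 : ℝ} (hc0 : 0 < c0) {I : Cell} {w : ℝ × ℝ → ℂ} (hw : Admissible c0 C0 I w) (b0 : ℕ) (hb0 : 4 ≤ c0 * 2 ^ b0) (t : ℤ)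
    (hI : I.depth < t) (p : ℝ × ℝ) (hp : w p ≠ 0 ∨ sbKer (t + b0) w p ≠ 0) (j : Fin 4) : p.1 + ((j : ℕ) : ℝ) * p.2 ∈ I.set := by
  have hd := sb_del_pos (t + b0)
  rcases hp with hp | hp
  · have := sb_ker_deep hw b0 hb0 t hI p hp j
    exact ⟨by linarith [this.1], by linarith [this.2]⟩
  · unfold sbKer at hp
    have := sb_ker_deep hw b0 hb0 t hI _ hp j
    simp only at this
    obtain ⟨h1, h2⟩ := sb_sker_near (t + b0) p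
    rw [abs_lt] at h1 h2
    have hj0 : (0 : ℝ) ≤ ((j : ℕ) : ℝ) := Nat.cast_nonneg _
    have hj3 : ((j : ℕ) : ℝ) ≤ 3 := by
      have : (j : ℕ) ≤ 3 := by omega
      exact_mod_cast this
    set X := sbDel (t + b0) * (⌊p.1 * (2 : ℝ) ^ (t + b0)⌋ : ℝ)
    set Y := sbDel (t + b0) * ((⌊(p.1 + p.2) * (2 : ℝ) ^ (t + b0)⌋ : ℝ) - ⌊p.1 * (2 : ℝ) ^ (t + b0)⌋)
    constructor
    · nlinarith [this.1, h1.1, h2.1]
    · nlinarith [this.2, h1.2, h2.2]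

/-- the first sampling error of one cell. -/
theorem sb_err1 {c0 C0 : ℝ} (hc0 : 0 < c0) {I : Cell} {w : ℝ × ℝ → ℂ} (hw : Admissible c0 C0 I w) (hC0 : 1 ≤ C0) (b0 : ℕ) (hb0 : 4 ≤ c0 * 2 ^ b0) (t : ℤ)
    (hI : I.depth < t) (ℓ : ℤ) (hℓ : t + b0 ≤ ℓ) (Z : Fin 4 → ℤ → ℂ) :
    ‖form I w (fun j => sbStep ℓ (Z j))
        - (((I.len ^ 2)⁻¹ : ℝ) : ℂ) * ∫ p : ℝ × ℝ, sbKer (t + b0) w p * ∏ j : Fin 4, sbStep ℓ (Z j) (p.1 + ((j : ℕ) : ℝ) * p.2)‖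
      ≤ sbB1 C0 * (sbDel (t + b0) / I.len * ∏ j : Fin 4, Real.sqrt (I.len⁻¹ * ∑ k ∈ sbIdx ℓ I, sbDel ℓ * ‖Z j k‖ ^ 2)) := by
  have hl := cell_len_pos I
  have hd := sb_del_pos (t + b0)
  have hB := sb_B1_one_le C0 hC0
  have i1 := sb_step_integrable hc0 hw ℓ Z
  have i2 : Integrable (fun p : ℝ × ℝ => sbKer (t + b0) w p * ∏ j : Fin 4, sbStep ℓ (Z j) (p.1 + ((j : ℕ) : ℝ) * p.2)) :=
    sb_int_integrable I (sbKer (t + b0) w) (sb_sker_measurable _ w (sb_ker_cont hw)) (sbB0 C0) (fun p => sb_ker_bound hw _)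
      (fun p hp j => sb_sker_supp hc0 hw b0 hb0 t hI p (Or.inr hp) j) _ (fun j => sb_step_measurable ℓ (Z j))
      (fun j => sb_step_sq_integrableOn ℓ (Z j) I)
  have e1 : form I w (fun j => sbStep ℓ (Z j))
        - (((I.len ^ 2)⁻¹ : ℝ) : ℂ) * ∫ p : ℝ × ℝ, sbKer (t + b0) w p * ∏ j : Fin 4, sbStep ℓ (Z j) (p.1 + ((j : ℕ) : ℝ) * p.2)
      = (((I.len ^ 2)⁻¹ : ℝ) : ℂ) * ∫ p : ℝ × ℝ, (w p - sbKer (t + b0) w p) * ∏ j : Fin 4, sbStep ℓ (Z j) (p.1 + ((j : ℕ) : ℝ) * p.2) := by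
    unfold form
    rw [← mul_sub, ← integral_sub i1 i2]
    congr 2
    funext p
    ring
  rw [e1, norm_mul, Complex.norm_real, Real.norm_eq_abs, abs_of_pos (by positivity)]
  have h2 := sb_int_le I (fun p => w p - sbKer (t + b0) w p) (I.len⁻¹ * sbB1 C0 * sbDel (t + b0)) (by positivity)
    (fun p => sb_sker_diff hw hC0 _ p)
    (fun p hp j => sb_sker_supp hc0 hw b0 hb0 t hI p (by
      by_contra hcon
      push Not at hcon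
      exact hp (by simp only [hcon.1, hcon.2, sub_zero])) j)
    (fun j => sbStep ℓ (Z j)) (fun j => sb_step_measurable ℓ (Z j)) (fun j => sb_step_sq_integrableOn ℓ (Z j) I)
  refine (mul_le_mul_of_nonneg_left h2 (by positivity)).trans (le_of_eq ?_)
  have e2 : ∀ j : Fin 4, Real.sqrt (I.len⁻¹ * ∑ k ∈ sbIdx ℓ I, sbDel ℓ * ‖Z j k‖ ^ 2)
      = Real.sqrt (I.len⁻¹) * Real.sqrt (∫ y in I.set, ‖sbStep ℓ (Z j) y‖ ^ 2) := by
    intro j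
    rw [sb_step_sq_integral ℓ (Z j) I (by omega), ← Finset.mul_sum, Real.sqrt_mul (by positivity)]
  simp only [e2]
  rw [Finset.prod_mul_distrib, Finset.prod_const, Finset.card_univ, Fintype.card_fin]
  have e3 : Real.sqrt (I.len⁻¹) ^ 4 = (I.len ^ 2)⁻¹ := by
    have : Real.sqrt (I.len⁻¹) ^ 2 = I.len⁻¹ := Real.sq_sqrt (by positivity)
    calc Real.sqrt (I.len⁻¹) ^ 4 = (Real.sqrt (I.len⁻¹) ^ 2) ^ 2 := by ring
      _ = _ := by rw [this, inv_pow]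
  rw [e3]
  field_simp

/-- the sum of the first sampling errors. -/
theorem sb_err_sum_step {c0 C0 : ℝ} {t ℓ : ℤ} {S : Finset Cell} {w : Cell → ℝ × ℝ → ℂ} {Ω : Type} [Fintype Ω] {pr : Ω → ℝ}
    {Z : Ω → Fin 4 → ℤ → ℂ} {ρ : Fin 4 → ℤ → ℝ} {a b : Fin 4} {Cm : ℝ} {Fall : Finset ℤ} {E : Fin 4 → ℝ}
    (h : SbStepHyp c0 C0 t ℓ S w pr Z ρ a b Cm Fall E) (hCm : 0 ≤ Cm) (b0 : ℕ) (hℓ : t + b0 ≤ ℓ) :
    ∑ σ, pr σ * ∑ I ∈ S, I.len * (sbDel (t + b0) / I.len * ∏ j : Fin 4, Real.sqrt (I.len⁻¹ * ∑ k ∈ sbIdx ℓ I, sbDel ℓ * ‖Z σ j k‖ ^ 2))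
      ≤ Cm ^ 4 * Real.sqrt (E a * E b) := by
  classical
  set τ := t + b0 with hτ
  have hδ := sb_del_pos τ
  have hμ := sb_del_pos ℓ
  have hlen : ∀ I : Cell, 0 < I.len := fun I => cell_len_pos I
  have hcell : ∀ I ∈ S, ∑ σ, pr σ * ∏ j : Fin 4, Real.sqrt (I.len⁻¹ * ∑ k ∈ sbIdx ℓ I, sbDel ℓ * ‖Z σ j k‖ ^ 2)
      ≤ Cm ^ 4 * (I.len⁻¹ * Real.sqrt ((∑ k ∈ sbIdx ℓ I, ρ a k) * ∑ k ∈ sbIdx ℓ I, ρ b k)) := by
    intro I hI
    refine sb_prod_sqrt_mom pr h.pr_nonneg h.pr_sum (sbIdx ℓ I) (I.len⁻¹) Cm (inv_pos.2 (hlen I)).le hCm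
      (fun σ j k => sbDel ℓ * ‖Z σ j k‖ ^ 2) ρ (fun σ j k _ => by positivity) (fun j k _ => h.ρ_nonneg j k)
      (fun j k _ => h.mom j k) a b h.ab (fun j => ?_)
    rw [inv_mul_le_iff₀ (hlen I), mul_one]
    exact h.loc I hI j
  have e1 : ∑ σ, pr σ * ∑ I ∈ S, I.len * (sbDel τ / I.len * ∏ j : Fin 4, Real.sqrt (I.len⁻¹ * ∑ k ∈ sbIdx ℓ I, sbDel ℓ * ‖Z σ j k‖ ^ 2))
      = ∑ I ∈ S, sbDel τ * ∑ σ, pr σ * ∏ j : Fin 4, Real.sqrt (I.len⁻¹ * ∑ k ∈ sbIdx ℓ I, sbDel ℓ * ‖Z σ j k‖ ^ 2) := by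
    simp_rw [Finset.mul_sum]
    rw [Finset.sum_comm]
    refine Finset.sum_congr rfl fun I _ => Finset.sum_congr rfl fun σ _ => ?_
    have := (hlen I).ne'
    field_simp
  have hcov : ∀ n ∈ Fall, ∑ I ∈ S.filter (fun I => n ∈ sbIdx ℓ I), sbDel τ / I.len ≤ 1 := by
    intro n _
    have h1 := sb_cover_le S t ℓ (by have : (0 : ℤ) ≤ (b0 : ℤ) := Int.natCast_nonneg b0; omega) h.depth_lt n
    have e : ∑ I ∈ S.filter (fun I => n ∈ sbIdx ℓ I), sbDel τ / I.len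
        = sbDel τ * ∑ I ∈ S.filter (fun I => n ∈ sbIdx ℓ I), I.len⁻¹ := by
      rw [Finset.mul_sum]
      exact Finset.sum_congr rfl fun I _ => div_eq_mul_inv _ _
    rw [e]
    calc sbDel τ * ∑ I ∈ S.filter (fun I => n ∈ sbIdx ℓ I), I.len⁻¹ ≤ sbDel τ * (2 : ℝ) ^ t :=
          mul_le_mul_of_nonneg_left h1 hδ.le
      _ = (2 : ℝ) ^ (-(b0 : ℤ)) := by
          unfold sbDel
          rw [← zpow_add₀ (by norm_num)]
          congr 1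
          rw [hτ]; ring
      _ ≤ 1 := by
          rw [zpow_neg, zpow_natCast]
          exact inv_le_one_of_one_le₀ (one_le_pow₀ (by norm_num))
  have hcs := sb_cs_cover S Fall (fun I => sbIdx ℓ I) (fun I => sbDel τ / I.len) (ρ a) (ρ b)
    (fun I _ => div_nonneg hδ.le (hlen I).le) (fun n _ => h.ρ_nonneg a n)
    (fun n _ => h.ρ_nonneg b n) h.sub (by
      intro n hn
      convert hcov n hn)
  rw [e1]
  calc ∑ I ∈ S, sbDel τ * ∑ σ, pr σ * ∏ j : Fin 4, Real.sqrt (I.len⁻¹ * ∑ k ∈ sbIdx ℓ I, sbDel ℓ * ‖Z σ j k‖ ^ 2)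
      ≤ ∑ I ∈ S, sbDel τ * (Cm ^ 4 * (I.len⁻¹ * Real.sqrt ((∑ k ∈ sbIdx ℓ I, ρ a k) * ∑ k ∈ sbIdx ℓ I, ρ b k))) :=
        Finset.sum_le_sum fun I hI => mul_le_mul_of_nonneg_left (hcell I hI) hδ.le
    _ = Cm ^ 4 * ∑ I ∈ S, sbDel τ / I.len * Real.sqrt ((∑ k ∈ sbIdx ℓ I, ρ a k) * ∑ k ∈ sbIdx ℓ I, ρ b k) := by
        rw [Finset.mul_sum]
        refine Finset.sum_congr rfl fun I _ => ?_
        rw [div_eq_mul_inv]
        ring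
    _ ≤ Cm ^ 4 * Real.sqrt ((∑ k ∈ Fall, ρ a k) * ∑ k ∈ Fall, ρ b k) :=
        mul_le_mul_of_nonneg_left hcs (by positivity)
    _ ≤ Cm ^ 4 * Real.sqrt (E a * E b) := by
        refine mul_le_mul_of_nonneg_left (Real.sqrt_le_sqrt ?_) (by positivity)
        exact mul_le_mul (h.tot a) (h.tot b) (Finset.sum_nonneg fun n _ => h.ρ_nonneg b n)
          (le_trans (Finset.sum_nonneg fun n _ => h.ρ_nonneg a n) (h.tot a))

theorem sb_prime (e : ℕ) : ∃ M : ℕ, M.Prime ∧ 16 * 2 ^ e < M ∧ M ≤ 32 * 2 ^ e := by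
  obtain ⟨p, hp, h1, h2⟩ := Nat.exists_prime_lt_and_le_two_mul (16 * 2 ^ e) (by positivity)
  exact ⟨p, hp, h1, by omega⟩

theorem sb_bd_nonneg (q CN A V : ℝ) (a b : Fin 4) (E : Fin 4 → ℝ) (hCN : 0 ≤ CN) (hA : 0 < A) (hV : 0 ≤ V) (hE : ∀ j, 0 ≤ E j) :
    0 ≤ sbBd q CN A V a b E := by
  unfold sbBd
  have h1 : 0 ≤ Real.sqrt (E a * E b) := Real.sqrt_nonneg _
  have h2 : 0 ≤ V / A := by positivity
  have h3 : 0 ≤ CN * (A ^ (1 - 2 / sbP q) * ∏ j : Fin 4, E j ^ (1 / sbPj q a b j)) :=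
    mul_nonneg hCN (mul_nonneg (Real.rpow_nonneg hA.le _) (Finset.prod_nonneg fun j _ => Real.rpow_nonneg (hE j) _))
  linarith

theorem sb_sqrt_le_bd (q CN A V : ℝ) (a b : Fin 4) (E : Fin 4 → ℝ) (hCN : 0 ≤ CN) (hA : 0 < A) (hV : 0 ≤ V) (hE : ∀ j, 0 ≤ E j) :
    Real.sqrt (E a * E b) ≤ sbBd q CN A V a b E := by
  unfold sbBd
  have h2 : 0 ≤ V / A := by positivity
  have h3 : 0 ≤ CN * (A ^ (1 - 2 / sbP q) * ∏ j : Fin 4, E j ^ (1 / sbPj q a b j)) :=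
    mul_nonneg hCN (mul_nonneg (Real.rpow_nonneg hA.le _) (Finset.prod_nonneg fun j _ => Real.rpow_nonneg (hE j) _))
  linarith

/-- ONE RECTANGLE, STEP INPUTS. -/
theorem sb_cont (c0 C0 : ℝ) (hc0 : 0 < c0) (hC0 : 1 ≤ C0) (b0 : ℕ) (hb0 : 4 ≤ c0 * 2 ^ b0) (hb3 : 3 ≤ b0) (q : ℝ) (hq : 2 < q) (hq3 : q < 3)
    (Cm : ℝ) (hCm : 1 ≤ Cm) :
    ∃ Cq : ℝ, 0 < Cq ∧ ∀ (N : ℕ) (CN : ℝ) (s0 : ℤ), 0 ≤ CN → LocalBound c0 C0 q N CN →
    ∀ (t ℓ : ℤ), t + b0 ≤ ℓ → ∀ (S : Finset Cell) (w : Cell → ℝ × ℝ → ℂ) (Ω : Type) [Fintype Ω] (pr : Ω → ℝ)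
      (Z : Ω → Fin 4 → ℤ → ℂ) (ρ : Fin 4 → ℤ → ℝ) (a b : Fin 4) (Fall : Finset ℤ) (E : Fin 4 → ℝ),
      SbStepHyp c0 C0 t ℓ S w pr Z ρ a b Cm Fall E → (∀ I ∈ S, s0 ≤ I.depth ∧ I.depth < s0 + N) →
    ∀ (A V : ℝ), 1 ≤ A → ∑ I ∈ S, I.len ≤ V → ∀ sgn : Ω → Cell → ℂ, (∀ σ I, ‖sgn σ I‖ ≤ 1) →
      ∑ σ, pr σ * ‖∑ I ∈ S, (I.len : ℂ) * sgn σ I * form I (w I) (fun j => sbStep ℓ (Z σ j))‖ ≤ Cq * sbBd q CN A V a b E := by
  obtain ⟨C1, hC1, hdisc⟩ := sb_disc c0 C0 hC0 b0 hb0 q hq hq3 Cm hCm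
  obtain ⟨Kp, α, hα⟩ := sb_step_form
  have hB1 := sb_B1_one_le C0 hC0
  have hCm0 : 0 ≤ Cm := by linarith
  refine ⟨sbB1 C0 * Cm ^ 4 + 1024 * C1, by positivity, ?_⟩
  intro N CN s0 hCN hLB t ℓ hℓ S w Ω _ pr Z ρ a b Fall E hyp hS A V hA hV sgn hsgn
  obtain ⟨e, rfl⟩ : ∃ e : ℕ, ℓ = t + b0 + e := ⟨(ℓ - (t + b0)).toNat, by omega⟩
  obtain ⟨M, hp, hM1, hM2⟩ := sb_prime e
  have : NeZero M := ⟨hp.ne_zero⟩
  have hA0 : 0 < A := by linarith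
  have hlen : ∀ I : Cell, 0 ≤ I.len := fun I => by unfold Cell.len; positivity
  have hV0 : 0 ≤ V := le_trans (Finset.sum_nonneg fun I _ => hlen I) hV
  have hE : ∀ j, 0 ≤ E j := fun j => le_trans (Finset.sum_nonneg fun k _ => hyp.ρ_nonneg j k) (hyp.tot j)
  have hbd := sb_bd_nonneg q CN A V a b E hCN hA0 hV0 hE
  set cM : ℝ := ((M : ℝ) / 2 ^ e) ^ 2 with hcM
  have hcM0 : 0 ≤ cM := by positivity
  have hcM1 : cM ≤ 1024 := by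
    have h1 : (M : ℝ) ≤ 32 * 2 ^ e := by exact_mod_cast hM2
    have h2 : (M : ℝ) / 2 ^ e ≤ 32 := by
      rw [div_le_iff₀ (by positivity)]
      exact h1
    have h3 : 0 ≤ (M : ℝ) / 2 ^ e := by positivity
    rw [hcM]
    nlinarith
  -- the discrete core for every shift
  have D : ∀ κ ∈ Kp, ∑ σ, pr σ * ‖∑ I ∈ S, (I.len : ℂ) * sgn σ I * sbDisc (t + b0) M I (w I) (sbLift e M κ (Z σ))‖
      ≤ C1 * sbBd q CN A V a b E := fun κ hκ =>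
    hdisc N CN s0 hCN hLB t S w Ω pr M (fun σ => sbLift e M κ (Z σ)) _ a b _ E
      (sb_lift_hyp hb3 hyp M hp hM1 κ (hα.2.2.1 κ hκ)) hS A V hA hV sgn hsgn
  have E1 := sb_err_sum_step hyp hCm0 b0 hℓ
  -- per `σ`
  have step : ∀ σ, ‖∑ I ∈ S, (I.len : ℂ) * sgn σ I * form I (w I) (fun j => sbStep (t + b0 + e) (Z σ j))‖ ≤
      sbB1 C0 * ∑ I ∈ S, I.len * (sbDel (t + b0) / I.len *
        ∏ j : Fin 4, Real.sqrt (I.len⁻¹ * ∑ k ∈ sbIdx (t + b0 + e) I, sbDel (t + b0 + e) * ‖Z σ j k‖ ^ 2))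
      + ∑ κ ∈ Kp, α κ * (1024 * ‖∑ I ∈ S, (I.len : ℂ) * sgn σ I * sbDisc (t + b0) M I (w I) (sbLift e M κ (Z σ))‖) := by
    intro σ
    have e1 : ∀ I ∈ S, form I (w I) (fun j => sbStep (t + b0 + e) (Z σ j))
        = (form I (w I) (fun j => sbStep (t + b0 + e) (Z σ j)) - (((I.len ^ 2)⁻¹ : ℝ) : ℂ) * ∫ p : ℝ × ℝ, sbKer (t + b0) (w I) p *
            ∏ j : Fin 4, sbStep (t + b0 + e) (Z σ j) (p.1 + ((j : ℕ) : ℝ) * p.2))
          + ∑ κ ∈ Kp, (α κ : ℂ) * ((cM : ℂ) * sbDisc (t + b0) M I (w I) (sbLift e M κ (Z σ))) := by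
      intro I hI
      rw [← sb_ker_disc hα (hyp.adm I hI) b0 hb0 t (hyp.depth_lt I hI) e M hM1 (Z σ) Fall (hyp.Z_supp σ)]
      ring
    have e2 : ∑ I ∈ S, (I.len : ℂ) * sgn σ I * form I (w I) (fun j => sbStep (t + b0 + e) (Z σ j))
        = ∑ I ∈ S, (I.len : ℂ) * sgn σ I * (form I (w I) (fun j => sbStep (t + b0 + e) (Z σ j)) - (((I.len ^ 2)⁻¹ : ℝ) : ℂ) *
            ∫ p : ℝ × ℝ, sbKer (t + b0) (w I) p * ∏ j : Fin 4, sbStep (t + b0 + e) (Z σ j) (p.1 + ((j : ℕ) : ℝ) * p.2))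
          + ∑ κ ∈ Kp, (α κ : ℂ) * ((cM : ℂ) * ∑ I ∈ S, (I.len : ℂ) * sgn σ I * sbDisc (t + b0) M I (w I) (sbLift e M κ (Z σ))) := by
      rw [Finset.sum_congr rfl (fun I hI => by rw [e1 I hI])]
      simp only [mul_add, Finset.sum_add_distrib, Finset.mul_sum]
      congr 1
      rw [Finset.sum_comm]
      refine Finset.sum_congr rfl fun κ _ => Finset.sum_congr rfl fun I _ => ?_
      ring
    rw [e2]
    refine (norm_add_le _ _).trans (add_le_add ?_ ?_)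
    · rw [Finset.mul_sum]
      refine (norm_sum_le _ _).trans (Finset.sum_le_sum fun I hI => ?_)
      rw [norm_mul, norm_mul, Complex.norm_real, Real.norm_eq_abs, abs_of_nonneg (hlen I)]
      have h1 := sb_err1 hc0 (hyp.adm I hI) hC0 b0 hb0 t (hyp.depth_lt I hI) (t + b0 + e) hℓ (Z σ)
      have h2 := hsgn σ I
      have h3 : I.len * ‖sgn σ I‖ ≤ I.len := by
        have := mul_le_mul_of_nonneg_left h2 (hlen I)
        linarith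
      calc _ ≤ I.len * _ := mul_le_mul_of_nonneg_right h3 (norm_nonneg _)
        _ ≤ I.len * _ := mul_le_mul_of_nonneg_left h1 (hlen I)
        _ = _ := by ring
    · refine (norm_sum_le _ _).trans (Finset.sum_le_sum fun κ _ => ?_)
      rw [norm_mul, norm_mul, Complex.norm_real, Complex.norm_real, Real.norm_eq_abs, Real.norm_eq_abs,
        abs_of_nonneg (hα.1 κ), abs_of_nonneg hcM0]
      exact mul_le_mul_of_nonneg_left (mul_le_mul_of_nonneg_right hcM1 (norm_nonneg _)) (hα.1 κ)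
  calc ∑ σ, pr σ * ‖∑ I ∈ S, (I.len : ℂ) * sgn σ I * form I (w I) (fun j => sbStep (t + b0 + e) (Z σ j))‖
      ≤ ∑ σ, pr σ * (sbB1 C0 * ∑ I ∈ S, I.len * (sbDel (t + b0) / I.len *
        ∏ j : Fin 4, Real.sqrt (I.len⁻¹ * ∑ k ∈ sbIdx (t + b0 + e) I, sbDel (t + b0 + e) * ‖Z σ j k‖ ^ 2))
      + ∑ κ ∈ Kp, α κ * (1024 * ‖∑ I ∈ S, (I.len : ℂ) * sgn σ I * sbDisc (t + b0) M I (w I) (sbLift e M κ (Z σ))‖)) :=
        Finset.sum_le_sum fun σ _ => mul_le_mul_of_nonneg_left (step σ) (hyp.pr_nonneg σ)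
    _ = sbB1 C0 * (∑ σ, pr σ * ∑ I ∈ S, I.len * (sbDel (t + b0) / I.len *
        ∏ j : Fin 4, Real.sqrt (I.len⁻¹ * ∑ k ∈ sbIdx (t + b0 + e) I, sbDel (t + b0 + e) * ‖Z σ j k‖ ^ 2)))
      + ∑ κ ∈ Kp, α κ * (1024 * ∑ σ, pr σ * ‖∑ I ∈ S, (I.len : ℂ) * sgn σ I * sbDisc (t + b0) M I (w I) (sbLift e M κ (Z σ))‖) := by
        simp only [mul_add, Finset.sum_add_distrib]
        congr 1
        · rw [Finset.mul_sum]
          refine Finset.sum_congr rfl fun σ _ => ?_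
          ring
        · simp only [Finset.mul_sum]
          rw [Finset.sum_comm]
          refine Finset.sum_congr rfl fun κ _ => Finset.sum_congr rfl fun σ _ => ?_
          ring
    _ ≤ sbB1 C0 * (Cm ^ 4 * sbBd q CN A V a b E) + ∑ κ ∈ Kp, α κ * (1024 * (C1 * sbBd q CN A V a b E)) := by
        refine add_le_add (mul_le_mul_of_nonneg_left (E1.trans ?_) (by linarith)) (Finset.sum_le_sum fun κ hκ => ?_)
        · exact mul_le_mul_of_nonneg_left (sb_sqrt_le_bd q CN A V a b E hCN hA0 hV0 hE) (by positivity)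
        · exact mul_le_mul_of_nonneg_left (mul_le_mul_of_nonneg_left (D κ hκ) (by norm_num)) (hα.1 κ)
    _ = _ := by
        rw [← Finset.sum_mul, hα.2.1]
        ring

end Claimed.Agent.R258
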