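/-
Row 258, block [S7b] (architect: helper243).  FILE Rect: RECTANGLES OF LEAF DEPTHS (sides.tex l.165-195).  Pure combinatorics, paper-free, Mathlib only.
Leaves: P-SB-RECT1 (`sb_dyadic_pair`, `sb_rects_exists`), P-SB-RECT2 (`sb_rects_unique`), P-SB-RECT3 (`sb_rects_props`, `sb_rects_disj`, `sb_rects_card`, `sb_rects_fam`, `sb_size_le`).

The tuples `d : Fin 4 → ℕ`, `d j ≤ K`, are partitioned into the rectangles `∏_j r.D j`, `r ∈ sbRects K`:
* type A `(T, t)`, `2 ≤ #T`: the minimum `t` is attained exactly on `T`.     `D j = {t}` on `T`, `(t, K]` off `T`.   Family = `T`, position = `t`.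
* type B `(a, T, i, p)`, `T ≠ ∅`, `a ∉ T`: the minimum is attained only in the slot `a`; `(i,p)` is the unique pair with `d a / 2^i = 2 p`, `(second minimum) / 2^i = 2 p + 1`
  (`sb_dyadic_pair`); `T` = the slots with `d j / 2^i = 2 p + 1`; the other slots have `d j / 2^i ≥ 2 p + 2`.   Family = `(a, T, i)`, position = `p`.  Threshold `t = (2 p + 1) 2^i`.

PROOFS.
* `sb_dyadic_pair`: existence: `i` = the largest `i` with `x / 2^i ≠ y / 2^i` (`i = 0` qualifies, for `2^i > y` both quotients vanish: `Nat.findGreatest` below `Nat.size y`, or strong induction);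
  then `x / 2^(i+1) = y / 2^(i+1) =: p` (`Nat.div_div_eq_div_mul`), so both `x/2^i, y/2^i ∈ {2p, 2p+1}`, they differ and `x/2^i ≤ y/2^i`.  `i < Nat.size K` since `1 ≤ y / 2^i` gives `2^i ≤ y ≤ K < 2^(size K)`.
  Uniqueness: if `x/2^i = 2p`, `y/2^i = 2p+1` and `i < i'` then `x/2^i' = y/2^i'`.
* `sb_rects_exists`/`sb_rects_unique`: `mn = min_j d j`, `T0 = {j | d j = mn}`; `#T0 ≥ 2`: type A `(T0, mn)`; `T0 = {a}`: `y = min_{j ≠ a} d j > d a`, type B.  A tuple in a type A rectangle has its minimum attained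
  exactly on `T`; a tuple in a type B rectangle `(a,T,i,p)` has `d a < (2p+1) 2^i ≤ d j` for `j ≠ a`, its second minimum is attained in `T` (so has quotient `2p+1`).
* facts on `sbFst`, `sbSnd`, `sbCode` (injective, `< 16`): `decide` over the 16 subsets of `Fin 4`.
-/
import Claimed.Agent.R258.Pack009

set_option autoImplicit false

namespace Claimed.Agent.R258

/-- the first element of `T`. -/
def sbFst (T : Finset (Fin 4)) : Fin 4 := if 0 ∈ T then 0 else if 1 ∈ T then 1 else if 2 ∈ T then 2 else 3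

/-- the second element of `T`. -/
def sbSnd (T : Finset (Fin 4)) : Fin 4 := sbFst (T.erase (sbFst T))

/-- binary code of `T`. -/
def sbCode (T : Finset (Fin 4)) : ℕ := ∑ j ∈ T, 2 ^ (j : ℕ)

/-- type A: the minimum `t` is attained exactly on `T`. -/
def sbRectA (K : ℕ) (T : Finset (Fin 4)) (t : ℕ) : SbRect where
  fam := sbCode T
  a := sbFst T
  b := sbSnd T
  t := t
  D := fun j => if j ∈ T then {t} else Finset.Ioc t K

/-- type B: unique minimum in the slot `a`. -/
def sbRectB (K : ℕ) (a : Fin 4) (T : Finset (Fin 4)) (i p : ℕ) : SbRect where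
  fam := 16 + (4 * i + (a : ℕ)) * 16 + sbCode T
  a := a
  b := sbFst T
  t := (2 * p + 1) * 2 ^ i
  D := fun j => (Finset.range (K + 1)).filter fun d =>
    if j = a then d / 2 ^ i = 2 * p else if j ∈ T then d / 2 ^ i = 2 * p + 1 else 2 * p + 2 ≤ d / 2 ^ i

/-- all rectangles. -/
def sbRects (K : ℕ) : Finset SbRect :=
  ((((Finset.univ : Finset (Finset (Fin 4))).filter fun T => 2 ≤ T.card) ×ˢ Finset.range (K + 1)).image
      fun x => sbRectA K x.1 x.2) ∪
  ((((Finset.univ : Finset (Fin 4 × Finset (Fin 4))).filter fun x => x.2.Nonempty ∧ x.1 ∉ x.2) ×ˢ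
      (Finset.range (Nat.size K) ×ˢ Finset.range (K + 1))).image
      fun x => sbRectB K x.1.1 x.1.2 x.2.1 x.2.2)

theorem sb_rect_fst_mem : ∀ T : Finset (Fin 4), T.Nonempty → sbFst T ∈ T := by decide +kernel

theorem sb_rect_snd_mem : ∀ T : Finset (Fin 4), 2 ≤ T.card → sbSnd T ∈ T ∧ sbSnd T ≠ sbFst T := by decide +kernel

theorem sb_rect_code_lt : ∀ T : Finset (Fin 4), sbCode T < 16 := by decide +kernel

theorem sb_rect_code_inj : ∀ T T' : Finset (Fin 4), sbCode T = sbCode T' → T = T' := by decide +kernel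

theorem sb_rect_dy_exists : ∀ y x : ℕ, x < y → ∃ i p : ℕ, x / 2 ^ i = 2 * p ∧ y / 2 ^ i = 2 * p + 1 := by
  intro y
  induction y using Nat.strong_induction_on with
  | _ y ih =>
    intro x hxy
    by_cases h : x / 2 = y / 2
    · refine ⟨0, x / 2, ?_, ?_⟩ <;> simp <;> omega
    · obtain ⟨i, p, h1, h2⟩ := ih (y / 2) (by omega) (x / 2) (by omega)
      refine ⟨i + 1, p, ?_, ?_⟩
      · rw [pow_succ', ← Nat.div_div_eq_div_mul]; exact h1
      · rw [pow_succ', ← Nat.div_div_eq_div_mul]; exact h2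

theorem sb_rect_dy_lt (x y i p i' : ℕ) (hx : x / 2 ^ i = 2 * p) (hy : y / 2 ^ i = 2 * p + 1) (hii : i < i') :
    x / 2 ^ i' = y / 2 ^ i' := by
  obtain ⟨k, rfl⟩ : ∃ k, i' = i + 1 + k := ⟨i' - i - 1, by omega⟩
  rw [pow_add, pow_succ, ← Nat.div_div_eq_div_mul, ← Nat.div_div_eq_div_mul, ← Nat.div_div_eq_div_mul,
    ← Nat.div_div_eq_div_mul, hx, hy]
  congr 1
  omega

theorem sb_dyadic_pair (K x y : ℕ) (hxy : x < y) (hy : y ≤ K) :
    (∃ i p : ℕ, i < Nat.size K ∧ p ≤ K ∧ x / 2 ^ i = 2 * p ∧ y / 2 ^ i = 2 * p + 1) ∧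
    ∀ i p i' p' : ℕ, x / 2 ^ i = 2 * p → y / 2 ^ i = 2 * p + 1 → x / 2 ^ i' = 2 * p' → y / 2 ^ i' = 2 * p' + 1 → i = i' ∧ p = p' := by
  constructor
  · obtain ⟨i, p, h1, h2⟩ := sb_rect_dy_exists y x hxy
    refine ⟨i, p, ?_, ?_, h1, h2⟩
    · rw [Nat.lt_size]
      have h3 : 1 ≤ y / 2 ^ i := by omega
      have h4 : 2 ^ i ≤ y := by
        by_contra hcon
        rw [Nat.div_eq_of_lt (not_le.1 hcon)] at h3
        omega
      omega
    · have := Nat.div_le_self y (2 ^ i)
      omega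
  · intro i p i' p' h1 h2 h1' h2'
    have hi : i = i' := by
      rcases lt_trichotomy i i' with h | h | h
      · have := sb_rect_dy_lt x y i p i' h1 h2 h
        omega
      · exact h
      · have := sb_rect_dy_lt x y i' p' i h1' h2' h
        omega
    subst hi
    exact ⟨rfl, by omega⟩

theorem sb_rect_memA (K : ℕ) (T : Finset (Fin 4)) (t : ℕ) (d : Fin 4 → ℕ) :
    (∀ j, d j ∈ (sbRectA K T t).D j) ↔ (∀ j ∈ T, d j = t) ∧ ∀ j, j ∉ T → t < d j ∧ d j ≤ K := by
  constructor
  · intro h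
    refine ⟨fun j hj => ?_, fun j hj => ?_⟩
    · have := h j
      simp only [sbRectA, if_pos hj, Finset.mem_singleton] at this
      exact this
    · have := h j
      simp only [sbRectA, if_neg hj, Finset.mem_Ioc] at this
      exact this
  · rintro ⟨h1, h2⟩ j
    by_cases hj : j ∈ T
    · simp only [sbRectA, if_pos hj, Finset.mem_singleton]
      exact h1 j hj
    · simp only [sbRectA, if_neg hj, Finset.mem_Ioc]
      exact h2 j hj

theorem sb_rect_memB (K : ℕ) (a : Fin 4) (T : Finset (Fin 4)) (i p : ℕ) (d : Fin 4 → ℕ) :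
    (∀ j, d j ∈ (sbRectB K a T i p).D j) ↔ (∀ j, d j ≤ K) ∧ d a / 2 ^ i = 2 * p ∧
      (∀ j, j ≠ a → j ∈ T → d j / 2 ^ i = 2 * p + 1) ∧ ∀ j, j ≠ a → j ∉ T → 2 * p + 2 ≤ d j / 2 ^ i := by
  constructor
  · intro h
    refine ⟨fun j => ?_, ?_, fun j hja hj => ?_, fun j hja hj => ?_⟩
    · have := h j
      simp only [sbRectB, Finset.mem_filter, Finset.mem_range] at this
      omega
    · have := h a
      simp only [sbRectB, Finset.mem_filter, if_true] at this
      exact this.2
    · have := h j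
      simp only [sbRectB, Finset.mem_filter, if_neg hja, if_pos hj] at this
      exact this.2
    · have := h j
      simp only [sbRectB, Finset.mem_filter, if_neg hja, if_neg hj] at this
      exact this.2
  · rintro ⟨h0, h1, h2, h3⟩ j
    simp only [sbRectB, Finset.mem_filter, Finset.mem_range]
    refine ⟨by have := h0 j; omega, ?_⟩
    by_cases hja : j = a
    · rw [if_pos hja, hja]; exact h1
    · rw [if_neg hja]
      by_cases hj : j ∈ T
      · rw [if_pos hj]; exact h2 j hja hj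
      · rw [if_neg hj]; exact h3 j hja hj

theorem sb_rect_mem_A (K : ℕ) (T : Finset (Fin 4)) (t : ℕ) (hT : 2 ≤ T.card) (ht : t ≤ K) : sbRectA K T t ∈ sbRects K := by
  unfold sbRects
  refine Finset.mem_union_left _ (Finset.mem_image.2 ⟨(T, t), ?_, rfl⟩)
  simp only [Finset.mem_product, Finset.mem_filter, Finset.mem_univ, true_and, Finset.mem_range]
  exact ⟨hT, by omega⟩

theorem sb_rect_mem_B (K : ℕ) (a : Fin 4) (T : Finset (Fin 4)) (i p : ℕ) (hT : T.Nonempty) (ha : a ∉ T) (hi : i < Nat.size K)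
    (hp : p ≤ K) : sbRectB K a T i p ∈ sbRects K := by
  unfold sbRects
  refine Finset.mem_union_right _ (Finset.mem_image.2 ⟨((a, T), (i, p)), ?_, rfl⟩)
  simp only [Finset.mem_product, Finset.mem_filter, Finset.mem_univ, true_and, Finset.mem_range]
  exact ⟨⟨hT, ha⟩, hi, by omega⟩

theorem sb_rect_cases (K : ℕ) (r : SbRect) (hr : r ∈ sbRects K) :
    (∃ T t, 2 ≤ T.card ∧ t ≤ K ∧ r = sbRectA K T t) ∨
    (∃ a T i p, T.Nonempty ∧ a ∉ T ∧ i < Nat.size K ∧ p ≤ K ∧ r = sbRectB K a T i p) := by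
  unfold sbRects at hr
  rcases Finset.mem_union.1 hr with h | h
  · left
    obtain ⟨⟨T, t⟩, hx, rfl⟩ := Finset.mem_image.1 h
    simp only [Finset.mem_product, Finset.mem_filter, Finset.mem_univ, true_and, Finset.mem_range] at hx
    exact ⟨T, t, hx.1, by omega, rfl⟩
  · right
    obtain ⟨⟨⟨a, T⟩, ⟨i, p⟩⟩, hx, rfl⟩ := Finset.mem_image.1 h
    simp only [Finset.mem_product, Finset.mem_filter, Finset.mem_univ, true_and, Finset.mem_range] at hx
    exact ⟨a, T, i, p, hx.1.1, hx.1.2, hx.2.1, by omega, rfl⟩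

theorem sb_rects_exists (K : ℕ) (d : Fin 4 → ℕ) (hd : ∀ j, d j ≤ K) : ∃ r ∈ sbRects K, ∀ j, d j ∈ r.D j := by
  obtain ⟨a0, -, ha0⟩ := Finset.exists_min_image (Finset.univ : Finset (Fin 4)) d Finset.univ_nonempty
  have hmin : ∀ j, d a0 ≤ d j := fun j => ha0 j (Finset.mem_univ j)
  set T0 := (Finset.univ : Finset (Fin 4)).filter (fun j => d j = d a0) with hT0
  by_cases hc : 2 ≤ T0.card
  · refine ⟨sbRectA K T0 (d a0), sb_rect_mem_A K T0 _ hc (hd a0), ?_⟩
    rw [sb_rect_memA]
    refine ⟨fun j hj => (Finset.mem_filter.1 hj).2, fun j hj => ⟨?_, hd j⟩⟩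
    have : d j ≠ d a0 := fun h => hj (Finset.mem_filter.2 ⟨Finset.mem_univ j, h⟩)
    have := hmin j
    omega
  · have hlt : ∀ j, j ≠ a0 → d a0 < d j := by
      intro j hj
      by_contra hcon
      have hje : d j = d a0 := by have := hmin j; omega
      apply hc
      exact Finset.one_lt_card.2 ⟨j, Finset.mem_filter.2 ⟨Finset.mem_univ j, hje⟩, a0,
        Finset.mem_filter.2 ⟨Finset.mem_univ a0, rfl⟩, hj⟩
    have hne : ((Finset.univ : Finset (Fin 4)).erase a0).Nonempty := by
      rw [← Finset.card_pos, Finset.card_erase_of_mem (Finset.mem_univ a0)]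
      simp
    obtain ⟨j0, hj0, hj0min⟩ := Finset.exists_min_image _ d hne
    have hj0a : j0 ≠ a0 := Finset.ne_of_mem_erase hj0
    obtain ⟨⟨i, p, hi, hp, h1, h2⟩, -⟩ := sb_dyadic_pair K (d a0) (d j0) (hlt j0 hj0a) (hd j0)
    set T := ((Finset.univ : Finset (Fin 4)).erase a0).filter (fun j => d j / 2 ^ i = 2 * p + 1) with hT
    refine ⟨sbRectB K a0 T i p, sb_rect_mem_B K a0 T i p ⟨j0, Finset.mem_filter.2 ⟨hj0, h2⟩⟩ ?_ hi hp, ?_⟩
    · intro h
      exact (Finset.ne_of_mem_erase (Finset.mem_filter.1 h).1) rfl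
    · rw [sb_rect_memB]
      refine ⟨hd, h1, fun j _ hj => (Finset.mem_filter.1 hj).2, fun j hja hj => ?_⟩
      have hm : d j0 ≤ d j := hj0min j (Finset.mem_erase.2 ⟨hja, Finset.mem_univ j⟩)
      have h3 : d j0 / 2 ^ i ≤ d j / 2 ^ i := Nat.div_le_div_right hm
      have h4 : d j / 2 ^ i ≠ 2 * p + 1 := fun h =>
        hj (Finset.mem_filter.2 ⟨Finset.mem_erase.2 ⟨hja, Finset.mem_univ j⟩, h⟩)
      omega

theorem sb_rect_div_lt {i p x y : ℕ} (hx : x / 2 ^ i = 2 * p) (hy : 2 * p + 1 ≤ y / 2 ^ i) : x < y := by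
  by_contra hcon
  have : y / 2 ^ i ≤ x / 2 ^ i := Nat.div_le_div_right (not_lt.1 hcon)
  omega

/-- in a type B rectangle the slot `a` is the strict minimum. -/
theorem sb_rect_B_lt {K : ℕ} {a : Fin 4} {T : Finset (Fin 4)} {i p : ℕ} {d : Fin 4 → ℕ}
    (h : ∀ j, d j ∈ (sbRectB K a T i p).D j) (j : Fin 4) (hj : j ≠ a) : d a < d j := by
  rw [sb_rect_memB] at h
  obtain ⟨-, h1, h2, h3⟩ := h
  by_cases hjT : j ∈ T
  · exact sb_rect_div_lt h1 (by rw [h2 j hj hjT])
  · exact sb_rect_div_lt h1 (by have := h3 j hj hjT; omega)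

/-- in a type B rectangle a second minimum lies in `T`. -/
theorem sb_rect_B_snd {K : ℕ} {a : Fin 4} {T : Finset (Fin 4)} {i p : ℕ} {d : Fin 4 → ℕ} (hT : T.Nonempty) (ha : a ∉ T)
    (h : ∀ j, d j ∈ (sbRectB K a T i p).D j) (j0 : Fin 4) (hj0 : j0 ≠ a) (hmin : ∀ j, j ≠ a → d j0 ≤ d j) :
    d j0 / 2 ^ i = 2 * p + 1 := by
  rw [sb_rect_memB] at h
  obtain ⟨-, h1, h2, h3⟩ := h
  by_cases hjT : j0 ∈ T
  · exact h2 j0 hj0 hjT
  · exfalso
    obtain ⟨j1, hj1⟩ := hT
    have hj1a : j1 ≠ a := fun h => ha (h ▸ hj1)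
    have a1 := h2 j1 hj1a hj1
    have a2 := h3 j0 hj0 hjT
    have a3 : d j0 / 2 ^ i ≤ d j1 / 2 ^ i := Nat.div_le_div_right (hmin j1 hj1a)
    omega

theorem sb_rect_AB_false {K : ℕ} {T : Finset (Fin 4)} {t : ℕ} (hT : 2 ≤ T.card) {a : Fin 4} {T' : Finset (Fin 4)} {i p : ℕ}
    {d : Fin 4 → ℕ} (h : ∀ j, d j ∈ (sbRectA K T t).D j) (h' : ∀ j, d j ∈ (sbRectB K a T' i p).D j) : False := by
  rw [sb_rect_memA] at h
  obtain ⟨j1, hj1, j2, hj2, hne⟩ := Finset.one_lt_card.1 hT
  have hge : t ≤ d a := by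
    by_cases haT : a ∈ T
    · rw [h.1 a haT]
    · exact (h.2 a haT).1.le
  by_cases h1 : j1 = a
  · have h2 : j2 ≠ a := fun h => hne (h1.trans h.symm)
    have := sb_rect_B_lt h' j2 h2
    rw [h.1 j2 hj2] at this
    omega
  · have := sb_rect_B_lt h' j1 h1
    rw [h.1 j1 hj1] at this
    omega

theorem sb_rects_unique (K : ℕ) (d : Fin 4 → ℕ) (r r' : SbRect) (hr : r ∈ sbRects K) (hr' : r' ∈ sbRects K)
    (h : ∀ j, d j ∈ r.D j) (h' : ∀ j, d j ∈ r'.D j) : r = r' := by
  rcases sb_rect_cases K r hr with ⟨T, t, hT, -, rfl⟩ | ⟨a, T, i, p, hT, ha, -, -, rfl⟩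
  · rcases sb_rect_cases K r' hr' with ⟨T', t', hT', -, rfl⟩ | ⟨a', T', i', p', hT', ha', -, -, rfl⟩
    · rw [sb_rect_memA] at h h'
      obtain ⟨j, hj⟩ : T.Nonempty := Finset.card_pos.1 (by omega)
      obtain ⟨j', hj'⟩ : T'.Nonempty := Finset.card_pos.1 (by omega)
      have ht : t = t' := by
        by_cases c1 : j ∈ T'
        · rw [← h.1 j hj, h'.1 j c1]
        · by_cases c2 : j' ∈ T
          · rw [← h.1 j' c2, h'.1 j' hj']
          · have a1 := (h'.2 j c1).1
            have a2 := (h.2 j' c2).1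
            rw [h.1 j hj] at a1
            rw [h'.1 j' hj'] at a2
            omega
      subst ht
      have hTT : T = T' := by
        ext k
        constructor
        · intro hk
          by_contra hk'
          have := (h'.2 k hk').1
          rw [h.1 k hk] at this
          omega
        · intro hk
          by_contra hk'
          have := (h.2 k hk').1
          rw [h'.1 k hk] at this
          omega
      rw [hTT]
    · exact (sb_rect_AB_false hT h h').elim
  · rcases sb_rect_cases K r' hr' with ⟨T', t', hT', -, rfl⟩ | ⟨a', T', i', p', hT', ha', -, -, rfl⟩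
    · exact (sb_rect_AB_false hT' h' h).elim
    · have haa : a = a' := by
        by_contra hne
        have a1 := sb_rect_B_lt h a' (fun h => hne h.symm)
        have a2 := sb_rect_B_lt h' a hne
        omega
      subst haa
      have hne : ((Finset.univ : Finset (Fin 4)).erase a).Nonempty := by
        rw [← Finset.card_pos, Finset.card_erase_of_mem (Finset.mem_univ a)]
        simp
      obtain ⟨j0, hj0, hj0min⟩ := Finset.exists_min_image _ d hne
      have hj0a : j0 ≠ a := Finset.ne_of_mem_erase hj0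
      have hmin : ∀ j, j ≠ a → d j0 ≤ d j := fun j hj => hj0min j (Finset.mem_erase.2 ⟨hj, Finset.mem_univ j⟩)
      have b1 := sb_rect_B_snd hT ha h j0 hj0a hmin
      have b2 := sb_rect_B_snd hT' ha' h' j0 hj0a hmin
      have hlt := sb_rect_B_lt h j0 hj0a
      rw [sb_rect_memB] at h h'
      obtain ⟨rfl, rfl⟩ := (sb_dyadic_pair K (d a) (d j0) hlt (h.1 j0)).2 i p i' p' h.2.1 b1 h'.2.1 b2
      have hTT : T = T' := by
        ext k
        by_cases hka : k = a
        · subst hka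
          exact ⟨fun hk => absurd hk ha, fun hk => absurd hk ha'⟩
        · constructor
          · intro hk
            by_contra hk'
            have c1 := h.2.2.1 k hka hk
            have c2 := h'.2.2.2 k hka hk'
            omega
          · intro hk
            by_contra hk'
            have c1 := h'.2.2.1 k hka hk
            have c2 := h.2.2.2 k hka hk'
            omega
      rw [hTT]

theorem sb_rects_props (K : ℕ) (r : SbRect) (hr : r ∈ sbRects K) :
    r.a ≠ r.b ∧ (∀ d ∈ r.D r.a, d ≤ r.t) ∧ (∀ j, j ≠ r.a → ∀ d ∈ r.D j, r.t ≤ d) ∧ ∀ j, ∀ d ∈ r.D j, d ≤ K := by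
  rcases sb_rect_cases K r hr with ⟨T, t, hT, ht, rfl⟩ | ⟨a, T, i, p, hT, ha, -, -, rfl⟩
  · have hTne : T.Nonempty := Finset.card_pos.1 (by omega)
    refine ⟨fun h => (sb_rect_snd_mem T hT).2 h.symm, ?_, ?_, ?_⟩
    · intro d hd
      simp only [sbRectA, if_pos (sb_rect_fst_mem T hTne), Finset.mem_singleton] at hd
      simp only [sbRectA]
      omega
    · intro j _ d hd
      simp only [sbRectA] at hd ⊢
      split_ifs at hd
      · rw [Finset.mem_singleton] at hd; omega
      · rw [Finset.mem_Ioc] at hd; omega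
    · intro j d hd
      simp only [sbRectA] at hd
      split_ifs at hd
      · rw [Finset.mem_singleton] at hd; omega
      · rw [Finset.mem_Ioc] at hd; omega
  · have hpos : 0 < 2 ^ i := by positivity
    refine ⟨fun h => ha (by have := sb_rect_fst_mem T hT; simp only [sbRectB] at h; rw [h]; exact this), ?_, ?_, ?_⟩
    · intro d hd
      simp only [sbRectB, Finset.mem_filter, if_true] at hd ⊢
      have : d / 2 ^ i < 2 * p + 1 := by omega
      exact ((Nat.div_lt_iff_lt_mul hpos).1 this).le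
    · intro j hj d hd
      simp only [sbRectB] at hj
      simp only [sbRectB, Finset.mem_filter, if_neg hj] at hd ⊢
      have : 2 * p + 1 ≤ d / 2 ^ i := by
        have := hd.2
        split_ifs at this <;> omega
      exact (Nat.le_div_iff_mul_le hpos).1 this
    · intro j d hd
      simp only [sbRectB, Finset.mem_filter, Finset.mem_range] at hd
      omega

/-- the family determines the parameters. -/
theorem sb_rect_fam_AB (K K' : ℕ) (T : Finset (Fin 4)) (t : ℕ) (a : Fin 4) (T' : Finset (Fin 4)) (i p : ℕ) :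
    (sbRectA K T t).fam ≠ (sbRectB K' a T' i p).fam := by
  simp only [sbRectA, sbRectB]
  have := sb_rect_code_lt T
  omega

theorem sb_rect_fam_BB {K K' : ℕ} {a a' : Fin 4} {T T' : Finset (Fin 4)} {i i' p p' : ℕ}
    (h : (sbRectB K a T i p).fam = (sbRectB K' a' T' i' p').fam) : a = a' ∧ T = T' ∧ i = i' := by
  simp only [sbRectB] at h
  have h1 := sb_rect_code_lt T
  have h2 := sb_rect_code_lt T'
  have h3 := a.isLt
  have h4 := a'.isLt
  refine ⟨Fin.ext (by omega), sb_rect_code_inj T T' (by omega), by omega⟩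

/-- designated disjointness inside a family. -/
theorem sb_rects_disj (K : ℕ) (r r' : SbRect) (hr : r ∈ sbRects K) (hr' : r' ∈ sbRects K) (hf : r.fam = r'.fam) (hne : r ≠ r') :
    Disjoint (r.D r.a) (r'.D r'.a) ∧ Disjoint (r.D r.b) (r'.D r'.b) := by
  rcases sb_rect_cases K r hr with ⟨T, t, hT, -, rfl⟩ | ⟨a, T, i, p, hT, ha, -, -, rfl⟩
  · rcases sb_rect_cases K r' hr' with ⟨T', t', hT', -, rfl⟩ | ⟨a', T', i', p', hT', ha', -, -, rfl⟩
    · have hTT : T = T' := sb_rect_code_inj T T' hf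
      subst hTT
      have htt : t ≠ t' := fun h => hne (by rw [h])
      have hTne : T.Nonempty := Finset.card_pos.1 (by omega)
      constructor
      · simp only [sbRectA, if_pos (sb_rect_fst_mem T hTne)]
        exact Finset.disjoint_singleton.2 htt
      · simp only [sbRectA, if_pos (sb_rect_snd_mem T hT).1]
        exact Finset.disjoint_singleton.2 htt
    · exact absurd hf (sb_rect_fam_AB _ _ _ _ _ _ _ _)
  · rcases sb_rect_cases K r' hr' with ⟨T', t', hT', -, rfl⟩ | ⟨a', T', i', p', hT', ha', -, -, rfl⟩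
    · exact absurd hf.symm (sb_rect_fam_AB _ _ _ _ _ _ _ _)
    · obtain ⟨rfl, rfl, rfl⟩ := sb_rect_fam_BB hf
      have hpp : p ≠ p' := fun h => hne (by rw [h])
      have hb : sbFst T ∈ T := sb_rect_fst_mem T hT
      have hba : sbFst T ≠ a := fun h => ha (h ▸ hb)
      constructor
      · rw [Finset.disjoint_left]
        intro d hd hd'
        simp only [sbRectB, Finset.mem_filter, if_true] at hd hd'
        omega
      · rw [Finset.disjoint_left]
        intro d hd hd'
        simp only [sbRectB, Finset.mem_filter, if_neg hba, if_pos hb] at hd hd'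
        omega

theorem sb_rects_card (K f : ℕ) : ((sbRects K).filter fun r => r.fam = f).card ≤ K + 1 := by
  rcases ((sbRects K).filter fun r => r.fam = f).eq_empty_or_nonempty with h0 | ⟨r0, hr0⟩
  · rw [h0]; simp
  rw [Finset.mem_filter] at hr0
  obtain ⟨hr0, rfl⟩ := hr0
  rcases sb_rect_cases K r0 hr0 with ⟨T, t, hT, -, rfl⟩ | ⟨a, T, i, p, hT, ha, -, -, rfl⟩
  · have hsub : ((sbRects K).filter fun r => r.fam = (sbRectA K T t).fam) ⊆
        (Finset.range (K + 1)).image (fun t' => sbRectA K T t') := by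
      intro r hr
      rw [Finset.mem_filter] at hr
      rcases sb_rect_cases K r hr.1 with ⟨T', t', -, ht', rfl⟩ | ⟨a', T', i', p', -, -, -, -, rfl⟩
      · have hTT : T' = T := sb_rect_code_inj T' T hr.2
        subst hTT
        exact Finset.mem_image.2 ⟨t', Finset.mem_range.2 (by omega), rfl⟩
      · exact absurd hr.2.symm (sb_rect_fam_AB _ _ _ _ _ _ _ _)
    refine (Finset.card_le_card hsub).trans (Finset.card_image_le.trans ?_)
    simp
  · have hsub : ((sbRects K).filter fun r => r.fam = (sbRectB K a T i p).fam) ⊆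
        (Finset.range (K + 1)).image (fun p' => sbRectB K a T i p') := by
      intro r hr
      rw [Finset.mem_filter] at hr
      rcases sb_rect_cases K r hr.1 with ⟨T', t', -, ht', rfl⟩ | ⟨a', T', i', p', -, -, -, hp', rfl⟩
      · exact absurd hr.2 (sb_rect_fam_AB _ _ _ _ _ _ _ _)
      · obtain ⟨rfl, rfl, rfl⟩ := sb_rect_fam_BB hr.2
        exact Finset.mem_image.2 ⟨p', Finset.mem_range.2 (by omega), rfl⟩
    refine (Finset.card_le_card hsub).trans (Finset.card_image_le.trans ?_)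
    simp

theorem sb_rects_fam (K : ℕ) (r : SbRect) (hr : r ∈ sbRects K) : r.fam < 16 + 64 * Nat.size K := by
  rcases sb_rect_cases K r hr with ⟨T, t, hT, -, rfl⟩ | ⟨a, T, i, p, hT, ha, hi, -, rfl⟩
  · simp only [sbRectA]
    have := sb_rect_code_lt T
    omega
  · simp only [sbRectB]
    have := sb_rect_code_lt T
    have := a.isLt
    omega

theorem sb_size_le (K : ℕ) : (Nat.size K : ℝ) ≤ 1 + 2 * Real.log ((K : ℝ) + 2) := by
  have hlog0 : 0 ≤ Real.log ((K : ℝ) + 2) := Real.log_nonneg (by have : (0 : ℝ) ≤ K := Nat.cast_nonneg K; linarith)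
  rcases Nat.eq_zero_or_pos (Nat.size K) with h0 | hpos
  · rw [h0]; push_cast; linarith
  obtain ⟨s, hs⟩ : ∃ s, Nat.size K = s + 1 := ⟨Nat.size K - 1, by omega⟩
  have h1 : 2 ^ s ≤ K := Nat.lt_size.1 (by omega)
  have h2 : (2 : ℝ) ^ s ≤ (K : ℝ) + 2 := by
    have : ((2 ^ s : ℕ) : ℝ) ≤ (K : ℝ) := by exact_mod_cast h1
    push_cast at this
    linarith
  have h3 : Real.log ((2 : ℝ) ^ s) ≤ Real.log ((K : ℝ) + 2) := Real.log_le_log (by positivity) h2
  rw [Real.log_pow] at h3
  have h4 := Real.log_two_gt_d9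
  have h5 : (s : ℝ) * (1 / 2) ≤ s * Real.log 2 := mul_le_mul_of_nonneg_left (by linarith) (Nat.cast_nonneg s)
  rw [hs]
  push_cast
  linarith

end Claimed.Agent.R258
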