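/-
Row 258, block [S7b] (architect: helper243).  FILE Tree: what a rectangle of leaf depths gives on a tree piece (sides.tex l.165-200).  Self-contained; use the cell API `R258/CellApi/*` (PartialOrder on `Cell`,
`cell_nested_or_disjoint`, `cell_sum_len_antichain_le`, ...) and `S7b/Idx.lean` (`sb_idx_subset`, `sb_idx_disjoint`, `sb_floor_mem_idx_iff`).
Leaves: P-SB-TR1 (`sb_leaf_exists`, `sb_leaf_unique`, `sb_mask_iff`, `sb_leaf_rel_le`), P-SB-TR2 (`sb_mask_prod`, `sb_form_rect`), P-SB-TR3 (`sb_tree_vanish`), P-SB-TR4 (`sb_mask_sum_le`, `sb_mask_sum_le_len`, `sb_mask_sum_tot`),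
P-SB-TR5 (`sb_len_nonneg`, `sb_len_le`, `sb_len_sum_disj`, `sb_int_len`).   The assembly `sb_tree_hyp` is proved.

Throughout `hT : TreePiece R int leaves s1 K`, `s1 + K ≤ ℓ` (so all leaves and internal cells have depth `≤ ℓ`; also `R.depth ≤ ℓ` because a leaf exists and `L ≤ R`).
* `sb_leaf_exists`: `k ∈ sbIdx ℓ R` means `sbDel ℓ * k ∈ R.set` (`sb_mem_idx_iff`); `leaf_cover`.    * `sb_leaf_unique`: two leaves containing the point are nested (`cell_le_or_le_of_mem`), `leaf_disj`.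
* `sb_mask_prod`: if some `k j ∉ sbIdx ℓ R` both sides vanish.  Otherwise let `L j` be the leaf of `k j`, `d j = (L j).depth - s1`; by `sb_mask_iff` the `r`-th term is `∏ Z` if `∀ j, d j ∈ r.D j` and `0` otherwise;
  exactly one `r` qualifies (`sb_rects_exists`, `sb_rects_unique`): `Finset.sum_eq_single`.
* `sb_form_rect`: `sb_mask_prod` at `k j = ⌊(p.1 + j p.2) 2^ℓ⌋`, `integral_finset_sum` with `sb_step_integrable`.
* `sb_tree_vanish`: the slot `a` of the masked input vanishes on `I.set`: a leaf `L` with `L.depth ≤ s1 + t ≤ I.depth` which meets `I` satisfies `I ≤ L`, excluded by `int_leaf`.  The kernel lives on `y_a ∈ I.set` (`Admissible.supp`, `0 < c0`).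
* `sb_mask_sum_le`: the `k ∈ sbIdx ℓ J` with `sbMask .. k` are partitioned by the selected leaves meeting `J`; these are `≤ J` by `hJ`; each has `ρ`-mass `≤ L.len`.    `sb_mask_sum_le_len`: antichain below `J`.
* `sb_int_len`: the cells of `int` of one depth are pairwise disjoint and contained in `R`; there are at most `K` depths.
-/
import Claimed.Agent.R258.S7b.Rect
import Claimed.Agent.R258.S7b.Abs
import Claimed.Agent.R258.CellApi.Pack

set_option autoImplicit false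
open MeasureTheory
open scoped ENNReal

namespace Claimed.Agent.R258

variable {R : Cell} {int leaves : Finset Cell} {s1 : ℤ} {K : ℕ}

theorem sb_tree_leaf_depth (hT : TreePiece R int leaves s1 K) {ℓ : ℤ} (hℓ : s1 + K ≤ ℓ) {L : Cell} (hL : L ∈ leaves) :
    L.depth ≤ ℓ := by
  have := (hT.leaf_depth L hL).2
  omega

theorem sb_tree_root_depth (hT : TreePiece R int leaves s1 K) {ℓ : ℤ} (hℓ : s1 + K ≤ ℓ) : R.depth ≤ ℓ := by
  obtain ⟨L, hL, _⟩ := hT.leaf_cover _ (cell_left_mem R)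
  have h1 := cell_depth_le_of_le (hT.leaf_le L hL)
  have h2 := sb_tree_leaf_depth hT hℓ hL
  omega

theorem sb_leaves_antichain (hT : TreePiece R int leaves s1 K) : IsAntichain (· ≤ ·) (leaves : Set Cell) :=
  fun L hL L' hL' hne hle => hne (hT.leaf_disj L (Finset.mem_coe.1 hL) L' (Finset.mem_coe.1 hL') hle)

theorem sb_leaf_exists (hT : TreePiece R int leaves s1 K) (ℓ : ℤ) (hℓ : s1 + K ≤ ℓ) (k : ℤ) (hk : k ∈ sbIdx ℓ R) :
    ∃ L ∈ leaves, k ∈ sbIdx ℓ L := by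
  have h1 := (sb_mem_idx_iff ℓ R (sb_tree_root_depth hT hℓ) k).1 hk
  obtain ⟨L, hL, hy⟩ := hT.leaf_cover _ h1
  exact ⟨L, hL, (sb_mem_idx_iff ℓ L (sb_tree_leaf_depth hT hℓ hL) k).2 hy⟩

theorem sb_leaf_unique (hT : TreePiece R int leaves s1 K) (ℓ : ℤ) (hℓ : s1 + K ≤ ℓ) (k : ℤ) (L L' : Cell) (hL : L ∈ leaves) (hL' : L' ∈ leaves)
    (hk : k ∈ sbIdx ℓ L) (hk' : k ∈ sbIdx ℓ L') : L = L' := by
  have h1 := (sb_mem_idx_iff ℓ L (sb_tree_leaf_depth hT hℓ hL) k).1 hk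
  have h2 := (sb_mem_idx_iff ℓ L' (sb_tree_leaf_depth hT hℓ hL') k).1 hk'
  rcases cell_le_or_le_of_mem h1 h2 with h | h
  · exact hT.leaf_disj L hL L' hL' h
  · exact (hT.leaf_disj L' hL' L hL h).symm

theorem sb_mask_iff (hT : TreePiece R int leaves s1 K) (ℓ : ℤ) (hℓ : s1 + K ≤ ℓ) (D : Finset ℕ) (k : ℤ) (L : Cell) (hL : L ∈ leaves) (hk : k ∈ sbIdx ℓ L) :
    sbMask leaves s1 ℓ D k ↔ (L.depth - s1).toNat ∈ D := by
  constructor
  · rintro ⟨L', hL', hD, hk'⟩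
    rw [sb_leaf_unique hT ℓ hℓ k L L' hL hL' hk hk']
    exact hD
  · exact fun h => ⟨L, hL, h, hk⟩

theorem sb_leaf_rel_le (hT : TreePiece R int leaves s1 K) (L : Cell) (hL : L ∈ leaves) : (L.depth - s1).toNat ≤ K := by
  have := hT.leaf_depth L hL
  omega

/-- the rectangles partition the products. -/
theorem sb_mask_prod (hT : TreePiece R int leaves s1 K) (ℓ : ℤ) (hℓ : s1 + K ≤ ℓ) (Z : Fin 4 → ℤ → ℂ) (hZ : ∀ j k, k ∉ sbIdx ℓ R → Z j k = 0)
    (k : Fin 4 → ℤ) :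
    ∏ j : Fin 4, Z j (k j) = ∑ r ∈ sbRects K, ∏ j : Fin 4, sbMaskC leaves s1 ℓ (r.D j) (Z j) (k j) := by
  by_cases hall : ∀ j, k j ∈ sbIdx ℓ R
  · choose L hL hkL using fun j => sb_leaf_exists hT ℓ hℓ (k j) (hall j)
    obtain ⟨r0, hr0, hd0⟩ := sb_rects_exists K (fun j => ((L j).depth - s1).toNat)
      (fun j => sb_leaf_rel_le hT (L j) (hL j))
    rw [Finset.sum_eq_single_of_mem r0 hr0]
    · refine Finset.prod_congr rfl fun j _ => ?_
      unfold sbMaskC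
      rw [if_pos ((sb_mask_iff hT ℓ hℓ (r0.D j) (k j) (L j) (hL j) (hkL j)).2 (hd0 j))]
    · intro r hr hne
      have hex : ∃ j, ((L j).depth - s1).toNat ∉ r.D j := by
        by_contra hcon
        push Not at hcon
        exact hne (sb_rects_unique K _ r r0 hr hr0 hcon hd0)
      obtain ⟨j, hj⟩ := hex
      refine Finset.prod_eq_zero (Finset.mem_univ j) ?_
      unfold sbMaskC
      rw [if_neg fun hm => hj ((sb_mask_iff hT ℓ hℓ (r.D j) (k j) (L j) (hL j) (hkL j)).1 hm)]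
  · push Not at hall
    obtain ⟨j, hj⟩ := hall
    rw [Finset.prod_eq_zero (Finset.mem_univ j) (hZ j (k j) hj)]
    refine (Finset.sum_eq_zero fun r _ => Finset.prod_eq_zero (Finset.mem_univ j) ?_).symm
    unfold sbMaskC
    split_ifs
    · exact hZ j (k j) hj
    · rfl

theorem sb_form_rect {c0 C0 : ℝ} (hc0 : 0 < c0) (hT : TreePiece R int leaves s1 K) {I : Cell} {w : ℝ × ℝ → ℂ} (hw : Admissible c0 C0 I w) (ℓ : ℤ)
    (hℓ : s1 + K ≤ ℓ) (Z : Fin 4 → ℤ → ℂ) (hZ : ∀ j k, k ∉ sbIdx ℓ R → Z j k = 0) :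
    form I w (fun j => sbStep ℓ (Z j)) = ∑ r ∈ sbRects K, form I w (fun j => sbStep ℓ (sbMaskC leaves s1 ℓ (r.D j) (Z j))) := by
  unfold form
  rw [← Finset.mul_sum, ← integral_finsetSum _ (fun r _ => sb_step_integrable hc0 hw ℓ _)]
  congr 1
  refine integral_congr_ae (Filter.Eventually.of_forall fun p => ?_)
  show w p * _ = ∑ r ∈ sbRects K, w p * _
  rw [← Finset.mul_sum]
  congr 1
  exact sb_mask_prod hT ℓ hℓ Z hZ fun j => ⌊(p.1 + ((j : ℕ) : ℝ) * p.2) * (2 : ℝ) ^ ℓ⌋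

/-- summation cells at or below the threshold do not contribute. -/
theorem sb_tree_vanish {c0 C0 : ℝ} (hc0 : 0 < c0) (hT : TreePiece R int leaves s1 K) {I : Cell} (hI : I ∈ int) {w : ℝ × ℝ → ℂ} (hw : Admissible c0 C0 I w)
    (ℓ : ℤ) (hℓ : s1 + K ≤ ℓ) (Z : Fin 4 → ℤ → ℂ) (D : Fin 4 → Finset ℕ) (a : Fin 4) (t : ℕ) (hD : ∀ d ∈ D a, d ≤ t) (hIt : s1 + t ≤ I.depth) :
    form I w (fun j => sbStep ℓ (sbMaskC leaves s1 ℓ (D j) (Z j))) = 0 := by
  unfold form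
  have hz : ∀ p : ℝ × ℝ, w p * ∏ j : Fin 4, sbStep ℓ (sbMaskC leaves s1 ℓ (D j) (Z j)) (p.1 + ((j : ℕ) : ℝ) * p.2) = 0 := by
    intro p
    by_cases hp : w p = 0
    · rw [hp, zero_mul]
    · have h := hw.supp p hp a
      have h3 : 0 < c0 * I.len := mul_pos hc0 (cell_len_pos I)
      have hy : p.1 + ((a : ℕ) : ℝ) * p.2 ∈ I.set := ⟨by linarith [h.1], by linarith [h.2]⟩
      refine mul_eq_zero_of_right _ (Finset.prod_eq_zero (Finset.mem_univ a) ?_)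
      unfold sbStep sbMaskC
      rw [if_neg]
      rintro ⟨L, hL, hLD, hk⟩
      have hyL := (sb_floor_mem_idx_iff ℓ L (sb_tree_leaf_depth hT hℓ hL) _).1 hk
      have h4 := hD _ hLD
      have h5 := (hT.leaf_depth L hL).1
      exact hT.int_leaf I hI L hL (cell_le_of_mem_of_depth hy hyL (by omega))
  simp only [hz, integral_zero, mul_zero]

open Classical in
/-- the masked mass of a cell which is not strictly inside a selected leaf. -/
theorem sb_mask_sum_le (hT : TreePiece R int leaves s1 K) (ℓ : ℤ) (hℓ : s1 + K ≤ ℓ) (D : Finset ℕ) (ρ : ℤ → ℝ) (hρ : ∀ k, 0 ≤ ρ k)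
    (hleaf : ∀ L ∈ leaves, ∑ k ∈ sbIdx ℓ L, ρ k ≤ L.len) (J : Cell) (hJℓ : J.depth ≤ ℓ)
    (hJ : ∀ L ∈ leaves, (L.depth - s1).toNat ∈ D → J ≤ L → L ≤ J) :
    ∑ k ∈ sbIdx ℓ J, sbMaskR leaves s1 ℓ D ρ k ≤ ∑ L ∈ leaves.filter (fun L => (L.depth - s1).toNat ∈ D ∧ L ≤ J), L.len := by
  set LL := leaves.filter (fun L => (L.depth - s1).toNat ∈ D ∧ L ≤ J) with hLL
  have h1 : ∀ k ∈ sbIdx ℓ J, sbMaskR leaves s1 ℓ D ρ k ≤ ∑ L ∈ LL, if k ∈ sbIdx ℓ L then ρ k else 0 := by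
    intro k hk
    have hnn : ∀ L ∈ LL, 0 ≤ (if k ∈ sbIdx ℓ L then ρ k else 0) := by
      intro L _
      split_ifs
      · exact hρ k
      · exact le_rfl
    unfold sbMaskR
    split_ifs with hm
    · obtain ⟨L, hL, hLD, hkL⟩ := hm
      have hy1 := (sb_mem_idx_iff ℓ J hJℓ k).1 hk
      have hy2 := (sb_mem_idx_iff ℓ L (sb_tree_leaf_depth hT hℓ hL) k).1 hkL
      have hLJ : L ≤ J := by
        rcases cell_le_or_le_of_mem hy1 hy2 with h | h
        · exact hJ L hL hLD h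
        · exact h
      have hmem : L ∈ LL := Finset.mem_filter.2 ⟨hL, hLD, hLJ⟩
      have := Finset.single_le_sum hnn hmem
      rwa [if_pos hkL] at this
    · exact Finset.sum_nonneg hnn
  calc ∑ k ∈ sbIdx ℓ J, sbMaskR leaves s1 ℓ D ρ k
      ≤ ∑ k ∈ sbIdx ℓ J, ∑ L ∈ LL, (if k ∈ sbIdx ℓ L then ρ k else 0) := Finset.sum_le_sum h1
    _ = ∑ L ∈ LL, ∑ k ∈ sbIdx ℓ J, (if k ∈ sbIdx ℓ L then ρ k else 0) := Finset.sum_comm
    _ ≤ ∑ L ∈ LL, L.len := by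
        refine Finset.sum_le_sum fun L hL => ?_
        refine le_trans ?_ (hleaf L (Finset.mem_filter.1 hL).1)
        rw [← Finset.sum_filter]
        exact Finset.sum_le_sum_of_subset_of_nonneg (fun k hk => (Finset.mem_filter.1 hk).2) (fun k _ _ => hρ k)

theorem sb_mask_sum_le_len (hT : TreePiece R int leaves s1 K) (ℓ : ℤ) (hℓ : s1 + K ≤ ℓ) (D : Finset ℕ) (ρ : ℤ → ℝ) (hρ : ∀ k, 0 ≤ ρ k)
    (hleaf : ∀ L ∈ leaves, ∑ k ∈ sbIdx ℓ L, ρ k ≤ L.len) (J : Cell) (hJℓ : J.depth ≤ ℓ)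
    (hJ : ∀ L ∈ leaves, (L.depth - s1).toNat ∈ D → J ≤ L → L ≤ J) :
    ∑ k ∈ sbIdx ℓ J, sbMaskR leaves s1 ℓ D ρ k ≤ J.len := by
  classical
  refine (sb_mask_sum_le hT ℓ hℓ D ρ hρ hleaf J hJℓ hJ).trans ?_
  refine cell_sum_len_antichain_le ((sb_leaves_antichain hT).subset ?_) fun L hL => (Finset.mem_filter.1 hL).2.2
  exact fun L hL => Finset.mem_coe.2 (Finset.mem_filter.1 (Finset.mem_coe.1 hL)).1

theorem sb_mask_sum_tot (hT : TreePiece R int leaves s1 K) (ℓ : ℤ) (hℓ : s1 + K ≤ ℓ) (D : Finset ℕ) (ρ : ℤ → ℝ) (hρ : ∀ k, 0 ≤ ρ k)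
    (hleaf : ∀ L ∈ leaves, ∑ k ∈ sbIdx ℓ L, ρ k ≤ L.len) :
    ∑ k ∈ sbIdx ℓ R, sbMaskR leaves s1 ℓ D ρ k ≤ sbLen leaves s1 D := by
  classical
  refine (sb_mask_sum_le hT ℓ hℓ D ρ hρ hleaf R (sb_tree_root_depth hT hℓ)
    (fun L hL _ _ => hT.leaf_le L hL)).trans ?_
  unfold sbLen
  refine Finset.sum_le_sum_of_subset_of_nonneg (fun L hL => ?_) (fun L _ _ => cell_len_nonneg L)
  obtain ⟨h1, h2, _⟩ := Finset.mem_filter.1 hL
  exact Finset.mem_filter.2 ⟨h1, h2⟩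

/-! ## Lengths -/

theorem sb_len_nonneg (leaves : Finset Cell) (s1 : ℤ) (D : Finset ℕ) : 0 ≤ sbLen leaves s1 D := by
  exact Finset.sum_nonneg fun L _ => cell_len_nonneg L

theorem sb_len_le (hT : TreePiece R int leaves s1 K) (D : Finset ℕ) : sbLen leaves s1 D ≤ R.len := by
  unfold sbLen
  refine cell_sum_len_antichain_le ((sb_leaves_antichain hT).subset ?_)
    fun L hL => hT.leaf_le L (Finset.mem_filter.1 hL).1
  exact fun L hL => Finset.mem_coe.2 (Finset.mem_filter.1 (Finset.mem_coe.1 hL)).1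

theorem sb_len_sum_disj (hT : TreePiece R int leaves s1 K) {ι : Type*} (Fm : Finset ι) (D : ι → Finset ℕ)
    (hD : ∀ r ∈ Fm, ∀ r' ∈ Fm, r ≠ r' → Disjoint (D r) (D r')) : ∑ r ∈ Fm, sbLen leaves s1 (D r) ≤ R.len := by
  classical
  unfold sbLen
  rw [← Finset.sum_biUnion]
  · refine cell_sum_len_antichain_le ((sb_leaves_antichain hT).subset ?_) fun L hL => ?_
    · intro L hL
      obtain ⟨r, _, hLr⟩ := Finset.mem_biUnion.1 (Finset.mem_coe.1 hL)
      exact Finset.mem_coe.2 (Finset.mem_filter.1 hLr).1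
    · obtain ⟨r, _, hLr⟩ := Finset.mem_biUnion.1 hL
      exact hT.leaf_le L (Finset.mem_filter.1 hLr).1
  · intro r hr r' hr' hne
    refine Finset.disjoint_left.2 fun L hL hL' => ?_
    exact Finset.disjoint_left.1 (hD r (Finset.mem_coe.1 hr) r' (Finset.mem_coe.1 hr') hne)
      (Finset.mem_filter.1 hL).2 (Finset.mem_filter.1 hL').2

theorem sb_int_len (hT : TreePiece R int leaves s1 K) (S : Finset Cell) (hS : S ⊆ int) : ∑ I ∈ S, I.len ≤ K * R.len := by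
  classical
  have hmap : ∀ I ∈ S, (I.depth - s1).toNat ∈ Finset.range K := by
    intro I hI
    have := hT.int_depth I (hS hI)
    rw [Finset.mem_range]
    omega
  rw [← Finset.sum_fiberwise_of_maps_to hmap]
  have h1 : ∀ d ∈ Finset.range K, ∑ I ∈ S.filter (fun I => (I.depth - s1).toNat = d), I.len ≤ R.len := by
    intro d _
    refine cell_sum_len_antichain_le ?_ fun I hI => hT.int_le I (hS (Finset.mem_filter.1 hI).1)
    intro I hI I' hI' hne hle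
    obtain ⟨h2, h3⟩ := Finset.mem_filter.1 (Finset.mem_coe.1 hI)
    obtain ⟨h4, h5⟩ := Finset.mem_filter.1 (Finset.mem_coe.1 hI')
    have h6 := hT.int_depth I (hS h2)
    have h7 := hT.int_depth I' (hS h4)
    exact hne (cell_eq_of_le_of_depth hle (by omega))
  refine (Finset.sum_le_sum h1).trans (le_of_eq ?_)
  rw [Finset.sum_const, Finset.card_range, nsmul_eq_mul]

/-- ASSEMBLY: the hypotheses of one rectangle. -/
theorem sb_tree_hyp {c0 C0 : ℝ} (hT : TreePiece R int leaves s1 K) (w : Cell → ℝ × ℝ → ℂ) (hw : ∀ I ∈ int, Admissible c0 C0 I (w I))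
    {Ω : Type} [Fintype Ω] (pr : Ω → ℝ) (hpr : ∀ σ, 0 ≤ pr σ) (hpr1 : ∑ σ, pr σ = 1) (ℓ : ℤ) (Z : Ω → Fin 4 → ℤ → ℂ) (ρ : Fin 4 → ℤ → ℝ) (Cm : ℝ)
    (hρ0 : ∀ j k, 0 ≤ ρ j k) (hZs : ∀ σ j k, k ∉ sbIdx ℓ R → Z σ j k = 0) (hρs : ∀ j k, k ∉ sbIdx ℓ R → ρ j k = 0)
    (hleaf : ∀ j, ∀ L ∈ leaves, ∑ k ∈ sbIdx ℓ L, ρ j k ≤ L.len)
    (hmom : ∀ j k, ∑ σ, pr σ * (sbDel ℓ * ‖Z σ j k‖ ^ 2) ^ 4 ≤ (Cm ^ 2 * ρ j k) ^ 4)
    (r : SbRect) (hℓ : s1 + K ≤ ℓ) (hℓ' : s1 + r.t ≤ ℓ) (hab : r.a ≠ r.b) (hge : ∀ j, j ≠ r.a → ∀ d ∈ r.D j, r.t ≤ d) :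
    SbStepHyp c0 C0 (s1 + r.t) ℓ (int.filter (fun I => I.depth < s1 + r.t)) w pr (fun σ j => sbMaskC leaves s1 ℓ (r.D j) (Z σ j))
      (fun j => sbMaskR leaves s1 ℓ (r.D j) (ρ j)) r.a r.b Cm (sbIdx ℓ R) (fun j => sbLen leaves s1 (r.D j)) where
  depth_lt := fun I hI => (Finset.mem_filter.1 hI).2
  adm := fun I hI => hw I (Finset.mem_filter.1 hI).1
  pr_nonneg := hpr
  pr_sum := hpr1
  ab := hab
  ρ_nonneg := fun j k => by
    unfold sbMaskR
    split_ifs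
    · exact hρ0 j k
    · exact le_rfl
  Z_supp := fun σ j k hk => by
    unfold sbMaskC
    split_ifs
    · exact hZs σ j k hk
    · rfl
  ρ_supp := fun j k hk => by
    unfold sbMaskR
    split_ifs
    · exact hρs j k hk
    · rfl
  sub := fun I hI => by
    have h1 := (Finset.mem_filter.1 hI).1
    exact sb_idx_subset ℓ I R (by have := (hT.int_depth I h1).2; omega) (hT.int_le I h1)
  mom := fun j k => by
    unfold sbMaskC sbMaskR
    split_ifs
    · exact hmom j k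
    · simp
  reg := fun j hj J hJ => by
    refine sb_mask_sum_le_len hT ℓ hℓ (r.D j) (ρ j) (hρ0 j) (hleaf j) J (by omega) ?_
    intro L hL hD hJL
    have h1 := hge j hj _ hD
    have h2 := cell_depth_le_of_le hJL
    have h3 := (hT.leaf_depth L hL).1
    have h4 : J = L := cell_eq_of_le_of_depth hJL (by omega)
    rw [h4]
  loc := fun I hI j => by
    have h1 := (Finset.mem_filter.1 hI).1
    refine sb_mask_sum_le_len hT ℓ hℓ (r.D j) (ρ j) (hρ0 j) (hleaf j) I (by have := (hT.int_depth I h1).2; omega) ?_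
    intro L hL _ hIL
    exact absurd hIL (hT.int_leaf I h1 L hL)
  tot := fun j => sb_mask_sum_tot hT ℓ hℓ (r.D j) (ρ j) (hρ0 j) (hleaf j)

end Claimed.Agent.R258
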