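/-
Row 258, block [S7b] (architect: helper243).  FILE Sum: SUMMATION OVER THE RECTANGLES (sides.tex l.456-470), step inputs.
Leaves: P-SB-SU1 (`sb_rects_t_le`), P-SB-SU2 (`sb_holder3`, `sb_prod_E_le`), P-SB-SU3 (`sb_fam_sum`), P-SB-SU4 (`sb_final_num`).   `sb_step_goal` is assembled by the architect.

`θ = 1 - 2/p⋆ = 2/p' = (q-2)/(q-1) ∈ [0, q-2]`, `p⋆ = sbP q`, `p' = sbP' q`.
* `sb_rects_t_le`: type A: `t ≤ K`.  Type B: `t = (2p+1) 2^i`, `p ≤ K`, `i < Nat.size K` so `2^i ≤ K` (`Nat.lt_size`), for `K = 0` there is no `i`.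
* `sb_holder3`: if `X = ∑ x = 0` or `Y = ∑ y = 0` all terms vanish.  Otherwise weighted AM-GM (`Real.geom_mean_le_arith_mean3_weighted`, weights `1/p, 1/p, θ`) for `x r / X`, `y r / Y`, `1/J`; sum over `r`.
* `sb_prod_E_le`: split `∏_{j : Fin 4}` into `a`, `b` and the two other slots (`Finset.mul_prod_erase` twice, or `fin_cases a <;> fin_cases b`); for the others `E j ^ (1/p') ≤ L ^ (1/p')`, `L^(1/p') L^(1/p') = L^θ`.
* `sb_fam_sum`: three sums.  (i) `∑ √(x y) ≤ √(∑ x ∑ y) ≤ L` (`Real.sum_sqrt_mul_sqrt_le`-type Cauchy-Schwarz).  (ii) `#Fm · K L/(K+2)^10 ≤ (K+1) K L/(K+2)^10 ≤ L`.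
  (iii) `A^θ L^θ ∑ (x y)^{1/p⋆} ≤ A^θ L^θ (K+1)^θ L^{2/p⋆} = (A (K+1))^θ L ≤ (K+2)^{11 θ} L ≤ (K+2)^{11 (q-2)} L`.
* `sb_final_num`: `16 + 64 size K ≤ 128 (1 + log (K+2))` (`sb_size_le`), `2 + CN P ≤ 2 (1 + CN) P` for `P = (K+2)^{11(q-2)} ≥ 1`, `x ≤ x^11` for `x = 1 + log (K+2) ≥ 1`.
-/
import Claimed.Agent.R258.S7b.Cont
import Claimed.Agent.R258.S7b.Tree

set_option autoImplicit false
open MeasureTheory
open scoped ENNReal

namespace Claimed.Agent.R258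

theorem sb_rects_t_le (K : ℕ) (r : SbRect) (hr : r ∈ sbRects K) : r.t ≤ 4 * (K + 1) ^ 2 := by
  unfold sbRects at hr
  rcases Finset.mem_union.1 hr with h | h
  · obtain ⟨x, hx, rfl⟩ := Finset.mem_image.1 h
    have h1 := Finset.mem_range.1 (Finset.mem_product.1 hx).2
    show x.2 ≤ _
    nlinarith
  · obtain ⟨x, hx, rfl⟩ := Finset.mem_image.1 h
    obtain ⟨_, h2⟩ := Finset.mem_product.1 hx
    obtain ⟨h3, h4⟩ := Finset.mem_product.1 h2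
    have h5 : 2 ^ x.2.1 ≤ K := Nat.lt_size.1 (Finset.mem_range.1 h3)
    have h6 := Finset.mem_range.1 h4
    show (2 * x.2.2 + 1) * 2 ^ x.2.1 ≤ _
    calc (2 * x.2.2 + 1) * 2 ^ x.2.1 ≤ (2 * K + 1) * K := Nat.mul_le_mul (by omega) h5
      _ ≤ _ := by nlinarith

theorem sb_holder3_aux {ι : Type*} (Fm : Finset ι) (x y : ι → ℝ) (hx : ∀ r, 0 ≤ x r) (hy : ∀ r, 0 ≤ y r) (p : ℝ)
    (hp : 2 < p) :
    ∑ r ∈ Fm, x r ^ (1 / p) * y r ^ (1 / p)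
      ≤ (Fm.card : ℝ) ^ (1 - 2 / p) * (∑ r ∈ Fm, x r) ^ (1 / p) * (∑ r ∈ Fm, y r) ^ (1 / p) := by
  have hp0 : 0 < p := by linarith
  have hS : ∀ z : ι → ℝ, (∀ r, 0 ≤ z r) →
      ∑ r ∈ Fm, (z r ^ (1 / p)) ^ 2 ≤ (Fm.card : ℝ) ^ (1 - 2 / p) * ((∑ r ∈ Fm, z r) ^ (1 / p)) ^ 2 := by
    intro z hz
    have h1 := Real.inner_le_weight_mul_Lp_of_nonneg Fm (p := p / 2) (by linarith) (fun _ => 1)
      (fun r => z r ^ (2 / p)) (fun _ => zero_le_one) (fun r => Real.rpow_nonneg (hz r) _)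
    have e1 : ∀ r, (z r ^ (2 / p)) ^ (p / 2) = z r := by
      intro r
      rw [← Real.rpow_mul (hz r)]
      have : 2 / p * (p / 2) = 1 := by field_simp
      rw [this, Real.rpow_one]
    have e2 : (p / 2)⁻¹ = 2 / p := by rw [inv_div]
    have e3 : ∀ u : ℝ, 0 ≤ u → (u ^ (1 / p)) ^ 2 = u ^ (2 / p) := by
      intro u hu
      rw [← Real.rpow_natCast, ← Real.rpow_mul hu]
      congr 1
      push_cast
      ring
    simp only [one_mul, e1, e2, Finset.sum_const, nsmul_eq_mul, mul_one] at h1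
    rw [e3 _ (Finset.sum_nonneg fun r _ => hz r)]
    refine le_trans (le_of_eq ?_) h1
    exact Finset.sum_congr rfl fun r _ => e3 _ (hz r)
  have hJ : 0 ≤ (Fm.card : ℝ) ^ (1 - 2 / p) := Real.rpow_nonneg (Nat.cast_nonneg _) _
  have hX : 0 ≤ (∑ r ∈ Fm, x r) ^ (1 / p) := Real.rpow_nonneg (Finset.sum_nonneg fun r _ => hx r) _
  have hY : 0 ≤ (∑ r ∈ Fm, y r) ^ (1 / p) := Real.rpow_nonneg (Finset.sum_nonneg fun r _ => hy r) _
  refine (Real.sum_mul_le_sqrt_mul_sqrt Fm _ _).trans ?_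
  rw [← Real.sqrt_mul (Finset.sum_nonneg fun r _ => sq_nonneg _)]
  refine Real.sqrt_le_iff.2 ⟨by positivity, ?_⟩
  calc (∑ r ∈ Fm, (x r ^ (1 / p)) ^ 2) * ∑ r ∈ Fm, (y r ^ (1 / p)) ^ 2
      ≤ ((Fm.card : ℝ) ^ (1 - 2 / p) * ((∑ r ∈ Fm, x r) ^ (1 / p)) ^ 2) *
          ((Fm.card : ℝ) ^ (1 - 2 / p) * ((∑ r ∈ Fm, y r) ^ (1 / p)) ^ 2) :=
        mul_le_mul (hS x hx) (hS y hy) (Finset.sum_nonneg fun r _ => sq_nonneg _) (by positivity)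
    _ = _ := by ring

/-- Hoelder with the exponents `(1/θ, p, p)`, `θ = 1 - 2/p`. -/
theorem sb_holder3 {ι : Type*} (Fm : Finset ι) (x y : ι → ℝ) (hx : ∀ r ∈ Fm, 0 ≤ x r) (hy : ∀ r ∈ Fm, 0 ≤ y r) (p : ℝ) (hp : 2 < p) :
    ∑ r ∈ Fm, x r ^ (1 / p) * y r ^ (1 / p) ≤ (Fm.card : ℝ) ^ (1 - 2 / p) * (∑ r ∈ Fm, x r) ^ (1 / p) * (∑ r ∈ Fm, y r) ^ (1 / p) := by
  have h := sb_holder3_aux Fm (fun r => |x r|) (fun r => |y r|) (fun r => abs_nonneg _) (fun r => abs_nonneg _) p hp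
  have e1 : ∑ r ∈ Fm, |x r| = ∑ r ∈ Fm, x r := Finset.sum_congr rfl fun r hr => abs_of_nonneg (hx r hr)
  have e2 : ∑ r ∈ Fm, |y r| = ∑ r ∈ Fm, y r := Finset.sum_congr rfl fun r hr => abs_of_nonneg (hy r hr)
  have e3 : ∑ r ∈ Fm, |x r| ^ (1 / p) * |y r| ^ (1 / p) = ∑ r ∈ Fm, x r ^ (1 / p) * y r ^ (1 / p) :=
    Finset.sum_congr rfl fun r hr => by rw [abs_of_nonneg (hx r hr), abs_of_nonneg (hy r hr)]
  rwa [e1, e2, e3] at h

theorem sb_prod_E_le (q : ℝ) (hq : 2 < q) (a b : Fin 4) (hab : a ≠ b) (E : Fin 4 → ℝ) (L : ℝ) (hE0 : ∀ j, 0 ≤ E j) (hE1 : ∀ j, E j ≤ L) :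
    ∏ j : Fin 4, E j ^ (1 / sbPj q a b j) ≤ E a ^ (1 / sbP q) * E b ^ (1 / sbP q) * L ^ (1 - 2 / sbP q) := by
  have hL : 0 ≤ L := (hE0 a).trans (hE1 a)
  have hq1 : q - 1 ≠ 0 := by linarith
  have hq2 : q - 2 ≠ 0 := by linarith
  have hP' : 0 ≤ 1 / sbP' q := by
    unfold sbP'
    have h1 : 0 < q - 1 := by linarith
    have h2 : 0 < q - 2 := by linarith
    positivity
  have ea : sbPj q a b a = sbP q := if_pos (Or.inl rfl)
  have eb : sbPj q a b b = sbP q := if_pos (Or.inr rfl)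
  rw [← Finset.mul_prod_erase Finset.univ _ (Finset.mem_univ a),
    ← Finset.mul_prod_erase (Finset.univ.erase a) _ (Finset.mem_erase.2 ⟨hab.symm, Finset.mem_univ b⟩),
    ← mul_assoc, ea, eb]
  refine mul_le_mul_of_nonneg_left ?_ (mul_nonneg (Real.rpow_nonneg (hE0 a) _) (Real.rpow_nonneg (hE0 b) _))
  have hcard : ((Finset.univ.erase a).erase b).card = 2 := by
    rw [Finset.card_erase_of_mem (Finset.mem_erase.2 ⟨hab.symm, Finset.mem_univ b⟩),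
      Finset.card_erase_of_mem (Finset.mem_univ a)]
    rfl
  calc ∏ j ∈ (Finset.univ.erase a).erase b, E j ^ (1 / sbPj q a b j)
      ≤ ∏ _j ∈ (Finset.univ.erase a).erase b, L ^ (1 / sbP' q) := by
        refine Finset.prod_le_prod (fun j _ => Real.rpow_nonneg (hE0 j) _) fun j hj => ?_
        rw [Finset.mem_erase, Finset.mem_erase] at hj
        have ej : sbPj q a b j = sbP' q := if_neg (not_or.2 ⟨hj.2.1, hj.1⟩)
        rw [ej]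
        exact Real.rpow_le_rpow (hE0 j) (hE1 j) hP'
    _ = L ^ (1 - 2 / sbP q) := by
        rw [Finset.prod_const, hcard, ← Real.rpow_natCast, ← Real.rpow_mul hL]
        congr 1
        unfold sbP sbP'
        push_cast
        field_simp
        ring

/-- the sum over one family of rectangles. -/
theorem sb_fam_sum (q : ℝ) (hq : 2 < q) (hq3 : q < 3) (K : ℕ) (CN L : ℝ) (hCN : 0 ≤ CN) (hL : 0 ≤ L) {ι : Type*} (Fm : Finset ι) (hcard : Fm.card ≤ K + 1)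
    (a b : ι → Fin 4) (hab : ∀ r ∈ Fm, a r ≠ b r) (E : ι → Fin 4 → ℝ) (hE0 : ∀ r ∈ Fm, ∀ j, 0 ≤ E r j) (hE1 : ∀ r ∈ Fm, ∀ j, E r j ≤ L)
    (ha : ∑ r ∈ Fm, E r (a r) ≤ L) (hb : ∑ r ∈ Fm, E r (b r) ≤ L) :
    ∑ r ∈ Fm, sbBd q CN (((K : ℝ) + 2) ^ 10) (K * L) (a r) (b r) (E r) ≤ (2 + CN * ((K : ℝ) + 2) ^ (11 * (q - 2))) * L := by
  obtain ⟨hP1, hP2, hP4⟩ := sb_exp_P q hq hq3
  obtain ⟨hθ0, hθ1⟩ := sb_exp_gain q hq
  have hP0 : 0 < sbP q := by linarith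
  set θ := 1 - 2 / sbP q with hθ
  have hK0 : (0 : ℝ) ≤ K := Nat.cast_nonneg K
  have hK2 : (1 : ℝ) ≤ (K : ℝ) + 2 := by linarith
  have hK2' : (0 : ℝ) ≤ (K : ℝ) + 2 := by linarith
  set A : ℝ := ((K : ℝ) + 2) ^ 10 with hA
  have hA0 : 0 < A := by positivity
  have hc : (Fm.card : ℝ) ≤ K + 1 := by exact_mod_cast hcard
  have s1 : ∑ r ∈ Fm, Real.sqrt (E r (a r) * E r (b r)) ≤ L := by
    have h1 := Real.sum_mul_le_sqrt_mul_sqrt Fm (fun r => Real.sqrt (E r (a r))) (fun r => Real.sqrt (E r (b r)))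
    have e1 : ∑ r ∈ Fm, Real.sqrt (E r (a r)) ^ 2 = ∑ r ∈ Fm, E r (a r) :=
      Finset.sum_congr rfl fun r hr => Real.sq_sqrt (hE0 r hr _)
    have e2 : ∑ r ∈ Fm, Real.sqrt (E r (b r)) ^ 2 = ∑ r ∈ Fm, E r (b r) :=
      Finset.sum_congr rfl fun r hr => Real.sq_sqrt (hE0 r hr _)
    rw [e1, e2] at h1
    calc ∑ r ∈ Fm, Real.sqrt (E r (a r) * E r (b r))
        = ∑ r ∈ Fm, Real.sqrt (E r (a r)) * Real.sqrt (E r (b r)) :=
          Finset.sum_congr rfl fun r hr => Real.sqrt_mul (hE0 r hr _) _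
      _ ≤ Real.sqrt (∑ r ∈ Fm, E r (a r)) * Real.sqrt (∑ r ∈ Fm, E r (b r)) := h1
      _ ≤ Real.sqrt L * Real.sqrt L :=
          mul_le_mul (Real.sqrt_le_sqrt ha) (Real.sqrt_le_sqrt hb) (Real.sqrt_nonneg _) (Real.sqrt_nonneg _)
      _ = L := Real.mul_self_sqrt hL
  have s2 : ∑ _r ∈ Fm, (K * L) / A ≤ L := by
    rw [Finset.sum_const, nsmul_eq_mul]
    have h3 : ((K : ℝ) + 1) * K ≤ A := by
      have h4 : ((K : ℝ) + 2) ^ 2 ≤ ((K : ℝ) + 2) ^ 10 := pow_le_pow_right₀ hK2 (by norm_num)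
      nlinarith
    rw [mul_div_assoc', div_le_iff₀ hA0]
    calc (Fm.card : ℝ) * (K * L) ≤ ((K : ℝ) + 1) * (K * L) := mul_le_mul_of_nonneg_right hc (by positivity)
      _ = (((K : ℝ) + 1) * K) * L := by ring
      _ ≤ A * L := mul_le_mul_of_nonneg_right h3 hL
      _ = L * A := mul_comm _ _
  have hAθ : 0 ≤ A ^ θ := Real.rpow_nonneg hA0.le _
  have hLθ : 0 ≤ L ^ θ := Real.rpow_nonneg hL _
  have hLP : 0 ≤ L ^ (1 / sbP q) := Real.rpow_nonneg hL _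
  have hX0 : 0 ≤ ∑ r ∈ Fm, E r (a r) := Finset.sum_nonneg fun r hr => hE0 r hr _
  have hY0 : 0 ≤ ∑ r ∈ Fm, E r (b r) := Finset.sum_nonneg fun r hr => hE0 r hr _
  have hiP : 0 ≤ 1 / sbP q := by positivity
  have eL : L ^ θ * (L ^ (1 / sbP q) * L ^ (1 / sbP q)) = L := by
    have h1 : 1 / sbP q + 1 / sbP q ≠ 0 := by positivity
    have h2 : θ + (1 / sbP q + 1 / sbP q) = 1 := by rw [hθ]; ring
    rw [← Real.rpow_add' hL h1, ← Real.rpow_add' hL (by rw [h2]; norm_num), h2, Real.rpow_one]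
  have s3 : ∑ r ∈ Fm, A ^ θ * ∏ j : Fin 4, E r j ^ (1 / sbPj q (a r) (b r) j)
      ≤ ((K : ℝ) + 2) ^ (11 * (q - 2)) * L := by
    calc ∑ r ∈ Fm, A ^ θ * ∏ j : Fin 4, E r j ^ (1 / sbPj q (a r) (b r) j)
        ≤ ∑ r ∈ Fm, A ^ θ * (E r (a r) ^ (1 / sbP q) * E r (b r) ^ (1 / sbP q) * L ^ θ) :=
          Finset.sum_le_sum fun r hr => mul_le_mul_of_nonneg_left
            (sb_prod_E_le q hq _ _ (hab r hr) (E r) L (hE0 r hr) (hE1 r hr)) hAθ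
      _ = A ^ θ * L ^ θ * ∑ r ∈ Fm, E r (a r) ^ (1 / sbP q) * E r (b r) ^ (1 / sbP q) := by
          rw [Finset.mul_sum]
          exact Finset.sum_congr rfl fun r _ => by ring
      _ ≤ A ^ θ * L ^ θ * ((Fm.card : ℝ) ^ θ * (∑ r ∈ Fm, E r (a r)) ^ (1 / sbP q) *
            (∑ r ∈ Fm, E r (b r)) ^ (1 / sbP q)) :=
          mul_le_mul_of_nonneg_left (sb_holder3 Fm _ _ (fun r hr => hE0 r hr _) (fun r hr => hE0 r hr _) _ hP2)
            (mul_nonneg hAθ hLθ)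
      _ ≤ A ^ θ * L ^ θ * (((K : ℝ) + 1) ^ θ * L ^ (1 / sbP q) * L ^ (1 / sbP q)) := by
          refine mul_le_mul_of_nonneg_left ?_ (mul_nonneg hAθ hLθ)
          refine mul_le_mul (mul_le_mul (Real.rpow_le_rpow (Nat.cast_nonneg _) hc hθ0)
            (Real.rpow_le_rpow hX0 ha hiP) (Real.rpow_nonneg hX0 _) (Real.rpow_nonneg (by linarith) _))
            (Real.rpow_le_rpow hY0 hb hiP) (Real.rpow_nonneg hY0 _)
            (mul_nonneg (Real.rpow_nonneg (by linarith) _) hLP)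
      _ = (A * ((K : ℝ) + 1)) ^ θ * L := by
          rw [Real.mul_rpow hA0.le (by linarith)]
          calc A ^ θ * L ^ θ * (((K : ℝ) + 1) ^ θ * L ^ (1 / sbP q) * L ^ (1 / sbP q))
              = A ^ θ * ((K : ℝ) + 1) ^ θ * (L ^ θ * (L ^ (1 / sbP q) * L ^ (1 / sbP q))) := by ring
            _ = _ := by rw [eL]
      _ ≤ (((K : ℝ) + 2) ^ 11) ^ θ * L := by
          refine mul_le_mul_of_nonneg_right (Real.rpow_le_rpow (by positivity) ?_ hθ0) hL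
          calc A * ((K : ℝ) + 1) ≤ A * ((K : ℝ) + 2) := mul_le_mul_of_nonneg_left (by linarith) hA0.le
            _ = ((K : ℝ) + 2) ^ 11 := by rw [hA]; ring
      _ = ((K : ℝ) + 2) ^ (11 * θ) * L := by
          rw [← Real.rpow_natCast, ← Real.rpow_mul hK2']
          norm_num
      _ ≤ ((K : ℝ) + 2) ^ (11 * (q - 2)) * L :=
          mul_le_mul_of_nonneg_right (Real.rpow_le_rpow_of_exponent_le hK2 (by linarith)) hL
  unfold sbBd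
  rw [Finset.sum_add_distrib, Finset.sum_add_distrib, ← Finset.mul_sum]
  have s4 := mul_le_mul_of_nonneg_left s3 hCN
  linarith

theorem sb_final_num (q : ℝ) (hq : 2 < q) (K : ℕ) (CN L C1 : ℝ) (hCN : 0 ≤ CN) (hL : 0 ≤ L) (hC1 : 0 ≤ C1) :
    C1 * (((16 + 64 * Nat.size K : ℕ) : ℝ) * ((2 + CN * ((K : ℝ) + 2) ^ (11 * (q - 2))) * L))
      ≤ (1 + CN) * (256 * C1) * (1 + Real.log ((K : ℝ) + 2)) ^ (11 : ℝ) * ((K : ℝ) + 2) ^ (11 * (q - 2)) * L := by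
  have hK0 : (0 : ℝ) ≤ K := Nat.cast_nonneg K
  have hK2 : (1 : ℝ) ≤ (K : ℝ) + 2 := by linarith
  set P := ((K : ℝ) + 2) ^ (11 * (q - 2)) with hP
  have hP1 : 1 ≤ P := Real.one_le_rpow hK2 (by linarith)
  have hlog : 0 ≤ Real.log ((K : ℝ) + 2) := Real.log_nonneg hK2
  set x := 1 + Real.log ((K : ℝ) + 2) with hx
  have hx1 : 1 ≤ x := by linarith
  have hx11 : x ≤ x ^ (11 : ℝ) := Real.self_le_rpow_of_one_le hx1 (by norm_num)
  have hsz := sb_size_le K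
  have h1 : ((16 + 64 * Nat.size K : ℕ) : ℝ) ≤ 128 * x := by
    push_cast
    linarith
  have h2 : 2 + CN * P ≤ 2 * (1 + CN) * P := by nlinarith
  have h3 : 0 ≤ 2 + CN * P := by positivity
  calc C1 * (((16 + 64 * Nat.size K : ℕ) : ℝ) * ((2 + CN * P) * L))
      ≤ C1 * ((128 * x) * ((2 * (1 + CN) * P) * L)) := by
        refine mul_le_mul_of_nonneg_left ?_ hC1
        exact mul_le_mul h1 (mul_le_mul_of_nonneg_right h2 hL) (mul_nonneg h3 hL) (by positivity)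
    _ = (1 + CN) * (256 * C1) * x * P * L := by ring
    _ ≤ (1 + CN) * (256 * C1) * x ^ (11 : ℝ) * P * L := by
        refine mul_le_mul_of_nonneg_right (mul_le_mul_of_nonneg_right ?_ (by positivity)) hL
        exact mul_le_mul_of_nonneg_left hx11 (by positivity)

/-- Lemma 7.2 for step inputs of depth `ℓ`, sizes `s_j = 1`. -/
def SbStepGoal (c0 C0 : ℝ) (b0 : ℕ) : Prop :=
  ∀ q : ℝ, 2 < q → q < 3 → ∀ Cm : ℝ, 1 ≤ Cm → ∃ Cq : ℝ, 0 < Cq ∧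
  ∀ (N : ℕ) (CN : ℝ) (s0 : ℤ), 0 ≤ CN → LocalBound c0 C0 q N CN →
  ∀ (R : Cell) (int leaves : Finset Cell) (s1 : ℤ) (K : ℕ), TreePiece R int leaves s1 K →
    (∀ I ∈ int, s0 ≤ I.depth ∧ I.depth < s0 + N) →
  ∀ (w : Cell → ℝ × ℝ → ℂ), (∀ I ∈ int, Admissible c0 C0 I (w I)) →
  ∀ (Ω : Type) [Fintype Ω] (pr : Ω → ℝ), (∀ σ, 0 ≤ pr σ) → ∑ σ, pr σ = 1 →
  ∀ (ℓ : ℤ), s1 + 4 * ((K : ℤ) + 1) ^ 2 + b0 ≤ ℓ → ∀ (Z : Ω → Fin 4 → ℤ → ℂ) (ρ : Fin 4 → ℤ → ℝ),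
    (∀ j k, 0 ≤ ρ j k) → (∀ σ j k, k ∉ sbIdx ℓ R → Z σ j k = 0) → (∀ j k, k ∉ sbIdx ℓ R → ρ j k = 0) →
    (∀ j, ∀ L ∈ leaves, ∑ k ∈ sbIdx ℓ L, ρ j k ≤ L.len) →
    (∀ j k, ∑ σ, pr σ * (sbDel ℓ * ‖Z σ j k‖ ^ 2) ^ 4 ≤ (Cm ^ 2 * ρ j k) ^ 4) →
  ∀ (sgn : Ω → Cell → ℂ), (∀ σ I, ‖sgn σ I‖ ≤ 1) →
    ∑ σ, pr σ * ‖∑ I ∈ int, (I.len : ℂ) * sgn σ I * form I (w I) (fun j => sbStep ℓ (Z σ j))‖ ≤
      (1 + CN) * Cq * (1 + Real.log ((K : ℝ) + 2)) ^ (11 : ℝ) * ((K : ℝ) + 2) ^ (11 * (q - 2)) * R.len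

theorem sb_fam_bound (q : ℝ) (hq : 2 < q) (hq3 : q < 3) (CN : ℝ) (hCN : 0 ≤ CN) {R : Cell} {int leaves : Finset Cell} {s1 : ℤ} {K : ℕ}
    (hT : TreePiece R int leaves s1 K) (f : ℕ) :
    ∑ r ∈ (sbRects K).filter (fun r => r.fam = f), sbBd q CN (((K : ℝ) + 2) ^ 10) (K * R.len) r.a r.b (fun j => sbLen leaves s1 (r.D j))
      ≤ (2 + CN * ((K : ℝ) + 2) ^ (11 * (q - 2))) * R.len := by
  have hlen : 0 ≤ R.len := by unfold Cell.len; positivity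
  generalize hF : (sbRects K).filter (fun r => r.fam = f) = Fm
  have hmem : ∀ r ∈ Fm, r ∈ sbRects K ∧ r.fam = f := by
    intro r hr
    rw [← hF] at hr
    exact Finset.mem_filter.1 hr
  have hcard : Fm.card ≤ K + 1 := by
    rw [← hF]
    exact sb_rects_card K f
  have ha : ∑ r ∈ Fm, sbLen leaves s1 (r.D r.a) ≤ R.len :=
    sb_len_sum_disj hT Fm (fun r => r.D r.a) fun r hr r' hr' hne =>
      (sb_rects_disj K r r' (hmem r hr).1 (hmem r' hr').1 ((hmem r hr).2.trans (hmem r' hr').2.symm) hne).1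
  have hb : ∑ r ∈ Fm, sbLen leaves s1 (r.D r.b) ≤ R.len :=
    sb_len_sum_disj hT Fm (fun r => r.D r.b) fun r hr r' hr' hne =>
      (sb_rects_disj K r r' (hmem r hr).1 (hmem r' hr').1 ((hmem r hr).2.trans (hmem r' hr').2.symm) hne).2
  exact sb_fam_sum q hq hq3 K CN R.len hCN hlen Fm hcard (fun r => r.a) (fun r => r.b)
    (fun r hr => (sb_rects_props K r (hmem r hr).1).1) (fun r j => sbLen leaves s1 (r.D j))
    (fun r _ j => sb_len_nonneg _ _ _) (fun r _ j => sb_len_le hT _) ha hb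

theorem sb_step_goal (c0 C0 : ℝ) (hc0 : 0 < c0) (hC0 : 1 ≤ C0) (b0 : ℕ) (hb0 : 4 ≤ c0 * 2 ^ b0) (hb3 : 3 ≤ b0) : SbStepGoal c0 C0 b0 := by
  intro q hq hq3 Cm hCm
  obtain ⟨C1, hC1, hcont⟩ := sb_cont c0 C0 hc0 hC0 b0 hb0 hb3 q hq hq3 Cm hCm
  refine ⟨256 * C1, by positivity, ?_⟩
  intro N CN s0 hCN hLB R int leaves s1 K hT hrange w hw Ω _ pr hpr hpr1 ℓ hℓ Z ρ hρ0 hZs hρs hleaf hmom sgn hsgn
  have hlen : ∀ I : Cell, 0 ≤ I.len := fun I => by unfold Cell.len; positivity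
  have hℓK : s1 + K ≤ ℓ := by nlinarith
  set A : ℝ := ((K : ℝ) + 2) ^ 10 with hA
  have hA1 : 1 ≤ A := one_le_pow₀ (by have : (0 : ℝ) ≤ K := Nat.cast_nonneg K; linarith)
  set V : ℝ := K * R.len with hV
  -- one rectangle
  have rect : ∀ r ∈ sbRects K, ∑ σ, pr σ * ‖∑ I ∈ int, (I.len : ℂ) * sgn σ I *
      form I (w I) (fun j => sbStep ℓ (sbMaskC leaves s1 ℓ (r.D j) (Z σ j)))‖
      ≤ C1 * sbBd q CN A V r.a r.b (fun j => sbLen leaves s1 (r.D j)) := by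
    intro r hr
    obtain ⟨hab, hle, hge, -⟩ := sb_rects_props K r hr
    have ht := sb_rects_t_le K r hr
    have ht' : s1 + (r.t : ℤ) + b0 ≤ ℓ := by
      have : (r.t : ℤ) ≤ 4 * ((K : ℤ) + 1) ^ 2 := by exact_mod_cast ht
      linarith
    have hyp := sb_tree_hyp hT w hw pr hpr hpr1 ℓ Z ρ Cm hρ0 hZs hρs hleaf hmom r hℓK (by omega) hab hge
    have := hcont N CN s0 hCN hLB (s1 + r.t) ℓ ht' _ w Ω pr _ _ r.a r.b _ _ hyp
      (fun I hI => hrange I (Finset.mem_filter.1 hI).1) A V hA1 (sb_int_len hT _ (Finset.filter_subset _ _)) sgn hsgn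
    refine le_trans (le_of_eq ?_) this
    refine Finset.sum_congr rfl fun σ _ => ?_
    congr 2
    rw [Finset.sum_filter]
    refine Finset.sum_congr rfl fun I hI => ?_
    split_ifs with h
    · rfl
    · rw [sb_tree_vanish hc0 hT hI (hw I hI) ℓ hℓK (Z σ) r.D r.a r.t hle (by omega), mul_zero]
  -- decomposition
  have dec : ∀ σ, ∑ I ∈ int, (I.len : ℂ) * sgn σ I * form I (w I) (fun j => sbStep ℓ (Z σ j))
      = ∑ r ∈ sbRects K, ∑ I ∈ int, (I.len : ℂ) * sgn σ I * form I (w I) (fun j => sbStep ℓ (sbMaskC leaves s1 ℓ (r.D j) (Z σ j))) := by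
    intro σ
    rw [Finset.sum_comm]
    refine Finset.sum_congr rfl fun I hI => ?_
    rw [sb_form_rect hc0 hT (hw I hI) ℓ hℓK (Z σ) (hZs σ), Finset.mul_sum]
  have s1' : ∑ σ, pr σ * ‖∑ I ∈ int, (I.len : ℂ) * sgn σ I * form I (w I) (fun j => sbStep ℓ (Z σ j))‖
      ≤ ∑ r ∈ sbRects K, C1 * sbBd q CN A V r.a r.b (fun j => sbLen leaves s1 (r.D j)) := by
    calc _ ≤ ∑ σ, pr σ * ∑ r ∈ sbRects K, ‖∑ I ∈ int, (I.len : ℂ) * sgn σ I *
          form I (w I) (fun j => sbStep ℓ (sbMaskC leaves s1 ℓ (r.D j) (Z σ j)))‖ := by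
          refine Finset.sum_le_sum fun σ _ => mul_le_mul_of_nonneg_left ?_ (hpr σ)
          rw [dec σ]
          exact norm_sum_le _ _
      _ = ∑ r ∈ sbRects K, ∑ σ, pr σ * ‖∑ I ∈ int, (I.len : ℂ) * sgn σ I *
          form I (w I) (fun j => sbStep ℓ (sbMaskC leaves s1 ℓ (r.D j) (Z σ j)))‖ := by
          simp only [Finset.mul_sum]
          exact Finset.sum_comm
      _ ≤ _ := Finset.sum_le_sum rect
  -- families
  have fam : ∀ f : ℕ, ∑ r ∈ (sbRects K).filter (fun r => r.fam = f), sbBd q CN A V r.a r.b (fun j => sbLen leaves s1 (r.D j))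
      ≤ (2 + CN * ((K : ℝ) + 2) ^ (11 * (q - 2))) * R.len := fun f => sb_fam_bound q hq hq3 CN hCN hT f
  have tot : ∑ r ∈ sbRects K, sbBd q CN A V r.a r.b (fun j => sbLen leaves s1 (r.D j))
      ≤ ((16 + 64 * Nat.size K : ℕ) : ℝ) * ((2 + CN * ((K : ℝ) + 2) ^ (11 * (q - 2))) * R.len) := by
    rw [← Finset.sum_fiberwise_of_maps_to (s := sbRects K) (t := Finset.range (16 + 64 * Nat.size K)) (g := fun r => r.fam)
      (fun r hr => Finset.mem_range.2 (sb_rects_fam K r hr))]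
    refine (Finset.sum_le_sum fun f _ => fam f).trans (le_of_eq ?_)
    rw [Finset.sum_const, Finset.card_range, nsmul_eq_mul]
  refine s1'.trans ?_
  rw [← Finset.mul_sum]
  exact (mul_le_mul_of_nonneg_left tot hC1.le).trans (sb_final_num q hq K CN R.len C1 hCN (hlen R) hC1.le)

end Claimed.Agent.R258
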