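/-
Row 258, block [S7b] (architect: helper243).  FILE Clip: the discrete form: absolute estimates, invariance under the randomisation, clipping error (sides.tex l.345-383).  Self-contained.
Leaves: P-SB-CL1 (`sb_clip_*`, `sb_G0_*`, `sb_G_*`: first two sections), P-SB-CL2 (`sb_disc_abs`, `sb_disc_invariant`, `sb_disc_sub`), P-SB-CL3 (`sb_abs_avg2`), P-SB-CL4 (`sb_abs_avg3`, `sb_loc_34`),
P-SB-CL5 (`sb_disc_clip`), P-SB-CL6 (`sb_clip_avg`), P-SB-CL7 (`sb_err_sum_disc`).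

`τ = t + b0`, `δ = sbDel τ`.   `sbFp k F = M⁻¹ ∑_x ‖F x‖^k`,  `sbLoc τ I g = (δ/|I|) ∑_{n ∈ sbInn τ I} g n`.
* `sb_G0_fp2` = `sb_U_norm`; `sb_G0_fp4_avg` = `sb_U_fourth` (+ `sb_C_ne_zero`), normalised; `sb_G_fp2_le`: clipping does not increase the modulus.
* `sb_disc_abs`: triangle inequality, `sb_ker_bound`; a term with `w(δ n0, δ(n1-n0)) ≠ 0` has all `sbAp n0 n1 j ∈ sbInn τ I` (`sb_ker_inn`), in particular `n0, n1 ∈ sbInn τ I` (`j = 0, 1`).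
* `sb_disc_invariant`: exchange the sums, `sb_U_invariant` for the four functions `F j (sbAp n0 n1 j)`.
* `sb_disc_sub`: `∏_j G0_j - ∏_j G_j = (G0_a - G_a) ∏_{j ≠ a} G0_j` since `G_j = G0_j` for `j ≠ a`.
* `sb_abs_avg2`/`sb_abs_avg3`: `sb_H1`/`sb_H2` in the ring `A = ℤ × ZMod M` (`sbAp (n0,u) (n1,v) j = (sbAp n0 n1 j, sbAp u v j)`), `P = sbInn τ I ×ˢ univ`, `H j (n,x) = if n ∈ sbInn τ I then ‖H j n x‖ else 0`;
  normalisation `(δ/|I|)² M⁻² = ∏_j ((δ/|I|) M⁻¹)^{1/2} = ((δ/|I|) M⁻¹) ∏_{j ≠ a} ((δ/|I|) M⁻¹)^{1/3}`.  No 2-, 3-torsion in `ZMod M`: `M` prime `> 3`.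
* `sb_loc_34`: power mean for the measure `(δ/|I|) M⁻¹ · counting` on `sbInn τ I × ZMod M`, of total mass `≤ 1` (`sb_inn_card_le`):  `∑ λ x³ ≤ (∑ λ x⁴)^{3/4} (∑ λ)^{1/4}` (Hoelder).
* `sb_disc_clip`: `sb_disc_sub`, `sb_disc_abs`, `sb_abs_avg3`, `sb_loc_34`, `‖z - clip z‖ ≤ ‖z‖²/A`, `sb_G0_fp2`.
* `sb_clip_avg`: `sb_hold4` on `Ω × ZMod M` with the weights `pr σ / M` and `X a = sbLoc (fp2 F_a)`, `X j = (sbLoc (fp4 G0_j))^{1/4}`.  `E X_a⁴ ≤ (Cm² sbLoc (ms a))⁴ ≤ Cm⁸` (`sb_mink`, `loc`).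
  `E X_j⁴ = sbLoc (E_σ E_γ fp4) ≤ sbLoc (2 E_σ fp2²) ≤ 2 Cm⁴ sbLoc (ms j ²) ≤ 2 Cm⁴ 2^b0` (`sb_G0_fp4_avg`, `sb_jensen24`, `mom`, `reg`, `loc`).  Finally `Cm² (2 · 2^b0 Cm⁴)^{3/4} ≤ 2 · 2^b0 Cm⁵`.
* `sb_err_sum_disc`: per cell `sb_prod_sqrt_mom` (`c = δ/|I|`, `N = sbInn τ I`, `f σ j n = sbFp 2 (F σ j n)`, `g = ms`); then `∑_I (δ/|I|) √((δ ∑_{Inn I} ms a)(δ ∑_{Inn I} ms b)) ≤ √(E a E b)` by `sb_cs_cover`
  (`lam I = δ/|I|`; `hcov` from `sb_cover_le`, `sb_inn_subset_idx`, `δ 2^t = 2^(-b0) ≤ 1`; `hN` = field `sub`), `tot`.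
-/
import Claimed.Agent.R258.Pack009
import Claimed.Agent.R258.S7b.Idx

set_option autoImplicit false
open MeasureTheory
open scoped ENNReal

namespace Claimed.Agent.R258

/-! ## Clipping -/

theorem sb_clip_zero (A : ℝ) : sbClip A 0 = 0 := by
  simp [sbClip]

theorem sb_clip_norm_of_lt (A : ℝ) (hA : 0 ≤ A) (z : ℂ) (h : A < ‖z‖) : ‖sbClip A z‖ = A := by
  have hz : 0 < ‖z‖ := lt_of_le_of_lt hA h
  unfold sbClip
  rw [if_neg (not_le.2 h), norm_mul, Complex.norm_real, Real.norm_eq_abs, abs_of_nonneg (by positivity)]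
  field_simp

theorem sb_clip_norm_le (A : ℝ) (hA : 0 ≤ A) (z : ℂ) : ‖sbClip A z‖ ≤ ‖z‖ := by
  by_cases h : ‖z‖ ≤ A
  · unfold sbClip; rw [if_pos h]
  · rw [sb_clip_norm_of_lt A hA z (not_le.1 h)]
    exact (not_le.1 h).le

theorem sb_clip_norm_le' (A : ℝ) (hA : 0 ≤ A) (z : ℂ) : ‖sbClip A z‖ ≤ A := by
  by_cases h : ‖z‖ ≤ A
  · unfold sbClip; rw [if_pos h]; exact h
  · rw [sb_clip_norm_of_lt A hA z (not_le.1 h)]

theorem sb_clip_sub_le (A : ℝ) (hA : 0 < A) (z : ℂ) : ‖z - sbClip A z‖ ≤ ‖z‖ ^ 2 / A := by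
  by_cases h : ‖z‖ ≤ A
  · unfold sbClip; rw [if_pos h, sub_self, norm_zero]; positivity
  · have h' := not_le.1 h
    have hz : 0 < ‖z‖ := lt_trans hA h'
    unfold sbClip
    rw [if_neg h]
    have e : z - ((A / ‖z‖ : ℝ) : ℂ) * z = ((1 - A / ‖z‖ : ℝ) : ℂ) * z := by push_cast; ring
    have h1 : 0 ≤ 1 - A / ‖z‖ := by
      rw [sub_nonneg, div_le_one hz]; exact h'.le
    rw [e, norm_mul, Complex.norm_real, Real.norm_eq_abs, abs_of_nonneg h1, le_div_iff₀ hA]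
    have e2 : (1 - A / ‖z‖) * ‖z‖ = ‖z‖ - A := by field_simp
    rw [e2]
    nlinarith

/-! ## The randomised functions -/

variable {M : ℕ} [NeZero M]

theorem sb_Fp_nonneg (k : ℕ) (F : ZMod M → ℂ) : 0 ≤ sbFp k F := by
  unfold sbFp; positivity

theorem sb_G0_fp2 (γ : ZMod M) (F : Fin 4 → ℤ → ZMod M → ℂ) (j : Fin 4) (n : ℤ) : sbFp 2 (sbG0 γ F j n) = sbFp 2 (F j n) := by
  unfold sbFp sbG0
  rw [sb_U_norm]

theorem sb_G0_fp4_avg (hp : M.Prime) (hM : 3 < M) (F : Fin 4 → ℤ → ZMod M → ℂ) (j : Fin 4) (n : ℤ) :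
    (M : ℝ)⁻¹ * ∑ γ : ZMod M, sbFp 4 (sbG0 γ F j n) ≤ 2 * sbFp 2 (F j n) ^ 2 := by
  have h := sb_U_fourth hp (by omega) (sbC M j) (sb_C_ne_zero hp hM j) (F j n)
  unfold sbFp sbG0
  rw [← Finset.mul_sum, ← mul_assoc]
  calc (M : ℝ)⁻¹ * (M : ℝ)⁻¹ * ∑ γ : ZMod M, ∑ x : ZMod M, ‖sbU (sbC M j) γ (F j n) x‖ ^ 4
      ≤ (M : ℝ)⁻¹ * (M : ℝ)⁻¹ * (2 * (∑ x : ZMod M, ‖F j n x‖ ^ 2) ^ 2) :=
        mul_le_mul_of_nonneg_left h (by positivity)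
    _ = _ := by ring

theorem sb_G_of_ne (a : Fin 4) (A : ℝ) (γ : ZMod M) (F : Fin 4 → ℤ → ZMod M → ℂ) (j : Fin 4) (hj : j ≠ a) : sbG a A γ F j = sbG0 γ F j := by
  funext n x
  simp [sbG, hj]

theorem sb_G_norm_le (a : Fin 4) (A : ℝ) (hA : 0 ≤ A) (γ : ZMod M) (F : Fin 4 → ℤ → ZMod M → ℂ) (j : Fin 4) (n : ℤ) (x : ZMod M) :
    ‖sbG a A γ F j n x‖ ≤ ‖sbG0 γ F j n x‖ := by
  unfold sbG
  split_ifs
  · exact sb_clip_norm_le A hA _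
  · exact le_rfl

theorem sb_G_fp2_le (a : Fin 4) (A : ℝ) (hA : 0 ≤ A) (γ : ZMod M) (F : Fin 4 → ℤ → ZMod M → ℂ) (j : Fin 4) (n : ℤ) :
    sbFp 2 (sbG a A γ F j n) ≤ sbFp 2 (F j n) := by
  rw [← sb_G0_fp2 γ F j n]
  unfold sbFp
  refine mul_le_mul_of_nonneg_left ?_ (by positivity)
  exact Finset.sum_le_sum fun x _ => pow_le_pow_left₀ (norm_nonneg _) (sb_G_norm_le a A hA γ F j n x) 2

theorem sb_G_supp (a : Fin 4) (A : ℝ) (γ : ZMod M) (F : Fin 4 → ℤ → ZMod M → ℂ) (j : Fin 4) (n : ℤ) (h : F j n = 0) : sbG a A γ F j n = 0 := by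
  have h0 : ∀ x, sbG0 γ F j n x = 0 := by
    intro x
    unfold sbG0
    rw [h, sb_U_zero]
    rfl
  funext x
  unfold sbG
  rw [h0 x, sb_clip_zero]
  simp

/-! ## The discrete form -/

theorem sb_clip_lam_nonneg (τ : ℤ) (I : Cell) : 0 ≤ sbDel τ / I.len := by
  have := sb_del_pos τ
  unfold Cell.len
  positivity

/-- absolute bound of the sampled form. -/
theorem sb_clip_samp_abs {c0 C0 : ℝ} {I : Cell} {w : ℝ × ℝ → ℂ} (hw : Admissible c0 C0 I w) (b0 : ℕ) (hb0 : 4 ≤ c0 * 2 ^ b0) (t : ℤ) (hI : I.depth < t)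
    (c : Fin 4 → ℤ → ℂ) :
    ‖sbSamp (t + b0) I w c‖ ≤ sbB0 C0 * sbAbs (t + b0) I (fun j n => ‖c j n‖) := by
  set τ := t + b0 with hτ
  have hB0 : 0 ≤ sbB0 C0 := le_trans (norm_nonneg _) (sb_ker_bound hw (0, 0))
  set T : ℤ → ℤ → ℝ := fun n0 n1 =>
    if ∀ j : Fin 4, sbAp n0 n1 j ∈ sbInn τ I then ∏ j : Fin 4, ‖c j (sbAp n0 n1 j)‖ else 0 with hT
  have hterm : ∀ n0 n1 : ℤ, ‖w (sbDel τ * n0, sbDel τ * (n1 - n0)) * ∏ j : Fin 4, c j (sbAp n0 n1 j)‖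
      ≤ sbB0 C0 * T n0 n1 := by
    intro n0 n1
    by_cases h : w (sbDel τ * n0, sbDel τ * (n1 - n0)) = 0
    · rw [h, zero_mul, norm_zero]
      refine mul_nonneg hB0 ?_
      simp only [hT]
      split_ifs
      · exact Finset.prod_nonneg fun j _ => norm_nonneg _
      · exact le_rfl
    · have hin := sb_ker_inn hw b0 hb0 t hI n0 n1 h
      simp only [hT]
      rw [if_pos hin, norm_mul, norm_prod]
      exact mul_le_mul_of_nonneg_right (sb_ker_bound hw _) (Finset.prod_nonneg fun j _ => norm_nonneg _)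
  have hT0 : ∀ n0 n1 : ℤ, n0 ∉ sbInn τ I → T n0 n1 = 0 := by
    intro n0 n1 h
    simp only [hT]
    rw [if_neg]
    intro hall
    have := hall 0
    rw [sb_hold_ap0] at this
    exact h this
  have hT1 : ∀ n0 n1 : ℤ, n1 ∉ sbInn τ I → T n0 n1 = 0 := by
    intro n0 n1 h
    simp only [hT]
    rw [if_neg]
    intro hall
    have := hall 1
    rw [sb_hold_ap1] at this
    exact h this
  have hsum : ∑ n0 ∈ sbIdx τ I, ∑ n1 ∈ sbIdx τ I, T n0 n1 = ∑ n0 ∈ sbInn τ I, ∑ n1 ∈ sbInn τ I, T n0 n1 := by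
    symm
    refine Finset.sum_subset_zero_on_sdiff (sb_inn_subset_idx τ I) ?_ ?_
    · intro n0 hn0
      exact Finset.sum_eq_zero fun n1 _ => hT0 n0 n1 (Finset.mem_sdiff.1 hn0).2
    · intro n0 _
      refine Finset.sum_subset_zero_on_sdiff (sb_inn_subset_idx τ I) ?_ (fun _ _ => rfl)
      intro n1 hn1
      exact hT1 n0 n1 (Finset.mem_sdiff.1 hn1).2
  unfold sbSamp sbAbs
  rw [norm_mul, Complex.norm_real, Real.norm_eq_abs, abs_of_nonneg (by positivity), ← hsum]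
  calc (sbDel τ / I.len) ^ 2 * ‖∑ n0 ∈ sbIdx τ I, ∑ n1 ∈ sbIdx τ I,
        w (sbDel τ * n0, sbDel τ * (n1 - n0)) * ∏ j : Fin 4, c j (sbAp n0 n1 j)‖
      ≤ (sbDel τ / I.len) ^ 2 * ∑ n0 ∈ sbIdx τ I, ∑ n1 ∈ sbIdx τ I, sbB0 C0 * T n0 n1 := by
        refine mul_le_mul_of_nonneg_left ?_ (by positivity)
        refine (norm_sum_le _ _).trans (Finset.sum_le_sum fun n0 _ => ?_)
        exact (norm_sum_le _ _).trans (Finset.sum_le_sum fun n1 _ => hterm n0 n1)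
    _ = sbB0 C0 * ((sbDel τ / I.len) ^ 2 * ∑ n0 ∈ sbIdx τ I, ∑ n1 ∈ sbIdx τ I, T n0 n1) := by
        simp_rw [← Finset.mul_sum]
        ring

theorem sb_disc_abs {c0 C0 : ℝ} {I : Cell} {w : ℝ × ℝ → ℂ} (hw : Admissible c0 C0 I w) (b0 : ℕ) (hb0 : 4 ≤ c0 * 2 ^ b0) (t : ℤ) (hI : I.depth < t)
    (H : Fin 4 → ℤ → ZMod M → ℂ) :
    ‖sbDisc (t + b0) M I w H‖
      ≤ sbB0 C0 * (((M : ℝ) ^ 2)⁻¹ * ∑ u : ZMod M, ∑ v : ZMod M, sbAbs (t + b0) I (fun j n => ‖H j n (sbAp u v j)‖)) := by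
  unfold sbDisc
  rw [norm_mul, Complex.norm_real, Real.norm_eq_abs, abs_of_nonneg (by positivity)]
  calc ((M : ℝ) ^ 2)⁻¹ * ‖∑ u : ZMod M, ∑ v : ZMod M, sbSamp (t + b0) I w (fun j n => H j n (sbAp u v j))‖
      ≤ ((M : ℝ) ^ 2)⁻¹ * ∑ u : ZMod M, ∑ v : ZMod M,
          sbB0 C0 * sbAbs (t + b0) I (fun j n => ‖H j n (sbAp u v j)‖) := by
        refine mul_le_mul_of_nonneg_left ?_ (by positivity)
        refine (norm_sum_le _ _).trans (Finset.sum_le_sum fun u _ => ?_)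
        exact (norm_sum_le _ _).trans (Finset.sum_le_sum fun v _ => sb_clip_samp_abs hw b0 hb0 t hI _)
    _ = _ := by
        simp_rw [← Finset.mul_sum]
        ring

/-- exchange of the sums in the discrete form. -/
theorem sb_clip_disc_eq (τ : ℤ) (I : Cell) (w : ℝ × ℝ → ℂ) (F : Fin 4 → ℤ → ZMod M → ℂ) :
    sbDisc τ M I w F = ((((M : ℝ) ^ 2)⁻¹ : ℝ) : ℂ) * ((((sbDel τ / I.len) ^ 2 : ℝ) : ℂ) *
      ∑ n0 ∈ sbIdx τ I, ∑ n1 ∈ sbIdx τ I, w (sbDel τ * n0, sbDel τ * (n1 - n0)) *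
        ∑ u : ZMod M, ∑ v : ZMod M, ∏ j : Fin 4, F j (sbAp n0 n1 j) (sbAp u v j)) := by
  unfold sbDisc sbSamp
  congr 1
  simp_rw [← Finset.mul_sum]
  congr 1
  simp_rw [Finset.mul_sum]
  calc ∑ u : ZMod M, ∑ v : ZMod M, ∑ n0 ∈ sbIdx τ I, ∑ n1 ∈ sbIdx τ I,
        w (sbDel τ * n0, sbDel τ * (n1 - n0)) * ∏ j : Fin 4, F j (sbAp n0 n1 j) (sbAp u v j)
      = ∑ u : ZMod M, ∑ n0 ∈ sbIdx τ I, ∑ v : ZMod M, ∑ n1 ∈ sbIdx τ I,
        w (sbDel τ * n0, sbDel τ * (n1 - n0)) * ∏ j : Fin 4, F j (sbAp n0 n1 j) (sbAp u v j) :=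
        Finset.sum_congr rfl fun u _ => Finset.sum_comm
    _ = ∑ n0 ∈ sbIdx τ I, ∑ u : ZMod M, ∑ v : ZMod M, ∑ n1 ∈ sbIdx τ I,
        w (sbDel τ * n0, sbDel τ * (n1 - n0)) * ∏ j : Fin 4, F j (sbAp n0 n1 j) (sbAp u v j) :=
        Finset.sum_comm
    _ = ∑ n0 ∈ sbIdx τ I, ∑ u : ZMod M, ∑ n1 ∈ sbIdx τ I, ∑ v : ZMod M,
        w (sbDel τ * n0, sbDel τ * (n1 - n0)) * ∏ j : Fin 4, F j (sbAp n0 n1 j) (sbAp u v j) :=
        Finset.sum_congr rfl fun n0 _ => Finset.sum_congr rfl fun u _ => Finset.sum_comm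
    _ = _ := Finset.sum_congr rfl fun n0 _ => Finset.sum_comm

theorem sb_disc_invariant (hp : M.Prime) (hM : 3 < M) (τ : ℤ) (I : Cell) (w : ℝ × ℝ → ℂ) (γ : ZMod M) (F : Fin 4 → ℤ → ZMod M → ℂ) :
    sbDisc τ M I w (sbG0 γ F) = sbDisc τ M I w F := by
  rw [sb_clip_disc_eq, sb_clip_disc_eq]
  congr 2
  refine Finset.sum_congr rfl fun n0 _ => Finset.sum_congr rfl fun n1 _ => ?_
  congr 1
  exact sb_U_invariant hp hM γ (fun j => F j (sbAp n0 n1 j))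

theorem sb_disc_sub (τ : ℤ) (I : Cell) (w : ℝ × ℝ → ℂ) (a : Fin 4) (A : ℝ) (γ : ZMod M) (F : Fin 4 → ℤ → ZMod M → ℂ) :
    sbDisc τ M I w (sbG0 γ F) - sbDisc τ M I w (sbG a A γ F)
      = sbDisc τ M I w (fun j n x => if j = a then sbG0 γ F j n x - sbClip A (sbG0 γ F j n x) else sbG0 γ F j n x) := by
  rw [sb_clip_disc_eq, sb_clip_disc_eq, sb_clip_disc_eq, ← mul_sub, ← mul_sub, ← Finset.sum_sub_distrib]
  congr 2
  refine Finset.sum_congr rfl fun n0 _ => ?_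
  rw [← Finset.sum_sub_distrib]
  refine Finset.sum_congr rfl fun n1 _ => ?_
  rw [← mul_sub, ← Finset.sum_sub_distrib]
  congr 1
  refine Finset.sum_congr rfl fun u _ => ?_
  rw [← Finset.sum_sub_distrib]
  refine Finset.sum_congr rfl fun v _ => ?_
  rw [← Finset.mul_prod_erase Finset.univ _ (Finset.mem_univ a),
    ← Finset.mul_prod_erase Finset.univ (fun j => sbG a A γ F j (sbAp n0 n1 j) (sbAp u v j)) (Finset.mem_univ a),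
    ← Finset.mul_prod_erase Finset.univ (fun j => if j = a then _ else _) (Finset.mem_univ a)]
  have e1 : ∏ j ∈ Finset.univ.erase a, sbG a A γ F j (sbAp n0 n1 j) (sbAp u v j)
      = ∏ j ∈ Finset.univ.erase a, sbG0 γ F j (sbAp n0 n1 j) (sbAp u v j) :=
    Finset.prod_congr rfl fun j hj => by rw [sb_G_of_ne a A γ F j (Finset.ne_of_mem_erase hj)]
  have e2 : ∏ j ∈ Finset.univ.erase a, (if j = a then sbG0 γ F j (sbAp n0 n1 j) (sbAp u v j) -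
        sbClip A (sbG0 γ F j (sbAp n0 n1 j) (sbAp u v j)) else sbG0 γ F j (sbAp n0 n1 j) (sbAp u v j))
      = ∏ j ∈ Finset.univ.erase a, sbG0 γ F j (sbAp n0 n1 j) (sbAp u v j) :=
    Finset.prod_congr rfl fun j hj => by rw [if_neg (Finset.ne_of_mem_erase hj)]
  rw [e1, e2, if_pos rfl]
  have e3 : sbG a A γ F a (sbAp n0 n1 a) (sbAp u v a) = sbClip A (sbG0 γ F a (sbAp n0 n1 a) (sbAp u v a)) := by
    simp [sbG]
  rw [e3]
  ring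

/-- the function on the ring `ℤ × ZMod M`. -/
noncomputable def sbClipH (τ : ℤ) (I : Cell) (H : ℤ → ZMod M → ℂ) (q : ℤ × ZMod M) : ℝ :=
  if q.1 ∈ sbInn τ I then ‖H q.1 q.2‖ else 0

omit [NeZero M] in
theorem sb_clip_H_nonneg (τ : ℤ) (I : Cell) (H : ℤ → ZMod M → ℂ) (q : ℤ × ZMod M) : 0 ≤ sbClipH τ I H q := by
  unfold sbClipH; split_ifs <;> positivity

theorem sb_clip_H_supp (τ : ℤ) (I : Cell) (H : ℤ → ZMod M → ℂ) (q : ℤ × ZMod M)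
    (hq : q ∉ sbInn τ I ×ˢ (Finset.univ : Finset (ZMod M))) : sbClipH τ I H q = 0 := by
  unfold sbClipH
  rw [if_neg]
  intro h
  exact hq (Finset.mem_product.2 ⟨h, Finset.mem_univ _⟩)

omit [NeZero M] in
theorem sb_clip_ap_prod (n0 n1 : ℤ) (u v : ZMod M) (j : Fin 4) :
    sbAp ((n0, u) : ℤ × ZMod M) (n1, v) j = (sbAp n0 n1 j, sbAp u v j) := by
  simp [sbAp, Prod.ext_iff]

/-- the averaged absolute sum as a progression sum in `ℤ × ZMod M`. -/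
theorem sb_clip_avg_eq (τ : ℤ) (I : Cell) (H : Fin 4 → ℤ → ZMod M → ℂ) :
    ((M : ℝ) ^ 2)⁻¹ * ∑ u : ZMod M, ∑ v : ZMod M, sbAbs τ I (fun j n => ‖H j n (sbAp u v j)‖)
      = (sbDel τ / I.len * (M : ℝ)⁻¹) ^ 2 * ∑ p0 ∈ sbInn τ I ×ˢ (Finset.univ : Finset (ZMod M)),
          ∑ p1 ∈ sbInn τ I ×ˢ (Finset.univ : Finset (ZMod M)), ∏ j : Fin 4, sbClipH τ I (H j) (sbAp p0 p1 j) := by
  have e : ∀ (n0 n1 : ℤ) (u v : ZMod M), ∏ j : Fin 4, sbClipH τ I (H j) (sbAp ((n0, u) : ℤ × ZMod M) (n1, v) j)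
      = if ∀ j : Fin 4, sbAp n0 n1 j ∈ sbInn τ I then ∏ j : Fin 4, ‖H j (sbAp n0 n1 j) (sbAp u v j)‖ else 0 := by
    intro n0 n1 u v
    simp only [sb_clip_ap_prod, sbClipH]
    rw [Finset.prod_ite_zero]
    simp
  unfold sbAbs
  simp_rw [Finset.sum_product, e, ← Finset.mul_sum]
  have hsw : ∑ u : ZMod M, ∑ v : ZMod M, ∑ n0 ∈ sbInn τ I, ∑ n1 ∈ sbInn τ I,
        (if ∀ j : Fin 4, sbAp n0 n1 j ∈ sbInn τ I then ∏ j : Fin 4, ‖H j (sbAp n0 n1 j) (sbAp u v j)‖ else 0)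
      = ∑ n0 ∈ sbInn τ I, ∑ u : ZMod M, ∑ n1 ∈ sbInn τ I, ∑ v : ZMod M,
        (if ∀ j : Fin 4, sbAp n0 n1 j ∈ sbInn τ I then ∏ j : Fin 4, ‖H j (sbAp n0 n1 j) (sbAp u v j)‖ else 0) := by
    rw [Finset.sum_comm]
    calc _ = ∑ v : ZMod M, ∑ n0 ∈ sbInn τ I, ∑ u : ZMod M, ∑ n1 ∈ sbInn τ I,
        (if ∀ j : Fin 4, sbAp n0 n1 j ∈ sbInn τ I then ∏ j : Fin 4, ‖H j (sbAp n0 n1 j) (sbAp u v j)‖ else 0) :=
          Finset.sum_congr rfl fun v _ => Finset.sum_comm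
      _ = ∑ n0 ∈ sbInn τ I, ∑ v : ZMod M, ∑ u : ZMod M, ∑ n1 ∈ sbInn τ I,
        (if ∀ j : Fin 4, sbAp n0 n1 j ∈ sbInn τ I then ∏ j : Fin 4, ‖H j (sbAp n0 n1 j) (sbAp u v j)‖ else 0) :=
          Finset.sum_comm
      _ = ∑ n0 ∈ sbInn τ I, ∑ u : ZMod M, ∑ v : ZMod M, ∑ n1 ∈ sbInn τ I,
        (if ∀ j : Fin 4, sbAp n0 n1 j ∈ sbInn τ I then ∏ j : Fin 4, ‖H j (sbAp n0 n1 j) (sbAp u v j)‖ else 0) :=
          Finset.sum_congr rfl fun n0 _ => Finset.sum_comm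
      _ = _ := Finset.sum_congr rfl fun n0 _ => Finset.sum_congr rfl fun u _ => Finset.sum_comm
  rw [hsw]
  ring

/-- local means as sums over `ℤ × ZMod M`. -/
theorem sb_clip_loc_eq (τ : ℤ) (I : Cell) (k : ℕ) (H : ℤ → ZMod M → ℂ) :
    sbLoc τ I (fun n => sbFp k (H n)) = sbDel τ / I.len * (M : ℝ)⁻¹ *
      ∑ p ∈ sbInn τ I ×ˢ (Finset.univ : Finset (ZMod M)), sbClipH τ I H p ^ k := by
  unfold sbLoc sbFp
  rw [Finset.sum_product, ← Finset.mul_sum, mul_assoc]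
  congr 2
  refine Finset.sum_congr rfl fun n hn => Finset.sum_congr rfl fun x _ => ?_
  simp only [sbClipH]
  rw [if_pos hn]

theorem sb_abs_avg2 (τ : ℤ) (I : Cell) (H : Fin 4 → ℤ → ZMod M → ℂ) :
    ((M : ℝ) ^ 2)⁻¹ * ∑ u : ZMod M, ∑ v : ZMod M, sbAbs τ I (fun j n => ‖H j n (sbAp u v j)‖)
      ≤ ∏ j : Fin 4, Real.sqrt (sbLoc τ I (fun n => sbFp 2 (H j n))) := by
  have hμ : 0 ≤ sbDel τ / I.len * (M : ℝ)⁻¹ := mul_nonneg (sb_clip_lam_nonneg τ I) (by positivity)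
  rw [sb_clip_avg_eq]
  simp_rw [sb_clip_loc_eq, Real.sqrt_mul hμ]
  rw [Finset.prod_mul_distrib, Finset.prod_const]
  have hc4 : (Finset.univ : Finset (Fin 4)).card = 4 := by simp
  have e : Real.sqrt (sbDel τ / I.len * (M : ℝ)⁻¹) ^ 4 = (sbDel τ / I.len * (M : ℝ)⁻¹) ^ 2 := by
    have : Real.sqrt (sbDel τ / I.len * (M : ℝ)⁻¹) ^ 4 = (Real.sqrt (sbDel τ / I.len * (M : ℝ)⁻¹) ^ 2) ^ 2 := by ring
    rw [this, Real.sq_sqrt hμ]
  rw [hc4, e]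
  refine mul_le_mul_of_nonneg_left ?_ (by positivity)
  exact sb_H1 _ (fun j => sbClipH τ I (H j)) (fun j q => sb_clip_H_nonneg τ I (H j) q)
    (fun j q hq => sb_clip_H_supp τ I (H j) q hq)

theorem sb_abs_avg3 (hp : M.Prime) (hM : 3 < M) (τ : ℤ) (I : Cell) (a : Fin 4) (H : Fin 4 → ℤ → ZMod M → ℂ) :
    ((M : ℝ) ^ 2)⁻¹ * ∑ u : ZMod M, ∑ v : ZMod M, sbAbs τ I (fun j n => ‖H j n (sbAp u v j)‖)
      ≤ sbLoc τ I (fun n => sbFp 1 (H a n)) * ∏ j ∈ Finset.univ.erase a, (sbLoc τ I (fun n => sbFp 3 (H j n))) ^ (1 / 3 : ℝ) := by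
  have := Fact.mk hp
  have hμ : 0 ≤ sbDel τ / I.len * (M : ℝ)⁻¹ := mul_nonneg (sb_clip_lam_nonneg τ I) (by positivity)
  have h2 : ∀ x : ℤ × ZMod M, 2 * x = 0 → x = 0 := by
    rintro ⟨n, x⟩ h
    simp only [Prod.ext_iff, Prod.fst_mul, Prod.snd_mul, Prod.fst_zero, Prod.snd_zero, Prod.fst_ofNat, Prod.snd_ofNat] at h ⊢
    refine ⟨by omega, ?_⟩
    exact (mul_eq_zero.1 h.2).resolve_left (sb_four_two_ne (by omega))
  have h3 : ∀ x : ℤ × ZMod M, 3 * x = 0 → x = 0 := by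
    rintro ⟨n, x⟩ h
    simp only [Prod.ext_iff, Prod.fst_mul, Prod.snd_mul, Prod.fst_zero, Prod.snd_zero, Prod.fst_ofNat, Prod.snd_ofNat] at h ⊢
    refine ⟨by omega, ?_⟩
    exact (mul_eq_zero.1 h.2).resolve_left (sb_four_three_ne hM)
  have hcard : (Finset.univ.erase a : Finset (Fin 4)).card = 3 := by
    rw [Finset.card_erase_of_mem (Finset.mem_univ a)]; simp
  rw [sb_clip_avg_eq]
  simp_rw [sb_clip_loc_eq, Real.mul_rpow hμ (Finset.sum_nonneg fun p _ => pow_nonneg (sb_clip_H_nonneg τ I _ p) 3)]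
  rw [Finset.prod_mul_distrib, Finset.prod_const, hcard]
  have e : ((sbDel τ / I.len * (M : ℝ)⁻¹) ^ (1 / 3 : ℝ)) ^ 3 = sbDel τ / I.len * (M : ℝ)⁻¹ := by
    have := Real.rpow_inv_natCast_pow hμ (show (3 : ℕ) ≠ 0 by norm_num)
    have e3 : (1 / 3 : ℝ) = ((3 : ℕ) : ℝ)⁻¹ := by norm_num
    rw [e3, this]
  rw [e]
  have hH2 := sb_H2 h2 h3 (sbInn τ I ×ˢ (Finset.univ : Finset (ZMod M))) a (fun j => sbClipH τ I (H j))
    (fun j q => sb_clip_H_nonneg τ I (H j) q) (fun j q hq => sb_clip_H_supp τ I (H j) q hq)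
  calc _ ≤ (sbDel τ / I.len * (M : ℝ)⁻¹) ^ 2 * ((∑ x ∈ sbInn τ I ×ˢ (Finset.univ : Finset (ZMod M)), sbClipH τ I (H a) x) *
        ∏ j ∈ Finset.univ.erase a, (∑ x ∈ sbInn τ I ×ˢ (Finset.univ : Finset (ZMod M)), sbClipH τ I (H j) x ^ 3) ^ (1 / 3 : ℝ)) :=
        mul_le_mul_of_nonneg_left hH2 (by positivity)
    _ = _ := by
        simp only [pow_one]
        ring

/-- power mean `3 → 4` for a measure of mass at most one. -/
theorem sb_clip_pm34 {ι : Type*} (D : Finset ι) (μ : ℝ) (hμ : 0 ≤ μ) (hm : μ * D.card ≤ 1) (x : ι → ℝ) (hx : ∀ d ∈ D, 0 ≤ x d) :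
    (μ * ∑ d ∈ D, x d ^ 3) ^ (1 / 3 : ℝ) ≤ (μ * ∑ d ∈ D, x d ^ 4) ^ (1 / 4 : ℝ) := by
  set Y := μ * ∑ d ∈ D, x d ^ 4 with hY
  set Z := μ * ∑ d ∈ D, x d ^ 3 with hZ
  set W := μ * ∑ d ∈ D, x d ^ 2 with hW
  have hY0 : 0 ≤ Y := mul_nonneg hμ (Finset.sum_nonneg fun d hd => pow_nonneg (hx d hd) 4)
  have hZ0 : 0 ≤ Z := mul_nonneg hμ (Finset.sum_nonneg fun d hd => pow_nonneg (hx d hd) 3)
  have hW0 : 0 ≤ W := mul_nonneg hμ (Finset.sum_nonneg fun d hd => pow_nonneg (hx d hd) 2)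
  have c1 : Z ^ 2 ≤ W * Y := by
    have h := Finset.sum_mul_sq_le_sq_mul_sq D x (fun d => x d ^ 2)
    have e1 : ∀ d, x d * x d ^ 2 = x d ^ 3 := fun d => by ring
    have e2 : ∀ d, (x d ^ 2) ^ 2 = x d ^ 4 := fun d => by ring
    simp only [e1, e2] at h
    calc Z ^ 2 = μ ^ 2 * (∑ d ∈ D, x d ^ 3) ^ 2 := by rw [hZ]; ring
      _ ≤ μ ^ 2 * ((∑ d ∈ D, x d ^ 2) * ∑ d ∈ D, x d ^ 4) := mul_le_mul_of_nonneg_left h (by positivity)
      _ = W * Y := by rw [hW, hY]; ring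
  have c2 : W ^ 2 ≤ Y := by
    have h : (∑ d ∈ D, x d ^ 2) ^ 2 ≤ D.card * ∑ d ∈ D, (x d ^ 2) ^ 2 := sq_sum_le_card_mul_sum_sq
    have e2 : ∀ d, (x d ^ 2) ^ 2 = x d ^ 4 := fun d => by ring
    simp only [e2] at h
    calc W ^ 2 = μ ^ 2 * (∑ d ∈ D, x d ^ 2) ^ 2 := by rw [hW]; ring
      _ ≤ μ ^ 2 * (D.card * ∑ d ∈ D, x d ^ 4) := mul_le_mul_of_nonneg_left h (by positivity)
      _ = (μ * D.card) * Y := by rw [hY]; ring
      _ ≤ 1 * Y := mul_le_mul_of_nonneg_right hm hY0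
      _ = Y := one_mul _
  have c3 : Z ^ 4 ≤ Y ^ 3 := by
    calc Z ^ 4 = (Z ^ 2) ^ 2 := by ring
      _ ≤ (W * Y) ^ 2 := pow_le_pow_left₀ (by positivity) c1 2
      _ = W ^ 2 * Y ^ 2 := by ring
      _ ≤ Y * Y ^ 2 := mul_le_mul_of_nonneg_right c2 (by positivity)
      _ = Y ^ 3 := by ring
  have c4 := Real.rpow_le_rpow (by positivity) c3 (show (0 : ℝ) ≤ 1 / 12 by norm_num)
  rw [← Real.rpow_natCast, ← Real.rpow_natCast, ← Real.rpow_mul hZ0, ← Real.rpow_mul hY0] at c4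
  have a1 : ((4 : ℕ) : ℝ) * (1 / 12) = 1 / 3 := by norm_num
  have a2 : ((3 : ℕ) : ℝ) * (1 / 12) = 1 / 4 := by norm_num
  rw [a1, a2] at c4
  exact c4

theorem sb_loc_34 (τ : ℤ) (I : Cell) (hI : I.depth ≤ τ) (H : ℤ → ZMod M → ℂ) :
    (sbLoc τ I (fun n => sbFp 3 (H n))) ^ (1 / 3 : ℝ) ≤ (sbLoc τ I (fun n => sbFp 4 (H n))) ^ (1 / 4 : ℝ) := by
  have hμ : 0 ≤ sbDel τ / I.len * (M : ℝ)⁻¹ := mul_nonneg (sb_clip_lam_nonneg τ I) (by positivity)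
  rw [sb_clip_loc_eq, sb_clip_loc_eq]
  refine sb_clip_pm34 _ _ hμ ?_ _ (fun d _ => sb_clip_H_nonneg τ I H d)
  rw [Finset.card_product, Finset.card_univ, ZMod.card]
  have hM0 : (M : ℝ) ≠ 0 := by exact_mod_cast NeZero.ne M
  push_cast
  have e : sbDel τ / I.len * (M : ℝ)⁻¹ * (((sbInn τ I).card : ℝ) * M) = sbDel τ / I.len * ((sbInn τ I).card : ℝ) := by
    field_simp
  rw [e]
  exact sb_inn_card_le τ I hI

theorem sb_clip_loc_mono (τ : ℤ) (I : Cell) (g g' : ℤ → ℝ) (h : ∀ n ∈ sbInn τ I, g n ≤ g' n) :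
    sbLoc τ I g ≤ sbLoc τ I g' := by
  unfold sbLoc
  exact mul_le_mul_of_nonneg_left (Finset.sum_le_sum h) (sb_clip_lam_nonneg τ I)

theorem sb_clip_loc_nonneg (τ : ℤ) (I : Cell) (g : ℤ → ℝ) (h : ∀ n ∈ sbInn τ I, 0 ≤ g n) : 0 ≤ sbLoc τ I g := by
  unfold sbLoc
  exact mul_nonneg (sb_clip_lam_nonneg τ I) (Finset.sum_nonneg h)

theorem sb_clip_loc_smul (τ : ℤ) (I : Cell) (c : ℝ) (g : ℤ → ℝ) : sbLoc τ I (fun n => c * g n) = c * sbLoc τ I g := by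
  unfold sbLoc
  rw [← Finset.mul_sum]
  ring

/-- the clipping error of one cell, deterministic form. -/
theorem sb_disc_clip {c0 C0 : ℝ} {I : Cell} {w : ℝ × ℝ → ℂ} (hw : Admissible c0 C0 I w) (hC0 : 1 ≤ C0) (b0 : ℕ) (hb0 : 4 ≤ c0 * 2 ^ b0) (t : ℤ)
    (hI : I.depth < t) (hp : M.Prime) (hM : 3 < M) (a : Fin 4) (A : ℝ) (hA : 0 < A) (γ : ZMod M) (F : Fin 4 → ℤ → ZMod M → ℂ) :
    ‖sbDisc (t + b0) M I w (sbG0 γ F) - sbDisc (t + b0) M I w (sbG a A γ F)‖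
      ≤ sbB0 C0 / A * (sbLoc (t + b0) I (fun n => sbFp 2 (F a n)) *
          ∏ j ∈ Finset.univ.erase a, (sbLoc (t + b0) I (fun n => sbFp 4 (sbG0 γ F j n))) ^ (1 / 4 : ℝ)) := by
  have hB0 : 0 ≤ sbB0 C0 := le_trans zero_le_one (sb_B0_one_le C0 hC0)
  have hdep : I.depth ≤ t + b0 := by
    have : (0 : ℤ) ≤ (b0 : ℤ) := Int.natCast_nonneg b0
    omega
  rw [sb_disc_sub]
  set K : Fin 4 → ℤ → ZMod M → ℂ :=
    fun j n x => if j = a then sbG0 γ F j n x - sbClip A (sbG0 γ F j n x) else sbG0 γ F j n x with hK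
  refine (sb_disc_abs hw b0 hb0 t hI K).trans ?_
  have h1 := sb_abs_avg3 hp hM (t + b0) I a K
  have h2 : sbLoc (t + b0) I (fun n => sbFp 1 (K a n)) ≤ A⁻¹ * sbLoc (t + b0) I (fun n => sbFp 2 (F a n)) := by
    rw [← sb_clip_loc_smul]
    refine sb_clip_loc_mono _ _ _ _ fun n _ => ?_
    rw [← sb_G0_fp2 γ F a n]
    unfold sbFp
    rw [mul_left_comm, Finset.mul_sum (a := A⁻¹)]
    refine mul_le_mul_of_nonneg_left (Finset.sum_le_sum fun x _ => ?_)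
      (inv_nonneg.2 (Nat.cast_nonneg M))
    simp only [hK, if_true, pow_one]
    refine (sb_clip_sub_le A hA _).trans (le_of_eq ?_)
    rw [div_eq_inv_mul]
  have h3 : ∏ j ∈ Finset.univ.erase a, (sbLoc (t + b0) I (fun n => sbFp 3 (K j n))) ^ (1 / 3 : ℝ) ≤
      ∏ j ∈ Finset.univ.erase a, (sbLoc (t + b0) I (fun n => sbFp 4 (sbG0 γ F j n))) ^ (1 / 4 : ℝ) := by
    refine Finset.prod_le_prod (fun j _ => Real.rpow_nonneg
      (sb_clip_loc_nonneg _ _ _ fun n _ => sb_Fp_nonneg _ _) _) fun j hj => ?_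
    have e : ∀ n, K j n = sbG0 γ F j n := by
      intro n
      funext x
      simp only [hK, if_neg (Finset.ne_of_mem_erase hj)]
    simp_rw [e]
    exact sb_loc_34 (t + b0) I hdep _
  have hL0 : 0 ≤ sbLoc (t + b0) I (fun n => sbFp 2 (F a n)) :=
    sb_clip_loc_nonneg _ _ _ fun n _ => sb_Fp_nonneg _ _
  calc sbB0 C0 * (((M : ℝ) ^ 2)⁻¹ * ∑ u : ZMod M, ∑ v : ZMod M, sbAbs (t + b0) I (fun j n => ‖K j n (sbAp u v j)‖))
      ≤ sbB0 C0 * ((A⁻¹ * sbLoc (t + b0) I (fun n => sbFp 2 (F a n))) *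
          ∏ j ∈ Finset.univ.erase a, (sbLoc (t + b0) I (fun n => sbFp 4 (sbG0 γ F j n))) ^ (1 / 4 : ℝ)) := by
        refine mul_le_mul_of_nonneg_left (h1.trans ?_) hB0
        refine mul_le_mul h2 h3 (Finset.prod_nonneg fun j _ => Real.rpow_nonneg
          (sb_clip_loc_nonneg _ _ _ fun n _ => sb_Fp_nonneg _ _) _) (mul_nonneg (by positivity) hL0)
    _ = _ := by
        rw [div_eq_mul_inv]
        ring

theorem sb_clip_loc_sum {ι : Type*} (τ : ℤ) (I : Cell) (s : Finset ι) (c : ι → ℝ) (g : ι → ℤ → ℝ) :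
    ∑ i ∈ s, c i * sbLoc τ I (g i) = sbLoc τ I (fun n => ∑ i ∈ s, c i * g i n) := by
  unfold sbLoc
  rw [Finset.sum_comm, Finset.mul_sum]
  refine Finset.sum_congr rfl fun i _ => ?_
  rw [← Finset.mul_sum]
  ring

/-- the clipping error of one cell, averaged. -/
theorem sb_clip_avg {c0 C0 : ℝ} {t : ℤ} {b0 : ℕ} {S : Finset Cell} {w : Cell → ℝ × ℝ → ℂ} {Ω : Type} [Fintype Ω] {pr : Ω → ℝ}
    {F : Ω → Fin 4 → ℤ → ZMod M → ℂ} {ms : Fin 4 → ℤ → ℝ} {a b : Fin 4} {Cm : ℝ} {Nall : Finset ℤ} {E : Fin 4 → ℝ}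
    (h : SbDiscHyp c0 C0 t b0 S w pr M F ms a b Cm Nall E) (hCm : 0 ≤ Cm) (I : Cell) (hI : I ∈ S) :
    ∑ σ, pr σ * ((M : ℝ)⁻¹ * ∑ γ : ZMod M, (sbLoc (t + b0) I (fun n => sbFp 2 (F σ a n)) *
        ∏ j ∈ Finset.univ.erase a, (sbLoc (t + b0) I (fun n => sbFp 4 (sbG0 γ (F σ) j n))) ^ (1 / 4 : ℝ)))
      ≤ 2 * 2 ^ b0 * Cm ^ 5 := by
  set τ := t + b0 with hτ
  have hM0 : (M : ℝ) ≠ 0 := by exact_mod_cast NeZero.ne M
  have hMi : (0 : ℝ) ≤ (M : ℝ)⁻¹ := by positivity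
  have hlam := sb_clip_lam_nonneg τ I
  set L2 : Ω → ℝ := fun σ => sbLoc τ I (fun n => sbFp 2 (F σ a n)) with hL2
  set L4 : Ω → ZMod M → Fin 4 → ℝ := fun σ γ j => sbLoc τ I (fun n => sbFp 4 (sbG0 γ (F σ) j n)) with hL4
  have hL20 : ∀ σ, 0 ≤ L2 σ := fun σ => sb_clip_loc_nonneg _ _ _ fun n _ => sb_Fp_nonneg _ _
  have hL40 : ∀ σ γ j, 0 ≤ L4 σ γ j := fun σ γ j => sb_clip_loc_nonneg _ _ _ fun n _ => sb_Fp_nonneg _ _
  set X : Fin 4 → Ω × ZMod M → ℝ := fun j ξ => if j = a then L2 ξ.1 else (L4 ξ.1 ξ.2 j) ^ (1 / 4 : ℝ) with hX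
  have hX0 : ∀ j ξ, 0 ≤ X j ξ := by
    intro j ξ
    simp only [hX]
    split_ifs
    · exact hL20 _
    · exact Real.rpow_nonneg (hL40 _ _ _) _
  set pr' : Ω × ZMod M → ℝ := fun ξ => pr ξ.1 * (M : ℝ)⁻¹ with hpr'
  have hpr'0 : ∀ ξ, 0 ≤ pr' ξ := fun ξ => mul_nonneg (h.pr_nonneg _) hMi
  -- step 0
  have s0 : ∑ σ, pr σ * ((M : ℝ)⁻¹ * ∑ γ : ZMod M, (L2 σ * ∏ j ∈ Finset.univ.erase a, (L4 σ γ j) ^ (1 / 4 : ℝ)))
      = ∑ ξ, pr' ξ * ∏ j : Fin 4, X j ξ := by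
    rw [Fintype.sum_prod_type]
    refine Finset.sum_congr rfl fun σ _ => ?_
    rw [← mul_assoc, Finset.mul_sum]
    refine Finset.sum_congr rfl fun γ _ => ?_
    rw [← Finset.mul_prod_erase Finset.univ _ (Finset.mem_univ a)]
    simp only [hpr', hX, if_true]
    congr 2
    exact Finset.prod_congr rfl fun j hj => by rw [if_neg (Finset.ne_of_mem_erase hj)]
  -- the slot `a`
  have sa : ∑ ξ, pr' ξ * X a ξ ^ 4 ≤ (Cm ^ 2) ^ 4 := by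
    have e : ∑ ξ, pr' ξ * X a ξ ^ 4 = ∑ σ, pr σ * L2 σ ^ 4 := by
      rw [Fintype.sum_prod_type]
      refine Finset.sum_congr rfl fun σ _ => ?_
      simp only [hpr', hX, if_true]
      rw [Finset.sum_const, Finset.card_univ, ZMod.card, nsmul_eq_mul]
      field_simp
    rw [e]
    have m1 := sb_mink pr h.pr_nonneg (sbInn τ I) (fun _ => sbDel τ / I.len) (fun _ _ => hlam)
      (fun σ n => sbFp 2 (F σ a n)) (fun n => Cm ^ 2 * ms a n) (fun σ n _ => sb_Fp_nonneg _ _)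
      (fun n _ => mul_nonneg (by positivity) (h.ms_nonneg a n)) (fun n _ => h.mom a n)
    simp only [← Finset.mul_sum] at m1
    refine le_trans (le_of_eq ?_) (m1.trans ?_)
    · rfl
    · refine pow_le_pow_left₀ (mul_nonneg hlam (mul_nonneg (by positivity) (Finset.sum_nonneg fun n _ => h.ms_nonneg a n))) ?_ 4
      have := h.loc I hI a
      unfold sbLoc at this
      calc sbDel τ / I.len * (Cm ^ 2 * ∑ n ∈ sbInn τ I, ms a n)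
          = Cm ^ 2 * (sbDel τ / I.len * ∑ n ∈ sbInn τ I, ms a n) := by ring
        _ ≤ Cm ^ 2 * 1 := mul_le_mul_of_nonneg_left this (by positivity)
        _ = Cm ^ 2 := mul_one _
  -- the other slots
  have sj : ∀ j, j ≠ a → ∑ ξ, pr' ξ * X j ξ ^ 4 ≤ 2 * 2 ^ b0 * Cm ^ 4 := by
    intro j hj
    have e : ∑ ξ, pr' ξ * X j ξ ^ 4 = sbLoc τ I (fun n => ∑ σ, pr σ * ((M : ℝ)⁻¹ * ∑ γ : ZMod M, sbFp 4 (sbG0 γ (F σ) j n))) := by
      rw [Fintype.sum_prod_type, ← sb_clip_loc_sum]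
      refine Finset.sum_congr rfl fun σ _ => ?_
      simp only [hpr', hX, if_neg hj]
      have e4 : ∀ γ, ((L4 σ γ j) ^ (1 / 4 : ℝ)) ^ 4 = L4 σ γ j := by
        intro γ
        have := Real.rpow_inv_natCast_pow (hL40 σ γ j) (show (4 : ℕ) ≠ 0 by norm_num)
        have e3 : (1 / 4 : ℝ) = ((4 : ℕ) : ℝ)⁻¹ := by norm_num
        rw [e3, this]
      simp_rw [e4, mul_assoc]
      rw [← Finset.mul_sum]
      congr 1
      have := sb_clip_loc_sum τ I (Finset.univ : Finset (ZMod M)) (fun _ => (M : ℝ)⁻¹)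
        (fun γ n => sbFp 4 (sbG0 γ (F σ) j n))
      simp only [← Finset.mul_sum] at this
      simp only [hL4, ← Finset.mul_sum]
      exact this
    rw [e]
    have hpt : ∀ n ∈ sbInn τ I, ∑ σ, pr σ * ((M : ℝ)⁻¹ * ∑ γ : ZMod M, sbFp 4 (sbG0 γ (F σ) j n))
        ≤ (2 * 2 ^ b0 * Cm ^ 4) * ms j n := by
      intro n _
      have h1 : ∑ σ, pr σ * ((M : ℝ)⁻¹ * ∑ γ : ZMod M, sbFp 4 (sbG0 γ (F σ) j n))
          ≤ ∑ σ, pr σ * (2 * sbFp 2 (F σ j n) ^ 2) :=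
        Finset.sum_le_sum fun σ _ => mul_le_mul_of_nonneg_left (sb_G0_fp4_avg h.prime h.M_gt (F σ) j n) (h.pr_nonneg σ)
      have h2 : ∑ σ, pr σ * sbFp 2 (F σ j n) ^ 2 ≤ (Cm ^ 2 * ms j n) ^ 2 := by
        refine (sb_jensen24 pr h.pr_nonneg h.pr_sum _).trans ((Real.sqrt_le_sqrt (h.mom j n)).trans (le_of_eq ?_))
        have : (Cm ^ 2 * ms j n) ^ 4 = ((Cm ^ 2 * ms j n) ^ 2) ^ 2 := by ring
        rw [this, Real.sqrt_sq (by positivity)]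
      have h3 : ms j n ^ 2 ≤ 2 ^ b0 * ms j n := by
        rw [sq]
        exact mul_le_mul_of_nonneg_right (h.reg j hj n) (h.ms_nonneg j n)
      calc _ ≤ ∑ σ, pr σ * (2 * sbFp 2 (F σ j n) ^ 2) := h1
        _ = 2 * ∑ σ, pr σ * sbFp 2 (F σ j n) ^ 2 := by
            rw [Finset.mul_sum]; exact Finset.sum_congr rfl fun σ _ => by ring
        _ ≤ 2 * (Cm ^ 2 * ms j n) ^ 2 := mul_le_mul_of_nonneg_left h2 (by norm_num)
        _ = 2 * Cm ^ 4 * ms j n ^ 2 := by ring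
        _ ≤ 2 * Cm ^ 4 * (2 ^ b0 * ms j n) := mul_le_mul_of_nonneg_left h3 (by positivity)
        _ = _ := by ring
    refine (sb_clip_loc_mono _ _ _ _ hpt).trans ?_
    rw [sb_clip_loc_smul]
    exact mul_le_of_le_one_right (by positivity) (h.loc I hI j)
  -- conclusion
  have hcard : (Finset.univ.erase a : Finset (Fin 4)).card = 3 := by
    rw [Finset.card_erase_of_mem (Finset.mem_univ a)]; simp
  have hsum0 : ∀ j, 0 ≤ ∑ ξ, pr' ξ * X j ξ ^ 4 := fun j =>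
    Finset.sum_nonneg fun ξ _ => mul_nonneg (hpr'0 ξ) (pow_nonneg (hX0 j ξ) 4)
  have e14 : (1 / 4 : ℝ) = ((4 : ℕ) : ℝ)⁻¹ := by norm_num
  set r : ℝ := (2 * 2 ^ b0 : ℝ) ^ (1 / 4 : ℝ) with hr
  have hR1 : (1 : ℝ) ≤ 2 * 2 ^ b0 := by
    have : (1 : ℝ) ≤ 2 ^ b0 := one_le_pow₀ (by norm_num)
    linarith
  have hr1 : 1 ≤ r := Real.one_le_rpow hR1 (by norm_num)
  have hr4 : r ^ 4 = 2 * 2 ^ b0 := by
    rw [hr, e14]
    exact Real.rpow_inv_natCast_pow (by positivity) (by norm_num)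
  have hQ : (2 * 2 ^ b0 * Cm ^ 4 : ℝ) ^ (1 / 4 : ℝ) = r * Cm := by
    rw [Real.mul_rpow (by positivity) (by positivity), e14, Real.pow_rpow_inv_natCast hCm (by norm_num), hr, e14]
  calc _ = ∑ ξ, pr' ξ * ∏ j : Fin 4, X j ξ := s0
    _ ≤ ∏ j : Fin 4, (∑ ξ, pr' ξ * X j ξ ^ 4) ^ (1 / 4 : ℝ) := sb_hold4 pr' hpr'0 X hX0
    _ = (∑ ξ, pr' ξ * X a ξ ^ 4) ^ (1 / 4 : ℝ) * ∏ j ∈ Finset.univ.erase a, (∑ ξ, pr' ξ * X j ξ ^ 4) ^ (1 / 4 : ℝ) :=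
        (Finset.mul_prod_erase Finset.univ _ (Finset.mem_univ a)).symm
    _ ≤ ((Cm ^ 2) ^ 4) ^ (1 / 4 : ℝ) * ∏ _j ∈ Finset.univ.erase a, (2 * 2 ^ b0 * Cm ^ 4 : ℝ) ^ (1 / 4 : ℝ) := by
        refine mul_le_mul (Real.rpow_le_rpow (hsum0 a) sa (by norm_num)) ?_
          (Finset.prod_nonneg fun j _ => Real.rpow_nonneg (hsum0 j) _) (Real.rpow_nonneg (by positivity) _)
        exact Finset.prod_le_prod (fun j _ => Real.rpow_nonneg (hsum0 j) _) fun j hj =>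
          Real.rpow_le_rpow (hsum0 j) (sj j (Finset.ne_of_mem_erase hj)) (by norm_num)
    _ = Cm ^ 2 * (r * Cm) ^ 3 := by
        rw [Finset.prod_const, hcard, hQ, e14, Real.pow_rpow_inv_natCast (by positivity) (by norm_num)]
    _ = r ^ 3 * Cm ^ 5 := by ring
    _ ≤ r ^ 4 * Cm ^ 5 := by
        refine mul_le_mul_of_nonneg_right ?_ (by positivity)
        exact pow_le_pow_right₀ hr1 (by norm_num)
    _ = _ := by rw [hr4]

/-- the sum of the sampling errors of the discrete core. -/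
theorem sb_err_sum_disc {c0 C0 : ℝ} {t : ℤ} {b0 : ℕ} {S : Finset Cell} {w : Cell → ℝ × ℝ → ℂ} {Ω : Type} [Fintype Ω] {pr : Ω → ℝ}
    {F : Ω → Fin 4 → ℤ → ZMod M → ℂ} {ms : Fin 4 → ℤ → ℝ} {a b : Fin 4} {Cm : ℝ} {Nall : Finset ℤ} {E : Fin 4 → ℝ}
    (h : SbDiscHyp c0 C0 t b0 S w pr M F ms a b Cm Nall E) (hCm : 0 ≤ Cm) :
    ∑ σ, pr σ * ∑ I ∈ S, I.len * (sbDel (t + b0) / I.len * ∏ j : Fin 4, Real.sqrt (sbLoc (t + b0) I (fun n => sbFp 2 (F σ j n))))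
      ≤ Cm ^ 4 * Real.sqrt (E a * E b) := by
  classical
  set τ := t + b0 with hτ
  have hδ := sb_del_pos τ
  have hlen : ∀ I : Cell, 0 < I.len := fun I => by unfold Cell.len; positivity
  -- per cell
  have hcell : ∀ I ∈ S, ∑ σ, pr σ * ∏ j : Fin 4, Real.sqrt (sbLoc τ I (fun n => sbFp 2 (F σ j n)))
      ≤ Cm ^ 4 * (sbDel τ / I.len * Real.sqrt ((∑ n ∈ sbInn τ I, ms a n) * ∑ n ∈ sbInn τ I, ms b n)) := by
    intro I hI
    exact sb_prod_sqrt_mom pr h.pr_nonneg h.pr_sum (sbInn τ I) (sbDel τ / I.len) Cm (sb_clip_lam_nonneg τ I) hCm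
      (fun σ j n => sbFp 2 (F σ j n)) ms (fun σ j n _ => sb_Fp_nonneg _ _) (fun j n _ => h.ms_nonneg j n)
      (fun j n _ => h.mom j n) a b h.ab (fun j => h.loc I hI j)
  -- exchange
  have e1 : ∑ σ, pr σ * ∑ I ∈ S, I.len * (sbDel τ / I.len * ∏ j : Fin 4, Real.sqrt (sbLoc τ I (fun n => sbFp 2 (F σ j n))))
      = ∑ I ∈ S, sbDel τ * ∑ σ, pr σ * ∏ j : Fin 4, Real.sqrt (sbLoc τ I (fun n => sbFp 2 (F σ j n))) := by
    simp_rw [Finset.mul_sum]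
    rw [Finset.sum_comm]
    refine Finset.sum_congr rfl fun I _ => Finset.sum_congr rfl fun σ _ => ?_
    have := (hlen I).ne'
    field_simp
  -- covering
  have hcov : ∀ n ∈ Nall, ∑ I ∈ S.filter (fun I => n ∈ sbInn τ I), sbDel τ / I.len ≤ 1 := by
    intro n _
    have h1 := sb_cover_le S t τ (by rw [hτ]; have : (0 : ℤ) ≤ (b0 : ℤ) := Int.natCast_nonneg b0; omega) h.depth_lt n
    have h2 : ∑ I ∈ S.filter (fun I => n ∈ sbInn τ I), I.len⁻¹ ≤ ∑ I ∈ S.filter (fun I => n ∈ sbIdx τ I), I.len⁻¹ := by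
      refine Finset.sum_le_sum_of_subset_of_nonneg ?_ fun I _ _ => (inv_pos.2 (hlen I)).le
      intro I hI
      simp only [Finset.mem_filter] at hI ⊢
      exact ⟨hI.1, sb_inn_subset_idx τ I hI.2⟩
    have e : ∑ I ∈ S.filter (fun I => n ∈ sbInn τ I), sbDel τ / I.len
        = sbDel τ * ∑ I ∈ S.filter (fun I => n ∈ sbInn τ I), I.len⁻¹ := by
      rw [Finset.mul_sum]
      exact Finset.sum_congr rfl fun I _ => div_eq_mul_inv _ _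
    rw [e]
    calc sbDel τ * ∑ I ∈ S.filter (fun I => n ∈ sbInn τ I), I.len⁻¹ ≤ sbDel τ * (2 : ℝ) ^ t :=
          mul_le_mul_of_nonneg_left (h2.trans h1) hδ.le
      _ = (2 : ℝ) ^ (-(b0 : ℤ)) := by
          unfold sbDel
          rw [← zpow_add₀ (by norm_num)]
          congr 1
          rw [hτ]; ring
      _ ≤ 1 := by
          rw [zpow_neg, zpow_natCast]
          exact inv_le_one_of_one_le₀ (one_le_pow₀ (by norm_num))
  have hcs := sb_cs_cover S Nall (fun I => sbInn τ I) (fun I => sbDel τ / I.len) (fun n => sbDel τ * ms a n)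
    (fun n => sbDel τ * ms b n) (fun I _ => sb_clip_lam_nonneg τ I) (fun n _ => mul_nonneg hδ.le (h.ms_nonneg a n))
    (fun n _ => mul_nonneg hδ.le (h.ms_nonneg b n)) h.sub (by
      intro n hn
      convert hcov n hn)
  simp only [← Finset.mul_sum] at hcs
  rw [e1]
  calc ∑ I ∈ S, sbDel τ * ∑ σ, pr σ * ∏ j : Fin 4, Real.sqrt (sbLoc τ I (fun n => sbFp 2 (F σ j n)))
      ≤ ∑ I ∈ S, sbDel τ * (Cm ^ 4 * (sbDel τ / I.len * Real.sqrt ((∑ n ∈ sbInn τ I, ms a n) * ∑ n ∈ sbInn τ I, ms b n))) :=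
        Finset.sum_le_sum fun I hI => mul_le_mul_of_nonneg_left (hcell I hI) hδ.le
    _ = Cm ^ 4 * ∑ I ∈ S, sbDel τ / I.len *
          Real.sqrt ((sbDel τ * ∑ n ∈ sbInn τ I, ms a n) * (sbDel τ * ∑ n ∈ sbInn τ I, ms b n)) := by
        rw [Finset.mul_sum]
        refine Finset.sum_congr rfl fun I _ => ?_
        have e5 : (sbDel τ * ∑ n ∈ sbInn τ I, ms a n) * (sbDel τ * ∑ n ∈ sbInn τ I, ms b n)
            = sbDel τ ^ 2 * ((∑ n ∈ sbInn τ I, ms a n) * ∑ n ∈ sbInn τ I, ms b n) := by ring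
        rw [e5, Real.sqrt_mul (sq_nonneg _), Real.sqrt_sq hδ.le]
        ring
    _ ≤ Cm ^ 4 * Real.sqrt ((sbDel τ * ∑ n ∈ Nall, ms a n) * (sbDel τ * ∑ n ∈ Nall, ms b n)) :=
        mul_le_mul_of_nonneg_left hcs (by positivity)
    _ ≤ Cm ^ 4 * Real.sqrt (E a * E b) := by
        refine mul_le_mul_of_nonneg_left (Real.sqrt_le_sqrt ?_) (by positivity)
        exact mul_le_mul (h.tot a) (h.tot b) (mul_nonneg hδ.le (Finset.sum_nonneg fun n _ => h.ms_nonneg b n))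
          (le_trans (mul_nonneg hδ.le (Finset.sum_nonneg fun n _ => h.ms_nonneg a n)) (h.tot a))

end Claimed.Agent.R258
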